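import Vale.Agent.P167.H623.Model

/-!
Edges which share an end are negatively correlated.
-/

namespace Vale.Agent.P167.H623

open Finset

set_option linter.unusedSectionVars false

variable {V E : Type*} [Fintype V] [DecidableEq V] [Fintype E] [DecidableEq E]
  (a b : E → V)

theorem TM.mono {S : Finset V} {f : Finset V → ℝ} (h : TM S f) {D D' : Finset V}
    (hD : D ⊆ D') (hS : D' ⊆ S) : f D ≤ f D' := by
  obtain ⟨c, h0, h1⟩ := h
  rw [h1 D (hD.trans hS), h1 D' hS]
  exact sum_le_sum_of_subset_of_nonneg (powerset_mono.2 hD) fun A _ _ => h0 A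

theorem XX_anti (w : E → ℝ) (s : ℝ) (hw : ∀ e, 0 ≤ w e) (hs0 : 0 ≤ s) (hs : s < 1)
    (D : Finset V) (x : V) : XX a b w s D ≤ XX a b w s (D \ {x}) := by
  rw [XX_wire]
  have h1 := (NN_ratio a b w s hw hs0 hs zero_le_one {x}).nonneg (subset_univ D)
  beta_reduce at h1
  have h2 := XX_pos a b w s hw hs D
  have h3 : 0 ≤ NN a b w (1 - s) 1 {x} D := by
    by_contra h
    push Not at h
    exact absurd h1 (not_le.2 (div_neg_of_neg_of_pos h h2))
  nlinarith

theorem XX_sub (w : E → ℝ) (s : ℝ) (hw : ∀ e, 0 ≤ w e) (hs0 : 0 ≤ s) (hs : s < 1)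
    (D : Finset V) (x y : V) :
    XX a b w s ((D \ {x}) \ {y}) * XX a b w s D ≤
      XX a b w s (D \ {x}) * XX a b w s (D \ {y}) := by
  have hpos := XX_pos a b w s hw hs
  by_cases hx : x ∈ D
  · by_cases hxy : x = y
    · subst hxy
      rw [_root_.sdiff_idem]
      exact mul_le_mul_of_nonneg_left (XX_anti a b w s hw hs0 hs D x) (hpos _).le
    · have h1 := (ratio a b w s hw hs0 hs (S := D \ {x}) (U := {x}) sdiff_disjoint).mono
        (D := (D \ {x}) \ {y}) (D' := D \ {x}) sdiff_subset subset_rfl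
      have h2 : (D \ {x}) \ {y} ∪ {x} = D \ {y} := by
        ext z
        simp only [mem_union, mem_sdiff, mem_singleton]
        constructor
        · rintro (⟨⟨h, -⟩, h'⟩ | rfl)
          · exact ⟨h, h'⟩
          · exact ⟨hx, hxy⟩
        · rintro ⟨h, h'⟩
          by_cases hz : z = x
          · exact Or.inr hz
          · exact Or.inl ⟨⟨h, hz⟩, h'⟩
      have h3 : D \ {x} ∪ {x} = D := sdiff_union_of_subset (singleton_subset_iff.2 hx)
      rw [h2, h3, div_le_div_iff₀ (hpos _) (hpos _)] at h1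
      exact h1
  · have h1 : D \ {x} = D := by
      rw [sdiff_singleton_eq_erase, erase_eq_of_notMem hx]
    rw [h1, mul_comm]

/-! ### One edge and two edges -/

/-- The product weight. -/
noncomputable def pw (p : E → ℝ) (ω : Finset E) : ℝ := (∏ e ∈ ω, p e) * ∏ e ∈ ωᶜ, (1 - p e)

/-- The edge `e` is closed. -/
noncomputable def off (p : E → ℝ) (e : E) : E → ℝ := Function.update p e 0

theorem off_self (p : E → ℝ) (e : E) : off p e e = 0 := Function.update_self _ _ _

theorem off_ne (p : E → ℝ) {e f : E} (h : f ≠ e) : off p e f = p f :=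
  Function.update_of_ne h _ _

theorem pw_off {p : E → ℝ} {e : E} {ω : Finset E} (he : e ∈ ω) : pw (off p e) ω = 0 := by
  rw [pw, prod_eq_zero he (off_self p e), zero_mul]

theorem prod_off {p : E → ℝ} {e : E} {ω : Finset E} (he : e ∉ ω) :
    ∏ e' ∈ ω, off p e e' = ∏ e' ∈ ω, p e' := by
  refine prod_congr rfl fun f hf => ?_
  have h : f ≠ e := fun h => he (h ▸ hf)
  rw [off_ne p h]

theorem prod_off' {p : E → ℝ} {e : E} {ω : Finset E} (he : e ∉ ω) :
    ∏ e' ∈ ω, (1 - off p e e') = ∏ e' ∈ ω, (1 - p e') := by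
  refine prod_congr rfl fun f hf => ?_
  have h : f ≠ e := fun h => he (h ▸ hf)
  rw [off_ne p h]

theorem pw_insert {p : E → ℝ} {e : E} {ω : Finset E} (he : e ∉ ω) :
    pw p (insert e ω) = p e * pw (off p e) ω ∧ pw p ω = (1 - p e) * pw (off p e) ω := by
  have h1 : ωᶜ = insert e (insert e ω)ᶜ := by
    rw [compl_insert, insert_erase (mem_compl.2 he)]
  have h2 : e ∉ (insert e ω)ᶜ := fun h => (mem_compl.1 h) (mem_insert_self e ω)
  rw [pw, pw, pw, h1, prod_insert he, prod_insert h2, prod_insert h2, prod_off he, prod_off' h2,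
    off_self]
  constructor <;> ring

theorem sum_edge (p : E → ℝ) (e : E) (h : Finset E → ℝ) :
    ∑ ω, pw p ω * h ω =
      ∑ ω, pw (off p e) ω * (p e * h (insert e ω) + (1 - p e) * h ω) := by
  have key : ∀ F : Finset E → ℝ, ∑ ω, F ω =
      ∑ ω ∈ (univ.erase e).powerset, (F ω + F (insert e ω)) := by
    intro F
    rw [← powerset_univ, ← insert_erase (mem_univ e), sum_powerset_insert (notMem_erase e univ),
      sum_add_distrib]
    simp
  rw [key, key]
  refine sum_congr rfl fun ω hω => ?_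
  have he : e ∉ ω := fun h => notMem_erase e univ (mem_powerset.1 hω h)
  rw [(pw_insert he).1, (pw_insert (p := p) he).2, pw_off (mem_insert_self e ω)]
  ring

theorem sum_edges (p : E → ℝ) {e f : E} (hef : f ≠ e) (h : Finset E → ℝ) :
    ∑ ω, pw p ω * h ω = ∑ ω, pw (off (off p e) f) ω *
      (p e * p f * h (insert e (insert f ω)) + p e * (1 - p f) * h (insert e ω) +
        (1 - p e) * p f * h (insert f ω) + (1 - p e) * (1 - p f) * h ω) := by
  rw [sum_edge p e, sum_edge (off p e) f]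
  refine sum_congr rfl fun ω _ => ?_
  rw [off_ne p hef]
  ring

/-! ### Clusters -/

theorem card_quot {r r' : V → V → Prop} (h : ∀ x y, r x y → Relation.EqvGen r' x y)
    (h' : ∀ x y, r' x y → Relation.EqvGen r x y) : Nat.card (Quot r) = Nat.card (Quot r') := by
  refine Nat.card_congr ⟨Quot.lift (Quot.mk r') fun x y k => Quot.eqvGen_sound (h x y k),
    Quot.lift (Quot.mk r) fun x y k => Quot.eqvGen_sound (h' x y k), ?_, ?_⟩
  · rintro ⟨x⟩; rfl
  · rintro ⟨x⟩; rfl

/-- `e` joins `u` and `x`. -/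
def Joins (e : E) (u x : V) : Prop := (a e = u ∧ b e = x) ∨ (a e = x ∧ b e = u)

variable {a b}

theorem clusters_insert {e : E} {u x : V} (he : Joins a b e u x) {W : Finset V} (hu : u ∈ W)
    (ω : Finset E) : clusters a b W (insert e ω) = clusters a b (insert x W) ω := by
  refine card_quot ?_ ?_
  · rintro y z (⟨e', he', rfl, rfl⟩ | ⟨hy, hz⟩)
    · rcases mem_insert.1 he' with rfl | he'
      · refine Relation.EqvGen.rel _ _ (Or.inr ?_)
        rcases he with ⟨h, h'⟩ | ⟨h, h'⟩
        · rw [h, h']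
          exact ⟨mem_insert_of_mem hu, mem_insert_self _ _⟩
        · rw [h, h']
          exact ⟨mem_insert_self _ _, mem_insert_of_mem hu⟩
      · exact Relation.EqvGen.rel _ _ (Or.inl ⟨e', he', rfl, rfl⟩)
    · exact Relation.EqvGen.rel _ _ (Or.inr ⟨mem_insert_of_mem hy, mem_insert_of_mem hz⟩)
  · have hux : Relation.EqvGen
        (fun x y => OpenAdj a b (insert e ω) x y ∨ (x ∈ W ∧ y ∈ W)) u x := by
      rcases he with ⟨h, h'⟩ | ⟨h, h'⟩
      · exact Relation.EqvGen.rel _ _ (Or.inl ⟨e, mem_insert_self _ _, h, h'⟩)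
      · exact Relation.EqvGen.symm _ _
          (Relation.EqvGen.rel _ _ (Or.inl ⟨e, mem_insert_self _ _, h, h'⟩))
    have hall : ∀ y ∈ insert x W, Relation.EqvGen
        (fun x y => OpenAdj a b (insert e ω) x y ∨ (x ∈ W ∧ y ∈ W)) u y := by
      intro y hy
      rcases mem_insert.1 hy with rfl | hy
      · exact hux
      · exact Relation.EqvGen.rel _ _ (Or.inr ⟨hu, hy⟩)
    rintro y z (⟨e', he', rfl, rfl⟩ | ⟨hy, hz⟩)
    · exact Relation.EqvGen.rel _ _ (Or.inl ⟨e', mem_insert_of_mem he', rfl, rfl⟩)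
    · exact Relation.EqvGen.trans _ _ _ (Relation.EqvGen.symm _ _ (hall y hy)) (hall z hz)

theorem clusters_singleton (u : V) (ω : Finset E) : clusters a b {u} ω = clusters a b ∅ ω := by
  refine card_quot ?_ ?_
  · rintro y z (h | ⟨hy, hz⟩)
    · exact Relation.EqvGen.rel _ _ (Or.inl h)
    · rw [mem_singleton] at hy hz
      rw [hy, hz]
      exact Relation.EqvGen.refl _
  · rintro y z (h | ⟨hy, -⟩)
    · exact Relation.EqvGen.rel _ _ (Or.inl h)
    · exact absurd hy (notMem_empty _)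

theorem prob_singleton (p : E → ℝ) (q : ℝ) (u : V) (A : Finset E → Prop) :
    prob a b p q {u} A = prob a b p q ∅ A := by
  simp only [prob, weight, clusters_singleton]

/-- `c` is the indicator of `P`. -/
def Ind (P : Prop) (c : ℝ) : Prop := (P ∧ c = 1) ∨ (¬ P ∧ c = 0)

theorem Ind.eq {P : Prop} [Decidable P] {c : ℝ} (h : Ind P c) :
    (if P then (1 : ℝ) else 0) = c := by
  rcases h with ⟨h, rfl⟩ | ⟨h, rfl⟩
  · rw [if_pos h]
  · rw [if_neg h]

/-- **Negative correlation** of two edges with an end in `W`. -/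
theorem adjacent {p : E → ℝ} (hp : ∀ e, 0 ≤ p e ∧ p e < 1) {q : ℝ} (hq : 0 < q) (hq1 : q ≤ 1)
    {W : Finset V} {e f : E} (hef : e ≠ f) {u x v y : V} (he : Joins a b e u x)
    (hf : Joins a b f v y) (hu : u ∈ W) (hv : v ∈ W) :
    prob a b p q W (fun ω => e ∈ ω ∧ f ∈ ω) ≤
      prob a b p q W (fun ω => e ∈ ω) * prob a b p q W (fun ω => f ∈ ω) := by
  classical
  set p' := off (off p e) f with hp'
  have hp1 : ∀ g, 0 ≤ p' g ∧ p' g < 1 := by
    intro g
    rw [hp']
    by_cases hg : g = f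
    · rw [hg, off_self]; exact ⟨le_rfl, zero_lt_one⟩
    · rw [off_ne _ hg]
      by_cases hg' : g = e
      · rw [hg', off_self]; exact ⟨le_rfl, zero_lt_one⟩
      · rw [off_ne _ hg']; exact hp g
  set Z : Finset V → ℝ := fun U => ∑ ω, weight a b p' q U ω with hZ
  have hZ' : ∀ U, Z U = ∑ ω, pw p' ω * q ^ clusters a b U ω := fun U => rfl
  have hpos : 0 < ∑ ω, weight a b p q W ω := sum_weight_pos a b hp hq W
  have hnot : ∀ ω, pw p' ω ≠ 0 → e ∉ ω ∧ f ∉ ω := by
    intro ω hω
    refine ⟨fun h => hω ?_, fun h => hω (pw_off h)⟩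
    have : off (off p e) f e = 0 := by rw [off_ne _ hef, off_self]
    rw [hp', pw, prod_eq_zero h this, zero_mul]
  have hsum : ∀ (A : Finset E → Prop) (c1 c2 c3 c4 : ℝ),
      (∀ ω, e ∉ ω → f ∉ ω → Ind (A (insert e (insert f ω))) c1 ∧
        Ind (A (insert e ω)) c2 ∧ Ind (A (insert f ω)) c3 ∧ Ind (A ω) c4) →
      prob a b p q W A * ∑ ω, weight a b p q W ω =
        p e * p f * c1 * Z (insert y (insert x W)) + p e * (1 - p f) * c2 * Z (insert x W) +
          (1 - p e) * p f * c3 * Z (insert y W) + (1 - p e) * (1 - p f) * c4 * Z W := by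
    intro A c1 c2 c3 c4 hA
    rw [prob, div_mul_cancel₀ _ hpos.ne', sum_filter]
    have h1 : ∀ ω, (if A ω then weight a b p q W ω else 0) =
        pw p ω * ((if A ω then (1 : ℝ) else 0) * q ^ clusters a b W ω) := by
      intro ω
      rw [weight, pw]
      split_ifs <;> ring
    rw [sum_congr rfl fun ω _ => h1 ω, sum_edges p hef.symm, hZ', hZ', hZ', hZ', mul_sum,
      mul_sum, mul_sum, mul_sum, ← sum_add_distrib, ← sum_add_distrib, ← sum_add_distrib]
    refine sum_congr rfl fun ω _ => ?_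
    by_cases hω : pw p' ω = 0
    · rw [← hp', hω]; ring
    · obtain ⟨h2, h3⟩ := hnot ω hω
      obtain ⟨h4, h5, h6, h7⟩ := hA ω h2 h3
      rw [h4.eq, h5.eq, h6.eq, h7.eq, clusters_insert he hu, clusters_insert he hu,
        clusters_insert hf hv, clusters_insert hf (mem_insert_of_mem hv), ← hp']
      ring
  have hEF := hsum (fun ω => e ∈ ω ∧ f ∈ ω) 1 0 0 0 fun ω h2 h3 => by
    simp [h2, h3, hef, hef.symm, Ind]
  have hE := hsum (fun ω => e ∈ ω) 1 1 0 0 fun ω h2 h3 => by
    simp [h2, hef, Ind]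
  have hF := hsum (fun ω => f ∈ ω) 1 0 1 0 fun ω h2 h3 => by
    simp [h3, hef.symm, Ind]
  have hT := hsum (fun _ => True) 1 1 1 1 fun ω h2 h3 => by simp [Ind]
  have hone : prob a b p q W (fun _ => True) = 1 := by
    rw [prob, sum_filter]
    simp only [if_true]
    rw [div_self hpos.ne']
  rw [hone, one_mul] at hT
  have hZsub : Z (insert y (insert x W)) * Z W ≤ Z (insert x W) * Z (insert y W) := by
    have h1 : ∀ U : Finset V, U.Nonempty → Z U = ((∏ e, (1 - p' e)) * q) *
        XX a b (fun e => p' e / (1 - p' e)) (1 - q) Uᶜ := by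
      intro U hU
      have := sum_weight a b (fun e => (hp1 e).2) q U
      rw [kap, if_neg (nonempty_iff_ne_empty.1 hU)] at this
      exact this
    rw [h1 _ (insert_nonempty _ _), h1 _ ⟨u, hu⟩, h1 _ (insert_nonempty _ _),
      h1 _ (insert_nonempty _ _)]
    have h2 := XX_sub a b (fun e => p' e / (1 - p' e)) (1 - q)
      (fun e => div_nonneg (hp1 e).1 (by linarith [(hp1 e).2])) (by linarith) (by linarith)
      Wᶜ x y
    have h3 : (insert y (insert x W))ᶜ = (Wᶜ \ {x}) \ {y} := by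
      ext z; simp only [mem_compl, mem_insert, mem_sdiff, mem_singleton]; tauto
    have h4 : (insert x W)ᶜ = Wᶜ \ {x} := by
      ext z; simp only [mem_compl, mem_insert, mem_sdiff, mem_singleton]; tauto
    have h5 : (insert y W)ᶜ = Wᶜ \ {y} := by
      ext z; simp only [mem_compl, mem_insert, mem_sdiff, mem_singleton]; tauto
    rw [h3, h4, h5]
    have h6 := mul_le_mul_of_nonneg_left h2 (mul_self_nonneg ((∏ e, (1 - p' e)) * q))
    nlinarith [h6]
  set S := ∑ ω, weight a b p q W ω with hS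
  have h8 : 0 ≤ p e * p f * ((1 - p e) * (1 - p f)) :=
    mul_nonneg (mul_nonneg (hp e).1 (hp f).1)
      (mul_nonneg (by linarith [(hp e).2]) (by linarith [(hp f).2]))
  have h9 := mul_le_mul_of_nonneg_left hZsub h8
  have h10 : prob a b p q W (fun ω => e ∈ ω ∧ f ∈ ω) * S * S ≤
      prob a b p q W (fun ω => e ∈ ω) * S * (prob a b p q W (fun ω => f ∈ ω) * S) := by
    rw [hEF, hE, hF]
    nth_rewrite 1 [hT]
    nlinarith [h9]
  have h11 : 0 < S * S := mul_pos hpos hpos
  refine le_of_mul_le_mul_right ?_ h11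
  linarith [h10]

theorem joins_of {e : E} {u : V} (h : a e = u ∨ b e = u) : ∃ x, Joins a b e u x := by
  rcases h with h | h
  · exact ⟨b e, Or.inl ⟨h, rfl⟩⟩
  · exact ⟨a e, Or.inr ⟨rfl, h⟩⟩

theorem adjacent_free {p : E → ℝ} (hp : ∀ e, 0 ≤ p e ∧ p e < 1) {q : ℝ} (hq : 0 < q)
    (hq1 : q ≤ 1) {e f : E} (hef : e ≠ f)
    (h : ∃ u, (a e = u ∨ b e = u) ∧ (a f = u ∨ b f = u)) :
    prob a b p q ∅ (fun ω => e ∈ ω ∧ f ∈ ω) ≤
      prob a b p q ∅ (fun ω => e ∈ ω) * prob a b p q ∅ (fun ω => f ∈ ω) := by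
  obtain ⟨u, he, hf⟩ := h
  obtain ⟨x, hx⟩ := joins_of he
  obtain ⟨y, hy⟩ := joins_of hf
  have := adjacent hp hq hq1 hef hx hy (mem_singleton_self u) (mem_singleton_self u)
  rwa [prob_singleton, prob_singleton, prob_singleton] at this

theorem adjacent_wired {p : E → ℝ} (hp : ∀ e, 0 ≤ p e ∧ p e < 1) {q : ℝ} (hq : 0 < q)
    (hq1 : q ≤ 1) {W : Finset V} {e f : E} (hef : e ≠ f) (he : a e ∈ W ∨ b e ∈ W)
    (hf : a f ∈ W ∨ b f ∈ W) :
    prob a b p q W (fun ω => e ∈ ω ∧ f ∈ ω) ≤
      prob a b p q W (fun ω => e ∈ ω) * prob a b p q W (fun ω => f ∈ ω) := by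
  have key : ∀ e : E, (a e ∈ W ∨ b e ∈ W) → ∃ u ∈ W, ∃ x, Joins a b e u x := by
    rintro e (h | h)
    · exact ⟨_, h, _, Or.inl ⟨rfl, rfl⟩⟩
    · exact ⟨_, h, _, Or.inr ⟨rfl, rfl⟩⟩
  obtain ⟨u, hu, x, hx⟩ := key e he
  obtain ⟨v, hv, y, hy⟩ := key f hf
  exact adjacent hp hq hq1 hef hx hy hu hv

variable (a b)

theorem prob_hit {p : E → ℝ} (hp : ∀ e, 0 ≤ p e ∧ p e < 1) {q : ℝ} (hq : 0 < q)
    (T W : Finset V) : prob a b p q W (Hit a b T W) = 1 - prob a b p q W (Miss a b T W) := by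
  classical
  have hpos := sum_weight_pos a b hp hq W
  have h1 : prob a b p q W (Hit a b T W) + prob a b p q W (Miss a b T W) = 1 := by
    rw [prob, prob, ← add_div, sum_filter, sum_filter, ← sum_add_distrib,
      div_eq_one_iff_eq hpos.ne']
    refine sum_congr rfl fun ω _ => ?_
    by_cases h : Hit a b T W ω
    · have h' : ¬ Miss a b T W ω := by
        obtain ⟨x, hx, y, hy, hxy⟩ := h
        exact fun k => k x hx y hy hxy
      rw [if_pos h, if_neg h', add_zero]
    · have h' : Miss a b T W ω := fun x hx y hy hxy => h ⟨x, hx, y, hy, hxy⟩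
      rw [if_neg h, if_pos h', zero_add]
  linarith

/-- **Comparison** and strong subadditivity. -/
theorem comparison {p : E → ℝ} (hp : ∀ e, 0 ≤ p e ∧ p e < 1) {q : ℝ} (hq : 0 < q)
    (hq1 : q ≤ 1) (T W W' : Finset V) :
    (W ⊆ W' → prob a b p q W (Hit a b T W) ≤ prob a b p q W' (Hit a b T W')) ∧
    prob a b p q (W ∪ W') (Hit a b T (W ∪ W')) + prob a b p q (W ∩ W') (Hit a b T (W ∩ W')) ≤
      prob a b p q W (Hit a b T W) + prob a b p q W' (Hit a b T W') := by
  obtain ⟨π, h0, -, h2⟩ := capacity a b hp hq hq1 T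
  rw [prob_hit a b hp hq, prob_hit a b hp hq, prob_hit a b hp hq, prob_hit a b hp hq,
    h2, h2, h2, h2]
  constructor
  · intro h
    have : ∑ A with Disjoint A W', π A ≤ ∑ A with Disjoint A W, π A := by
      refine sum_le_sum_of_subset_of_nonneg ?_ fun A _ _ => h0 A
      intro A hA
      rw [mem_filter] at hA ⊢
      exact ⟨hA.1, hA.2.mono_right h⟩
    linarith
  · have h3 : ∑ A with Disjoint A W, π A + ∑ A with Disjoint A W', π A ≤
        ∑ A with Disjoint A (W ∪ W'), π A + ∑ A with Disjoint A (W ∩ W'), π A := by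
      rw [sum_filter, sum_filter, sum_filter, sum_filter, ← sum_add_distrib, ← sum_add_distrib]
      refine sum_le_sum fun A _ => ?_
      have h4 := h0 A
      by_cases h5 : Disjoint A W <;> by_cases h6 : Disjoint A W'
      · have h7 : Disjoint A (W ∪ W') := disjoint_union_right.2 ⟨h5, h6⟩
        have h8 : Disjoint A (W ∩ W') := h5.mono_right inter_subset_left
        simp [h5, h6, h7, h8]
      · have h8 : Disjoint A (W ∩ W') := h5.mono_right inter_subset_left
        rw [if_pos h5, if_neg h6, if_pos h8, add_zero]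
        split_ifs <;> linarith
      · have h8 : Disjoint A (W ∩ W') := h6.mono_right inter_subset_right
        rw [if_neg h5, if_pos h6, if_pos h8, zero_add]
        split_ifs <;> linarith
      · rw [if_neg h5, if_neg h6]
        split_ifs <;> linarith
    linarith

end Vale.Agent.P167.H623
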