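import Mathlib

/-!
The lattice domains of question Q1: the random-cluster measure at the self-dual point in the domain
enclosed by a lattice polygon, with one wired boundary arc. The mesh is `1` (a scaling does not
change the measure).
-/

namespace Vale.Agent.P167.H623

open Finset

/-- The four directions: east, north, west, south. -/
def dir : Fin 4 → ℤ × ℤ := ![(1, 0), (0, 1), (-1, 0), (0, -1)]

/-- The faces of the lattice are denoted by their lower left corner: the face `f` is the unit square
`[f.1, f.1 + 1] × [f.2, f.2 + 1]`. The face `face v r` is the one of the four faces around the vertex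
`v` which is between the directions `dir r` and `dir (r + 1)` (counterclockwise). -/
def face (v : ℤ × ℤ) (r : Fin 4) : ℤ × ℤ := v + ![(0, 0), (-1, 0), (-1, -1), (0, -1)] r

/-- A simple closed nearest-neighbour polygon `p 0, p 1, …, p (n - 1), p 0`. -/
def IsPolygon {n : ℕ} (p : ZMod n → ℤ × ℤ) : Prop :=
  2 < n ∧ Function.Injective p ∧ ∀ i, ∃ r, p (i + 1) = p i + dir r

/-- `p` is counterclockwise and the finite set `S` of faces is the set of the faces enclosed by
`p`: the directed edges of `p` are exactly the directed edges `v → v + dir r` of the lattice whose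
left face `face v r` is in `S` and whose right face `face v (r - 1)` is not. -/
def Encloses {n : ℕ} (p : ZMod n → ℤ × ℤ) (S : Finset (ℤ × ℤ)) : Prop :=
  ∀ (v : ℤ × ℤ) (r : Fin 4),
    (∃ i, p i = v ∧ p (i + 1) = v + dir r) ↔ face v r ∈ S ∧ face v (r - 1) ∉ S

/-- The vertices of the graph: all lattice vertices in the closed domain. -/
def verts (S : Finset (ℤ × ℤ)) : Finset (ℤ × ℤ) :=
  S.biUnion fun f => {f, f + (1, 0), f + (0, 1), f + (1, 1)}

/-- The edges of the graph: all lattice edges in the closed domain, that is the sides of the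
enclosed faces. -/
def edges (S : Finset (ℤ × ℤ)) : Finset (Sym2 (ℤ × ℤ)) :=
  S.biUnion fun f => {s(f, f + (1, 0)), s(f, f + (0, 1)), s(f + (1, 0), f + (1, 1)),
    s(f + (0, 1), f + (1, 1))}

/-- The wired vertices: the arc `p k, p (k + 1), …, p (n - 1)` of the polygon (from the marked
point `b`, on the edge `p (k - 1) p k`, to the marked point `a`, on the edge `p (n - 1) p 0`). -/
def arc {n : ℕ} (p : ZMod n → ℤ × ℤ) (k : ℕ) : Finset (ℤ × ℤ) :=
  (Ico k n).image fun i : ℕ => p (i : ZMod n)

/-- The number of components of `(V, A)`, isolated vertices included, after the identification of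
the vertices of `W`. -/
noncomputable def latClusters (S W : Finset (ℤ × ℤ)) (A : Finset (Sym2 (ℤ × ℤ))) : ℕ :=
  Nat.card (Quot fun x y : verts S =>
    s((x : ℤ × ℤ), (y : ℤ × ℤ)) ∈ A ∨ ((x : ℤ × ℤ) ∈ W ∧ (y : ℤ × ℤ) ∈ W))

/-- The self-dual point. -/
noncomputable def selfDual (q : ℝ) : ℝ := √q / (1 + √q)

/-- The weight of the set `A` of open edges in the random-cluster measure with wired set `W`. -/
noncomputable def latWeight (q : ℝ) (S W : Finset (ℤ × ℤ)) (A : Finset (Sym2 (ℤ × ℤ))) : ℝ :=
  selfDual q ^ A.card * (1 - selfDual q) ^ ((edges S).card - A.card) * q ^ latClusters S W A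

open Classical in
/-- Probability for the random-cluster measure at the self-dual point, on the subsets of the set of
the edges, with wired set `W`. -/
noncomputable def latProb (q : ℝ) (S W : Finset (ℤ × ℤ))
    (P : Finset (Sym2 (ℤ × ℤ)) → Prop) : ℝ :=
  (∑ A ∈ (edges S).powerset with P A, latWeight q S W A) /
    ∑ A ∈ (edges S).powerset, latWeight q S W A

/-- `x` and `y` are joined by a path of edges in `A`. -/
def Joined (A : Finset (Sym2 (ℤ × ℤ))) (x y : ℤ × ℤ) : Prop :=
  Relation.ReflTransGen (fun u v => s(u, v) ∈ A) x y

end Vale.Agent.P167.H623
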