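import Mathlib

/-!
The rectangle of `ℤ²` with `m + 1` rows and `m + 2 + k` columns of vertices, as a finite graph, and
the same graph with the left side contracted to one vertex.
-/

namespace Vale.Agent.P167.H623

open Finset

/-- The vertices of the rectangle: `(x, y)` is in the column `x ≤ m + 1 + k` and in the row
`y ≤ m`. -/
abbrev RV (m k : ℕ) : Type := Fin (m + 1 + k + 1) × Fin (m + 1)

/-- The edges of the rectangle. In this order: the horizontal edges up to the column `m + 1`, the
vertical edges in the columns `1, …, m`, the vertical edges of the left side, the vertical edges in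
the columns `m + 1, …, m + 1 + k`, the horizontal edges after the column `m + 1`. -/
abbrev RE (m k : ℕ) : Type :=
  ((Fin (m + 1) × Fin (m + 1)) ⊕ (Fin m × Fin m)) ⊕
    (Fin m ⊕ ((Fin (k + 1) × Fin m) ⊕ (Fin k × Fin (m + 1))))

/-- The left or lower end of an edge. -/
def ra {m k : ℕ} : RE m k → RV m k
  | Sum.inl (Sum.inl (i, j)) => (⟨i, by have := i.2; omega⟩, ⟨j, by have := j.2; omega⟩)
  | Sum.inl (Sum.inr (i, j)) => (⟨i + 1, by have := i.2; omega⟩, ⟨j, by have := j.2; omega⟩)
  | Sum.inr (Sum.inl j) => (⟨0, by omega⟩, ⟨j, by have := j.2; omega⟩)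
  | Sum.inr (Sum.inr (Sum.inl (i, j))) =>
    (⟨m + 1 + i, by have := i.2; omega⟩, ⟨j, by have := j.2; omega⟩)
  | Sum.inr (Sum.inr (Sum.inr (i, j))) =>
    (⟨m + 1 + i, by have := i.2; omega⟩, ⟨j, by have := j.2; omega⟩)

/-- The right or upper end of an edge. -/
def rb {m k : ℕ} : RE m k → RV m k
  | Sum.inl (Sum.inl (i, j)) => (⟨i + 1, by have := i.2; omega⟩, ⟨j, by have := j.2; omega⟩)
  | Sum.inl (Sum.inr (i, j)) => (⟨i + 1, by have := i.2; omega⟩, ⟨j + 1, by have := j.2; omega⟩)
  | Sum.inr (Sum.inl j) => (⟨0, by omega⟩, ⟨j + 1, by have := j.2; omega⟩)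
  | Sum.inr (Sum.inr (Sum.inl (i, j))) =>
    (⟨m + 1 + i, by have := i.2; omega⟩, ⟨j + 1, by have := j.2; omega⟩)
  | Sum.inr (Sum.inr (Sum.inr (i, j))) =>
    (⟨m + 1 + i + 1, by have := i.2; omega⟩, ⟨j, by have := j.2; omega⟩)

/-- The left side. -/
def left (m k : ℕ) : Finset (RV m k) := univ.filter fun v => (v.1 : ℕ) = 0

/-- The columns `m + 1, …, m + 1 + k`; the right side for `k = 0`. -/
def far (m k : ℕ) : Finset (RV m k) := univ.filter fun v => m + 1 ≤ (v.1 : ℕ)

/-- The vertices of the rectangle whose left side has been contracted to the vertex `none`: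
`some (x, y)` is the vertex `(x + 1, y)`. -/
abbrev CV (m k : ℕ) : Type := Option (Fin (m + 1 + k) × Fin (m + 1))

/-- The contraction of the left side. -/
def con {m k : ℕ} (v : RV m k) : CV m k := Fin.cases none (fun x => some (x, v.2)) v.1

end Vale.Agent.P167.H623
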