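import Vale.Agent.P167.H623.TwoDefs
import Vale.Agent.P167.H623.RectDefs
import Vale.Agent.P167.H623.LatDefs

/-!
Crossing probabilities of the rectangle given explored edges.
-/

namespace Vale.Agent.P167.H623

open Finset

section

variable {V E : Type*} [Fintype V] [DecidableEq V] [Fintype E] [DecidableEq E]

open Classical in
/-- The conditional probability that some open path joins `A` and `B`, given that the edges of `O`
are open and the edges of `C` are closed, for the random-cluster measure in which `A` and `B` are
wired, separately. -/
noncomputable def condCross (a b : E → V) (p : E → ℝ) (q : ℝ) (A B : Finset V)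
    (O C : Finset E) : ℝ :=
  (∑ ω with (O ⊆ ω ∧ Disjoint ω C) ∧ Hit a b A B ω, weight2 a b p q A B ω) /
    ∑ ω with O ⊆ ω ∧ Disjoint ω C, weight2 a b p q A B ω

/-- Every edge of `O` is joined to `L` or to `R` by a path of edges in `O`. -/
def AttachedTo (a b : E → V) (L R : Finset V) (O : Finset E) : Prop :=
  ∀ e ∈ O, ∃ z, (z ∈ L ∨ z ∈ R) ∧ Conn a b O (a e) z

end

/-- The edges of the rectangle with `m + 1` rows and `m + 2` columns of vertices, without the
vertical edges of the left and of the right side: the horizontal edges `(i, j)`, from the vertex
`(i, j)` to `(i + 1, j)`, and the vertical edges `(i, j)`, from `(i + 1, j)` to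
`(i + 1, j + 1)`. -/
abbrev Inner (m : ℕ) : Type := (Fin (m + 1) × Fin (m + 1)) ⊕ (Fin m × Fin m)

/-- Inner edges as edges of the rectangle. -/
def inn {m : ℕ} (O : Finset (Inner m)) : Finset (RE m 0) := O.map ⟨Sum.inl, Sum.inl_injective⟩

/-- The dual edges, reflected at the diagonal: the dual edge of the horizontal edge `(i, j)` joins
the faces above and below it, its mirror image is the horizontal edge `(j, i)`; the dual edge of the
vertical edge `(i, j)` joins the faces on its left and on its right, its mirror image is the
vertical edge `(j, i)`. The bottom side and the top side of the dual rectangle become the left side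
and the right side. -/
def mirror {m : ℕ} (C : Finset (Inner m)) : Finset (Inner m) :=
  C.map ⟨Sum.map Prod.swap Prod.swap, Function.Injective.sumMap Prod.swap_injective
    Prod.swap_injective⟩

/-- Every edge of `O` is joined to the left or to the right side by a path of edges in `O`. -/
def Attached {m : ℕ} (O : Finset (Inner m)) : Prop :=
  AttachedTo ra rb (left m 0) (far m 0) (inn O)

/-- The probability that the left and the right side of the rectangle, wired separately, are joined
by an open path, given that the edges of `O` are open and the edges of `C` are closed, at the
self-dual point. -/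
noncomputable def sdCross (m : ℕ) (q : ℝ) (O C : Finset (Inner m)) : ℝ :=
  condCross ra rb (fun _ => selfDual q) q (left m 0) (far m 0) (inn O) (inn C)

end Vale.Agent.P167.H623
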