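import Vale.Agent.P167.H623.SdFinal
import Vale.Agent.P167.H623.CondDefs

/-!
Comparison of explored regions.
-/

namespace Vale.Agent.P167.H623

open Finset

set_option linter.unusedSectionVars false

section general

variable {V E : Type*} [Fintype V] [DecidableEq V] [Fintype E] [DecidableEq E]

/-- The edges of `C` are closed. -/
noncomputable def offS (p : E → ℝ) (C : Finset E) : E → ℝ := fun e => if e ∈ C then 0 else p e

open Classical in
theorem sum_open {p : E → ℝ} (O : Finset E) : ∀ h : Finset E → ℝ,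
    (∀ e ∈ O, ∀ ω, h (insert e ω) = h ω) →
    ∑ ω, pw p ω * (if O ⊆ ω then h ω else 0) = (∏ e ∈ O, p e) * ∑ ω, pw p ω * h ω := by
  induction O using Finset.induction_on with
  | empty => intro h _; simp
  | insert e O he ih =>
    intro h hh
    rw [prod_insert he, mul_assoc, ← ih h fun f hf => hh f (mem_insert_of_mem hf),
      sum_edge p e, sum_edge p e, mul_sum]
    refine sum_congr rfl fun ω _ => ?_
    by_cases hω : e ∈ ω
    · rw [pw_off hω]; ring
    · have h1 : ¬ insert e O ⊆ ω := fun k => hω (k (mem_insert_self e O))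
      have h2 : insert e O ⊆ insert e ω ↔ O ⊆ ω := by
        constructor
        · intro k x hx
          rcases mem_insert.1 (k (mem_insert_of_mem hx)) with rfl | k'
          · exact absurd hx he
          · exact k'
        · exact fun k => insert_subset_insert e k
      have h3 : O ⊆ insert e ω ↔ O ⊆ ω := by
        constructor
        · intro k x hx
          rcases mem_insert.1 (k hx) with rfl | k'
          · exact absurd hx he
          · exact k'
        · exact fun k => k.trans (subset_insert e ω)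
      rw [if_neg h1, hh e (mem_insert_self e O)]
      by_cases h4 : O ⊆ ω
      · rw [if_pos (h2.2 h4), if_pos (h3.2 h4), if_pos h4]; ring
      · rw [if_neg fun k => h4 (h2.1 k), if_neg fun k => h4 (h3.1 k), if_neg h4]; ring

open Classical in
theorem sum_closed (C : Finset E) : ∀ (p : E → ℝ) (h : Finset E → ℝ),
    ∑ ω, pw p ω * (if Disjoint ω C then h ω else 0) =
      (∏ e ∈ C, (1 - p e)) * ∑ ω, pw (offS p C) ω * h ω := by
  induction C using Finset.induction_on with
  | empty =>
    intro p h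
    have : offS p ∅ = p := by
      funext e; simp [offS]
    simp [this]
  | insert e C he ih =>
    intro p h
    have h0 : offS (off p e) C = offS p (insert e C) := by
      funext f
      simp only [offS, mem_insert]
      by_cases hf : f = e
      · subst hf
        rw [if_neg he, if_pos (Or.inl rfl), off_self]
      · by_cases hf' : f ∈ C
        · rw [if_pos hf', if_pos (Or.inr hf')]
        · rw [if_neg hf', if_neg (by tauto), off_ne p hf]
    have h1 : ∏ f ∈ C, (1 - off p e f) = ∏ f ∈ C, (1 - p f) := prod_off' he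
    rw [prod_insert he, ← h0, mul_assoc, ← h1, ← ih (off p e) h, sum_edge p e, mul_sum]
    refine sum_congr rfl fun ω _ => ?_
    by_cases hω : e ∈ ω
    · rw [pw_off hω]; ring
    · have h2 : ¬ Disjoint (insert e ω) (insert e C) := fun k =>
        disjoint_left.1 k (mem_insert_self e ω) (mem_insert_self e C)
      have h3 : Disjoint ω (insert e C) ↔ Disjoint ω C := by
        rw [disjoint_insert_right]
        exact and_iff_right hω
      rw [if_neg h2]
      by_cases h4 : Disjoint ω C
      · rw [if_pos (h3.2 h4), if_pos h4]; ring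
      · rw [if_neg fun k => h4 (h3.1 k), if_neg h4]; ring

variable {a b : E → V}

open Classical in
/-- The vertices joined to `L` in `O`. -/
noncomputable def reach (a b : E → V) (L : Finset V) (O : Finset E) : Finset V :=
  univ.filter fun v => ∃ z ∈ L, conf a b O v z

theorem mem_reach {L : Finset V} {O : Finset E} {v : V} :
    v ∈ reach a b L O ↔ ∃ z ∈ L, conf a b O v z := by
  simp [reach]

theorem subset_reach (L : Finset V) (O : Finset E) : L ⊆ reach a b L O :=
  fun v hv => mem_reach.2 ⟨v, hv, Setoid.refl' _ _⟩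

/-- For configurations which contain `O` nothing changes when the reached vertices are wired. -/
theorem pt2_reach {L R : Finset V} {O ω : Finset E} (h : O ⊆ ω) :
    pt2 a b (reach a b L O) (reach a b R O) ω = pt2 a b L R ω := by
  apply le_antisymm
  · have key : ∀ S : Finset V, wire S ≤ pt2 a b L R ω → wire (reach a b S O) ≤
        pt2 a b L R ω := by
      intro S hS u v k
      rcases k with k | ⟨k, k'⟩
      · rw [k]
      · obtain ⟨z, hz, huz⟩ := mem_reach.1 k
        obtain ⟨z', hz', hvz⟩ := mem_reach.1 k'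
        have hc : conf a b O ≤ pt2 a b L R ω := (conf_mono a b h).trans le_sup_right
        exact Setoid.trans' _ (hc huz) (Setoid.trans' _ (hS (Or.inr ⟨hz, hz'⟩))
          (Setoid.symm' _ (hc hvz)))
    exact sup_le (sup_le (key L (le_sup_left.trans le_sup_left))
      (key R (le_sup_right.trans le_sup_left))) le_sup_right
  · have key : ∀ S : Finset V, wire S ≤ wire (reach a b S O) := by
      intro S u v k
      rcases k with k | ⟨k, k'⟩
      · exact Or.inl k
      · exact Or.inr ⟨subset_reach S O k, subset_reach S O k'⟩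
    exact sup_le_sup_right (sup_le_sup (key L) (key R)) _

theorem hit_reach {L R : Finset V} {O ω : Finset E} (h : O ⊆ ω) :
    Hit a b (reach a b L O) (reach a b R O) ω ↔ Hit a b L R ω := by
  rw [hit_conf, hit_conf]
  constructor
  · rintro ⟨x, hx, y, hy, hxy⟩
    obtain ⟨z, hz, hxz⟩ := mem_reach.1 hx
    obtain ⟨z', hz', hyz⟩ := mem_reach.1 hy
    exact ⟨z, hz, z', hz', Setoid.trans' _ (Setoid.symm' _ (conf_mono a b h hxz))
      (Setoid.trans' _ hxy (conf_mono a b h hyz))⟩
  · rintro ⟨x, hx, y, hy, hxy⟩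
    exact ⟨x, subset_reach L O hx, y, subset_reach R O hy, hxy⟩

/-- Every edge of `O` is joined to `L` or `R` in `O`. -/
def Att (a b : E → V) (L R : Finset V) (O : Finset E) : Prop :=
  ∀ e ∈ O, a e ∈ reach a b L O ∨ a e ∈ reach a b R O

theorem reach_edge {L : Finset V} {O : Finset E} {e : E} (he : e ∈ O) :
    a e ∈ reach a b L O ↔ b e ∈ reach a b L O := by
  rw [mem_reach, mem_reach]
  have h := conf_edge a b he
  constructor
  · rintro ⟨z, hz, k⟩
    exact ⟨z, hz, Setoid.trans' _ (Setoid.symm' _ h) k⟩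
  · rintro ⟨z, hz, k⟩
    exact ⟨z, hz, Setoid.trans' _ h k⟩

/-- An edge inside a wired set does not matter. -/
theorem pt2_inner {A B : Finset V} {e : E}
    (he : (a e ∈ A ∧ b e ∈ A) ∨ (a e ∈ B ∧ b e ∈ B)) (ω : Finset E) :
    pt2 a b A B (insert e ω) = pt2 a b A B ω := by
  apply le_antisymm
  · refine sup_le le_sup_left ?_
    rw [conf_insert]
    refine sup_le ?_ le_sup_right
    rw [join_le_iff]
    rcases he with he | he
    · exact (le_sup_left.trans le_sup_left : wire A ≤ pt2 a b A B ω) (Or.inr he)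
    · exact (le_sup_right.trans le_sup_left : wire B ≤ pt2 a b A B ω) (Or.inr he)
  · exact sup_le_sup_left (conf_mono a b (subset_insert e ω)) _

theorem clusters2_inner {A B : Finset V} {e : E}
    (he : (a e ∈ A ∧ b e ∈ A) ∨ (a e ∈ B ∧ b e ∈ B)) (ω : Finset E) :
    clusters2 a b A B (insert e ω) = clusters2 a b A B ω := by
  rw [clusters2_pt, clusters2_pt, pt2_inner he]

theorem hit_inner {A B : Finset V} {e : E}
    (he : (a e ∈ A ∧ b e ∈ A) ∨ (a e ∈ B ∧ b e ∈ B)) (ω : Finset E) :
    Hit a b A B (insert e ω) ↔ Hit a b A B ω := by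
  rcases A.eq_empty_or_nonempty with rfl | ⟨x, hx⟩
  · constructor <;> rintro ⟨x, hx, _⟩ <;> exact absurd hx (notMem_empty x)
  · rcases B.eq_empty_or_nonempty with rfl | ⟨y, hy⟩
    · constructor <;> rintro ⟨_, _, y, hy, _⟩ <;> exact absurd hy (notMem_empty y)
    · rw [← pt2_hit hx hy, ← pt2_hit hx hy, pt2_inner he]

/-- **Explored edges as wired sets.** -/
theorem condCross_eq {p : E → ℝ} (hp : ∀ e, 0 < p e ∧ p e < 1) (q : ℝ) {L R : Finset V}
    {O C : Finset E} (hO : Att a b L R O) (hOC : Disjoint O C) :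
    condCross a b p q L R O C =
      cross2 a b (offS p C) q (reach a b L O) (reach a b R O) := by
  classical
  set A := reach a b L O with hA
  set B := reach a b R O with hB
  have hin : ∀ e ∈ O, (a e ∈ A ∧ b e ∈ A) ∨ (a e ∈ B ∧ b e ∈ B) := by
    intro e he
    rcases hO e he with h | h
    · exact Or.inl ⟨h, (reach_edge he).1 h⟩
    · exact Or.inr ⟨h, (reach_edge he).1 h⟩
  have key : ∀ (P P' : Finset E → Prop), (∀ e ∈ O, ∀ ω, P' (insert e ω) ↔ P' ω) →
      (∀ ω, O ⊆ ω → (P ω ↔ P' ω)) →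
      ∑ ω with (O ⊆ ω ∧ Disjoint ω C) ∧ P ω, weight2 a b p q L R ω =
        ((∏ e ∈ C, (1 - p e)) * ∏ e ∈ O, p e) *
          ∑ ω with P' ω, weight2 a b (offS p C) q A B ω := by
    intro P P' h1 h2
    have e1 := sum_closed C p (fun ω => if O ⊆ ω then
      (if P' ω then q ^ clusters2 a b A B ω else 0) else 0)
    have e2 := sum_open (p := offS p C) O (fun ω => if P' ω then q ^ clusters2 a b A B ω else 0)
      (by
        intro e he ω
        have h3 := h1 e he ω
        rw [clusters2_inner (hin e he)]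
        by_cases h4 : P' ω
        · rw [if_pos h4, if_pos (h3.2 h4)]
        · rw [if_neg h4, if_neg fun k => h4 (h3.1 k)])
    have e3 : ∏ e ∈ O, offS p C e = ∏ e ∈ O, p e := by
      refine prod_congr rfl fun e he => ?_
      rw [offS, if_neg fun k => disjoint_left.1 hOC he k]
    rw [e2, e3] at e1
    rw [mul_assoc]
    refine Eq.trans ?_ (e1.trans ?_)
    · rw [sum_filter]
      refine sum_congr rfl fun ω _ => ?_
      by_cases h3 : O ⊆ ω
      · have hcl : clusters2 a b A B ω = clusters2 a b L R ω := by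
          rw [clusters2_pt, clusters2_pt, hA, hB, pt2_reach h3]
        by_cases h4 : Disjoint ω C
        · by_cases h5 : P ω
          · rw [if_pos ⟨⟨h3, h4⟩, h5⟩, if_pos h4, if_pos h3, if_pos ((h2 ω h3).1 h5), hcl,
              weight2, pw]
          · rw [if_neg fun k => h5 k.2, if_pos h4, if_pos h3,
              if_neg fun k => h5 ((h2 ω h3).2 k), mul_zero]
        · rw [if_neg fun k => h4 k.1.2, if_neg h4, mul_zero]
      · rw [if_neg fun k => h3 k.1.1]
        by_cases h4 : Disjoint ω C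
        · rw [if_pos h4, if_neg h3, mul_zero]
        · rw [if_neg h4, mul_zero]
    · congr 2
      rw [sum_filter]
      refine sum_congr rfl fun ω _ => ?_
      by_cases h5 : P' ω
      · rw [if_pos h5, if_pos h5, weight2, pw]
      · rw [if_neg h5, if_neg h5, mul_zero]
  have hK : (∏ e ∈ C, (1 - p e)) * ∏ e ∈ O, p e ≠ 0 :=
    mul_ne_zero (prod_ne_zero_iff.2 fun e _ => by linarith [(hp e).2])
      (prod_ne_zero_iff.2 fun e _ => (hp e).1.ne')
  have h1 := key (fun ω => Hit a b L R ω) (fun ω => Hit a b A B ω)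
    (fun e he ω => hit_inner (hin e he) ω) fun ω h => (hit_reach h).symm
  have h2 := key (fun _ => True) (fun _ => True) (fun _ _ _ => Iff.rfl) fun _ _ => Iff.rfl
  simp only [and_true, filter_true] at h2
  rw [condCross, cross2]
  rw [h1, h2, mul_div_mul_left _ _ hK]

theorem weight2_pos {p : E → ℝ} (hp : ∀ e, 0 < p e ∧ p e < 1) {q : ℝ} (hq : 0 < q)
    (A B : Finset V) (ω : Finset E) : 0 < weight2 a b p q A B ω :=
  mul_pos (mul_pos (prod_pos fun e _ => (hp e).1)
    (prod_pos fun e _ => by linarith [(hp e).2])) (pow_pos hq _)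

theorem condCross_le_one {p : E → ℝ} (hp : ∀ e, 0 < p e ∧ p e < 1) {q : ℝ} (hq : 0 < q)
    (L R : Finset V) (O C : Finset E) : condCross a b p q L R O C ≤ 1 := by
  classical
  rw [condCross]
  refine div_le_one_of_le₀ ?_ (sum_nonneg fun ω _ => (weight2_pos hp hq L R ω).le)
  refine sum_le_sum_of_subset_of_nonneg ?_ fun ω _ _ => (weight2_pos hp hq L R ω).le
  intro ω hω
  rw [mem_filter] at hω ⊢
  exact ⟨hω.1, hω.2.1⟩

theorem condCross_eq_one {p : E → ℝ} (hp : ∀ e, 0 < p e ∧ p e < 1) {q : ℝ} (hq : 0 < q)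
    {L R : Finset V} {O C : Finset E} (hOC : Disjoint O C) (hit : Hit a b L R O) :
    condCross a b p q L R O C = 1 := by
  classical
  have h1 : ∀ ω, O ⊆ ω → Hit a b L R ω := by
    intro ω hω
    rw [hit_conf] at hit ⊢
    obtain ⟨x, hx, y, hy, h⟩ := hit
    exact ⟨x, hx, y, hy, conf_mono a b hω h⟩
  have h2 : (univ : Finset (Finset E)).filter
      (fun ω => (O ⊆ ω ∧ Disjoint ω C) ∧ Hit a b L R ω) =
      univ.filter fun ω => O ⊆ ω ∧ Disjoint ω C := by
    ext ω
    rw [mem_filter, mem_filter]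
    constructor
    · exact fun h => ⟨h.1, h.2.1⟩
    · exact fun h => ⟨h.1, h.2, h1 ω h.2.1⟩
  have h3 : 0 < ∑ ω ∈ (univ : Finset (Finset E)).filter (fun ω => O ⊆ ω ∧ Disjoint ω C),
      weight2 a b p q L R ω :=
    sum_pos (fun ω _ => weight2_pos hp hq L R ω)
      ⟨O, mem_filter.2 ⟨mem_univ _, subset_rfl, hOC⟩⟩
  rw [condCross]
  refine (div_eq_one_iff_eq ?_).2 ?_
  · convert h3.ne'
  · convert congrArg (fun s => ∑ ω ∈ s, weight2 a b p q L R ω) h2

theorem attachedTo_att {L R : Finset V} {O : Finset E} (h : AttachedTo a b L R O) :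
    Att a b L R O := by
  intro e he
  obtain ⟨z, hz, hc⟩ := h e he
  rw [conn_iff] at hc
  rcases hz with hz | hz
  · exact Or.inl (mem_reach.2 ⟨z, hz, hc⟩)
  · exact Or.inr (mem_reach.2 ⟨z, hz, hc⟩)

/-- **Opening explored edges attached to the wired sets** increases the crossing probability. -/
theorem condCross_mono_open {p : E → ℝ} (hp : ∀ e, 0 < p e ∧ p e < 1) {q : ℝ} (hq : 0 < q)
    (hq1 : q ≤ 1) {L R : Finset V} {O O' C : Finset E} (hOO : O ⊆ O')
    (hO : Att a b L R O) (hO' : Att a b L R O') (hC : Disjoint O' C) :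
    condCross a b p q L R O C ≤ condCross a b p q L R O' C := by
  by_cases hit : Hit a b L R O'
  · rw [condCross_eq_one hp hq hC hit]
    exact condCross_le_one hp hq L R O C
  · have hd : Disjoint (reach a b L O') (reach a b R O') := by
      rw [disjoint_left]
      intro v hv hv'
      obtain ⟨z, hz, hvz⟩ := mem_reach.1 hv
      obtain ⟨z', hz', hvz'⟩ := mem_reach.1 hv'
      exact hit (hit_conf.2 ⟨z, hz, z', hz', Setoid.trans' _ (Setoid.symm' _ hvz) hvz'⟩)
    have hsub : ∀ S : Finset V, reach a b S O ⊆ reach a b S O' := by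
      intro S v hv
      obtain ⟨z, hz, hvz⟩ := mem_reach.1 hv
      exact mem_reach.2 ⟨z, hz, conf_mono a b hOO hvz⟩
    rw [condCross_eq hp q hO (hC.mono_left hOO), condCross_eq hp q hO' hC]
    refine cross2_mono a b (fun e => ?_) hq hq1 (hsub L) (hsub R) hd
    rw [offS]
    split_ifs
    · exact ⟨le_rfl, zero_lt_one⟩
    · exact ⟨(hp e).1.le, (hp e).2⟩

end general

/-! ### The rectangle -/

section rect

variable {m : ℕ}

theorem mem_mirror {C : Finset (Inner m)} {e : Inner m} : e ∈ mirror C ↔ tau m e ∈ C := by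
  have h0 : ∀ e : Inner m, Sum.map Prod.swap Prod.swap e = tau m e := by
    rintro (⟨i, j⟩ | ⟨i, j⟩) <;> rfl
  rw [mirror, mem_map]
  constructor
  · rintro ⟨f, hf, rfl⟩
    change tau m (Sum.map Prod.swap Prod.swap f) ∈ C
    rw [h0, tau_tau]
    exact hf
  · intro h
    refine ⟨tau m e, h, ?_⟩
    change Sum.map Prod.swap Prod.swap (tau m e) = e
    rw [h0, tau_tau]

theorem mirror_mirror (C : Finset (Inner m)) : mirror (mirror C) = C := by
  ext e
  rw [mem_mirror, mem_mirror, tau_tau]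

theorem mirror_mono {C C' : Finset (Inner m)} (h : C' ⊆ C) : mirror C' ⊆ mirror C := by
  intro e he
  rw [mem_mirror] at he ⊢
  exact h he

theorem mirror_disjoint {O C : Finset (Inner m)} (h : Disjoint O C) :
    Disjoint (mirror C) (mirror O) := by
  rw [disjoint_left] at h ⊢
  intro e he he'
  rw [mem_mirror] at he he'
  exact h he' he

open Classical in
/-- The terms of the partial sums. -/
noncomputable def ft (r : ℝ) (O C : Finset (Inner m)) (P : Finset (Inner m) → Prop)
    (ω : Finset (E0 m)) : ℝ :=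
  if (O ⊆ ω ∧ Disjoint ω C) ∧ P ω then r ^ (ω.card + 2 * ks ω) else 0

theorem ft_pos {r : ℝ} {O C : Finset (Inner m)} {P : Finset (Inner m) → Prop}
    {ω : Finset (E0 m)} (h : (O ⊆ ω ∧ Disjoint ω C) ∧ P ω) :
    ft r O C P ω = r ^ (ω.card + 2 * ks ω) := if_pos h

theorem ft_neg {r : ℝ} {O C : Finset (Inner m)} {P : Finset (Inner m) → Prop}
    {ω : Finset (E0 m)} (h : ¬ ((O ⊆ ω ∧ Disjoint ω C) ∧ P ω)) :
    ft r O C P ω = 0 := if_neg h

/-- The partial sums. -/
noncomputable def FF (r : ℝ) (O C : Finset (Inner m)) (P : Finset (Inner m) → Prop) : ℝ :=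
  ∑ ω : Finset (E0 m), ft r O C P ω

theorem star_cond {O C ω : Finset (Inner m)} :
    (mirror C ⊆ star ω ∧ Disjoint (star ω) (mirror O)) ↔ (O ⊆ ω ∧ Disjoint ω C) := by
  constructor
  · rintro ⟨h1, h2⟩
    constructor
    · intro e he
      by_contra k
      have h3 : tau m e ∈ mirror O := mem_mirror.2 (by rwa [tau_tau])
      have h4 : tau m e ∈ star ω := mem_star.2 (by rwa [tau_tau])
      exact disjoint_left.1 h2 h4 h3
    · rw [disjoint_left]
      intro e he hc
      have h3 : tau m e ∈ mirror C := mem_mirror.2 (by rwa [tau_tau])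
      have h4 := mem_star.1 (h1 h3)
      rw [tau_tau] at h4
      exact h4 he
  · rintro ⟨h1, h2⟩
    constructor
    · intro e he
      rw [mem_mirror] at he
      exact mem_star.2 fun k => disjoint_left.1 h2 k he
    · rw [disjoint_left]
      intro e he ho
      rw [mem_mirror] at ho
      exact mem_star.1 he (h1 ho)

theorem FF_dual (r : ℝ) (O C : Finset (Inner m)) :
    FF r (mirror C) (mirror O) (fun ω => ¬ Cross ω) = r * FF r O C Cross := by
  rw [FF, FF, mul_sum]
  symm
  refine sum_nbij' star star (fun _ _ => mem_univ _) (fun _ _ => mem_univ _)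
    (fun ω _ => star_star ω) (fun ω _ => star_star ω) ?_
  intro ω _
  by_cases h : (O ⊆ ω ∧ Disjoint ω C) ∧ Cross ω
  · have h' : (mirror C ⊆ star ω ∧ Disjoint (star ω) (mirror O)) ∧ ¬ Cross (star ω) :=
      ⟨star_cond.2 h.1, fun k => (cross_star ω).1 k h.2⟩
    rw [ft_pos h, ft_pos h', exponent h.2, pow_succ]
    ring
  · have h' : ¬ ((mirror C ⊆ star ω ∧ Disjoint (star ω) (mirror O)) ∧ ¬ Cross (star ω)) := by
      rintro ⟨h1, h2⟩
      refine h ⟨star_cond.1 h1, ?_⟩
      by_contra k
      exact h2 ((cross_star ω).2 k)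
    rw [ft_neg h, ft_neg h', mul_zero]

theorem FF_dual' (r : ℝ) (O C : Finset (Inner m)) :
    FF r O C (fun ω => ¬ Cross ω) = r * FF r (mirror C) (mirror O) Cross := by
  have := FF_dual r (mirror C) (mirror O)
  rwa [mirror_mirror, mirror_mirror] at this

theorem FF_add (r : ℝ) (O C : Finset (Inner m)) :
    FF r O C (fun _ => True) = FF r O C Cross + FF r O C (fun ω => ¬ Cross ω) := by
  rw [FF, FF, FF, ← sum_add_distrib]
  refine sum_congr rfl fun ω _ => ?_
  by_cases h1 : O ⊆ ω ∧ Disjoint ω C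
  · have e1 : ft r O C (fun _ => True) ω = r ^ (ω.card + 2 * ks ω) := ft_pos ⟨h1, trivial⟩
    by_cases h2 : Cross ω
    · have e2 : ft r O C Cross ω = r ^ (ω.card + 2 * ks ω) := ft_pos ⟨h1, h2⟩
      have e3 : ft r O C (fun ω => ¬ Cross ω) ω = 0 := ft_neg fun k => k.2 h2
      rw [e1, e2, e3, add_zero]
    · have e2 : ft r O C Cross ω = 0 := ft_neg fun k => h2 k.2
      have e3 : ft r O C (fun ω => ¬ Cross ω) ω = r ^ (ω.card + 2 * ks ω) :=
        ft_pos ⟨h1, h2⟩
      rw [e1, e2, e3, zero_add]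
  · have e1 : ft r O C (fun _ => True) ω = 0 := ft_neg fun k => h1 k.1
    have e2 : ft r O C Cross ω = 0 := ft_neg fun k => h1 k.1
    have e3 : ft r O C (fun ω => ¬ Cross ω) ω = 0 := ft_neg fun k => h1 k.1
    rw [e1, e2, e3, add_zero]

theorem ft_nonneg {r : ℝ} (hr : 0 < r) (O C : Finset (Inner m))
    (P : Finset (Inner m) → Prop) (ω : Finset (E0 m)) : 0 ≤ ft r O C P ω := by
  rw [ft]
  split_ifs
  · exact pow_nonneg hr.le _
  · exact le_rfl

theorem FF_nonneg {r : ℝ} (hr : 0 < r) (O C : Finset (Inner m)) (P : Finset (Inner m) → Prop) :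
    0 ≤ FF r O C P :=
  sum_nonneg fun ω _ => ft_nonneg hr O C P ω

theorem FF_pos {r : ℝ} (hr : 0 < r) {O C : Finset (Inner m)} (h : Disjoint O C) :
    0 < FF r O C (fun _ => True) := by
  refine sum_pos' (fun ω _ => ft_nonneg hr O C _ ω) ⟨O, mem_univ _, ?_⟩
  rw [ft_pos ⟨⟨subset_rfl, h⟩, trivial⟩]
  exact pow_pos hr _

theorem inn_subset {O : Finset (Inner m)} {ω₀ : Finset (E0 m)}
    {ω₁ : Finset (Fin m ⊕ ((Fin (0 + 1) × Fin m) ⊕ (Fin 0 × Fin (m + 1))))} :
    inn O ⊆ ω₀.disjSum ω₁ ↔ O ⊆ ω₀ := by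
  constructor
  · intro h e he
    have : (Sum.inl e : RE m 0) ∈ inn O := mem_map.2 ⟨e, he, rfl⟩
    exact inl_mem_disjSum.1 (h this)
  · intro h x hx
    obtain ⟨e, he, rfl⟩ := mem_map.1 hx
    exact inl_mem_disjSum.2 (h he)

theorem inn_disjoint {C : Finset (Inner m)} {ω₀ : Finset (E0 m)}
    {ω₁ : Finset (Fin m ⊕ ((Fin (0 + 1) × Fin m) ⊕ (Fin 0 × Fin (m + 1))))} :
    Disjoint (ω₀.disjSum ω₁) (inn C) ↔ Disjoint ω₀ C := by
  rw [disjoint_left, disjoint_left]
  constructor
  · intro h e he hc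
    exact h (inl_mem_disjSum.2 he) (mem_map.2 ⟨e, hc, rfl⟩)
  · intro h x hx hc
    obtain ⟨e, he, rfl⟩ := mem_map.1 hc
    exact h (inl_mem_disjSum.1 hx) he

theorem weight2_far {q : ℝ} (hq : 0 < q) (ω₀ : Finset (E0 m))
    (ω₁ : Finset (Fin m ⊕ ((Fin (0 + 1) × Fin m) ⊕ (Fin 0 × Fin (m + 1))))) :
    weight2 ra rb (fun _ => selfDual q) q (left m 0) (far m 0) (ω₀.disjSum ω₁) =
      (1 - selfDual q) ^ Fintype.card (RE m 0) * √q ^ ω₁.card *
        √q ^ (ω₀.card + 2 * ks ω₀) := by
  rw [← weight_far hq, weight2, weight, farC, clusters_contr (contr_con m 0) (left_far m 0)]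

theorem hit2_far (ω₀ : Finset (E0 m))
    (ω₁ : Finset (Fin m ⊕ ((Fin (0 + 1) × Fin m) ⊕ (Fin 0 × Fin (m + 1))))) :
    Hit ra rb (left m 0) (far m 0) (ω₀.disjSum ω₁) ↔ Cross ω₀ := by
  rw [← hit_far ω₀ ω₁, farC, hit_contr (contr_con m 0) (left_far m 0)]

open Classical in
theorem ratio_key {q : ℝ} (hq : 0 < q) (O C : Finset (Inner m))
    (Q : Finset (RE m 0) → Prop) (P : Finset (Inner m) → Prop)
    (hQP : ∀ (ω₀ : Finset (E0 m))
      (ω₁ : Finset (Fin m ⊕ ((Fin (0 + 1) × Fin m) ⊕ (Fin 0 × Fin (m + 1))))),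
      Q (ω₀.disjSum ω₁) ↔ ((O ⊆ ω₀ ∧ Disjoint ω₀ C) ∧ P ω₀)) :
    ∑ ω : Finset (RE m 0), (if Q ω then
      weight2 ra rb (fun _ => selfDual q) q (left m 0) (far m 0) ω else 0) =
      ((1 - selfDual q) ^ Fintype.card (RE m 0) *
    ∑ ω₁ : Finset (Fin m ⊕ ((Fin (0 + 1) × Fin m) ⊕ (Fin 0 × Fin (m + 1)))),
      √q ^ ω₁.card) * FF (√q) O C P := by
  rw [FF, sum_disjSum, mul_sum]
  refine sum_congr rfl fun ω₀ _ => ?_
  rw [mul_sum, sum_mul]
  refine sum_congr rfl fun ω₁ _ => ?_
  by_cases h : (O ⊆ ω₀ ∧ Disjoint ω₀ C) ∧ P ω₀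
  · rw [if_pos ((hQP ω₀ ω₁).2 h), ft_pos h, weight2_far hq]
  · rw [if_neg fun l => h ((hQP ω₀ ω₁).1 l), ft_neg h, mul_zero]

theorem sdCross_eq {q : ℝ} (hq : 0 < q) (O C : Finset (Inner m)) :
    sdCross m q O C = FF (√q) O C Cross / FF (√q) O C (fun _ => True) := by
  classical
  have hr : 0 < √q := Real.sqrt_pos.2 hq
  have h1 := ratio_key hq O C (fun ω => (inn O ⊆ ω ∧ Disjoint ω (inn C)) ∧
    Hit ra rb (left m 0) (far m 0) ω) Cross (fun ω₀ ω₁ => by
      rw [inn_subset, inn_disjoint, hit2_far])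
  have h2 := ratio_key hq O C (fun ω => inn O ⊆ ω ∧ Disjoint ω (inn C)) (fun _ => True)
    (fun ω₀ ω₁ => by rw [inn_subset, inn_disjoint, and_true])
  have hK : 0 < (1 - selfDual q) ^ Fintype.card (RE m 0) *
      ∑ ω₁ : Finset (Fin m ⊕ ((Fin (0 + 1) × Fin m) ⊕ (Fin 0 × Fin (m + 1)))),
        √q ^ ω₁.card := by
    refine mul_pos (pow_pos (by linarith [(selfDual_mem hq).2]) _) ?_
    exact sum_pos (fun ω _ => pow_pos hr _) ⟨∅, mem_univ _⟩
  rw [sdCross, condCross, sum_filter, sum_filter]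
  refine (congrArg₂ (· / ·) ?_ ?_).trans (mul_div_mul_left _ _ hK.ne')
  · rw [← h1]
    refine sum_congr rfl fun ω _ => ?_
    by_cases h : (inn O ⊆ ω ∧ Disjoint ω (inn C)) ∧ Hit ra rb (left m 0) (far m 0) ω
    · rw [if_pos h, if_pos h]
    · rw [if_neg h, if_neg h]
  · rw [← h2]
    refine sum_congr rfl fun ω _ => ?_
    by_cases h : inn O ⊆ ω ∧ Disjoint ω (inn C)
    · rw [if_pos h, if_pos h]
    · rw [if_neg h, if_neg h]

/-- The crossing probability in terms of the partial sums. -/
theorem sdCross_frac {q : ℝ} (hq : 0 < q) (O C : Finset (Inner m)) :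
    sdCross m q O C = FF (√q) O C Cross /
      (FF (√q) O C Cross + √q * FF (√q) (mirror C) (mirror O) Cross) := by
  rw [sdCross_eq hq, FF_add, FF_dual']

theorem sd_pos {q : ℝ} (hq : 0 < q) {O C : Finset (Inner m)} (h : Disjoint O C) :
    0 < FF (√q) O C Cross + √q * FF (√q) (mirror C) (mirror O) Cross := by
  have := FF_pos (Real.sqrt_pos.2 hq) h
  rwa [FF_add, FF_dual'] at this

/-- **The exact value** for symmetric explored sets. -/
theorem sdCross_exact {q : ℝ} (hq : 0 < q) {O : Finset (Inner m)} (h : Disjoint O (mirror O)) :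
    sdCross m q O (mirror O) = 1 / (1 + √q) := by
  have h1 := sd_pos hq h
  rw [sdCross_frac hq]
  rw [mirror_mirror] at h1 ⊢
  have hr : 0 < √q := Real.sqrt_pos.2 hq
  have h2 : 0 < FF (√q) O (mirror O) Cross := by
    by_contra k
    have h3 := FF_nonneg hr O (mirror O) Cross
    have h4 : FF (√q) O (mirror O) Cross = 0 := le_antisymm (not_lt.1 k) h3
    rw [h4] at h1
    simp at h1
  field_simp

/-- **Duality** of the conditional crossing probabilities. -/
theorem sdCross_duality {q : ℝ} (hq : 0 < q) {O C : Finset (Inner m)} (h : Disjoint O C) :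
    q * (sdCross m q O C * sdCross m q (mirror C) (mirror O)) =
      (1 - sdCross m q O C) * (1 - sdCross m q (mirror C) (mirror O)) := by
  have hr : 0 < √q := Real.sqrt_pos.2 hq
  have h1 := sd_pos hq h
  have h2 := sd_pos hq (mirror_disjoint h)
  rw [sdCross_frac hq, sdCross_frac hq]
  rw [mirror_mirror, mirror_mirror] at h2 ⊢
  have h3 : √q * √q = q := Real.mul_self_sqrt hq.le
  generalize FF (√q) O C Cross = x at *
  generalize FF (√q) (mirror C) (mirror O) Cross = y at *
  have e1 : 1 - x / (x + √q * y) = √q * y / (x + √q * y) := by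
    field_simp
    ring
  have e2 : 1 - y / (y + √q * x) = √q * x / (y + √q * x) := by
    field_simp
    ring
  rw [e1, e2, div_mul_div_comm, div_mul_div_comm, ← mul_div_assoc]
  congr 1
  linear_combination (-(x * y)) * h3

theorem attached_att {O : Finset (Inner m)} (h : Attached O) :
    Att ra rb (left m 0) (far m 0) (inn O) := attachedTo_att h

theorem selfDual_pos {q : ℝ} (hq : 0 < q) : 0 < selfDual q ∧ selfDual q < 1 := by
  have h : 0 < √q := Real.sqrt_pos.2 hq
  refine ⟨?_, (selfDual_mem hq).2⟩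
  rw [selfDual]
  positivity

theorem sdCross_open {q : ℝ} (hq : 0 < q) (hq1 : q ≤ 1) {O O' C : Finset (Inner m)}
    (hOO : O ⊆ O') (hO : Attached O) (hO' : Attached O') (hC : Disjoint O' C) :
    sdCross m q O C ≤ sdCross m q O' C := by
  refine condCross_mono_open (fun _ => selfDual_pos hq) hq hq1 ?_ (attached_att hO)
    (attached_att hO') ?_
  · exact map_subset_map.2 hOO
  · rw [inn, inn, disjoint_map]
    exact hC

theorem sdCross_closed {q : ℝ} (hq : 0 < q) (hq1 : q ≤ 1) {O C C' : Finset (Inner m)}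
    (hCC : C' ⊆ C) (hC : Attached (mirror C)) (hC' : Attached (mirror C'))
    (hOC : Disjoint O C) : sdCross m q O C ≤ sdCross m q O C' := by
  have hr : 0 < √q := Real.sqrt_pos.2 hq
  have hd' : Disjoint O C' := hOC.mono_right hCC
  have h := sdCross_open hq hq1 (mirror_mono hCC) hC' hC (mirror_disjoint hOC)
  have p1 := sd_pos hq hOC
  have p2 := sd_pos hq hd'
  have p3 := sd_pos hq (mirror_disjoint hOC)
  have p4 := sd_pos hq (mirror_disjoint hd')
  rw [sdCross_frac hq, sdCross_frac hq] at h ⊢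
  rw [mirror_mirror, mirror_mirror] at p3 p4
  rw [mirror_mirror, mirror_mirror, mirror_mirror] at h
  rw [div_le_div_iff₀ p4 p3] at h
  rw [div_le_div_iff₀ p1 p2]
  generalize FF (√q) O C Cross = x1 at *
  generalize FF (√q) (mirror C) (mirror O) Cross = y1 at *
  generalize FF (√q) O C' Cross = x2 at *
  generalize FF (√q) (mirror C') (mirror O) Cross = y2 at *
  have h1 : √q * (y2 * x1) ≤ √q * (y1 * x2) := by nlinarith
  have h2 : y2 * x1 ≤ y1 * x2 := le_of_mul_le_mul_left h1 hr
  nlinarith [mul_le_mul_of_nonneg_left h2 hr.le]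

/-- **Comparison of explored regions.** -/
theorem sdCross_mono {q : ℝ} (hq : 0 < q) (hq1 : q ≤ 1) {O O' C C' : Finset (Inner m)}
    (hOO : O ⊆ O') (hCC : C' ⊆ C) (hO : Attached O) (hO' : Attached O')
    (hC : Attached (mirror C)) (hC' : Attached (mirror C')) (h : Disjoint O C)
    (h' : Disjoint O' C') : sdCross m q O C ≤ sdCross m q O' C' :=
  (sdCross_closed hq hq1 hCC hC hC' h).trans (sdCross_open hq hq1 hOO hO hO' h')

theorem sdCross_ge {q : ℝ} (hq : 0 < q) (hq1 : q ≤ 1) {O C : Finset (Inner m)}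
    (hO : Attached O) (hC : Attached (mirror C)) (h : Disjoint O C) (hCO : mirror C ⊆ O) :
    1 / (1 + √q) ≤ sdCross m q O C := by
  have hd : Disjoint (mirror C) (mirror (mirror C)) := by
    rw [mirror_mirror]
    exact h.mono_left hCO
  have h1 := sdCross_exact hq hd
  rw [mirror_mirror] at h1
  rw [← h1]
  exact sdCross_open hq hq1 hCO hC hO h

theorem sdCross_le {q : ℝ} (hq : 0 < q) (hq1 : q ≤ 1) {O C : Finset (Inner m)}
    (hO : Attached O) (hC : Attached (mirror C)) (h : Disjoint O C) (hOC : O ⊆ mirror C) :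
    sdCross m q O C ≤ 1 / (1 + √q) := by
  have hsub : mirror O ⊆ C := by
    have := mirror_mono hOC
    rwa [mirror_mirror] at this
  rw [← sdCross_exact hq (h.mono_right hsub)]
  refine sdCross_closed hq hq1 hsub hC ?_ h
  rw [mirror_mirror]
  exact hO

end rect

end Vale.Agent.P167.H623
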