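import Vale.Agent.P167.H623.Adj
import Vale.Agent.P167.H623.LatDefs

/-!
The lattice domains as finite graphs.
-/

namespace Vale.Agent.P167.H623

open Finset

theorem sum_powerset_subtype {α : Type*} [DecidableEq α] (s : Finset α) (F : Finset α → ℝ) :
    ∑ A ∈ s.powerset, F A = ∑ ω : Finset s, F (ω.map (Function.Embedding.subtype _)) := by
  symm
  refine sum_bij (fun ω _ => ω.map (Function.Embedding.subtype _)) ?_ ?_ ?_ ?_
  · intro ω _
    rw [mem_powerset]
    intro x hx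
    rw [mem_map] at hx
    obtain ⟨y, -, rfl⟩ := hx
    exact y.2
  · intro ω _ ω' _ h
    exact Finset.map_injective _ h
  · intro A hA
    refine ⟨A.subtype (fun x => x ∈ s), mem_univ _, ?_⟩
    exact Finset.subtype_map_of_mem (fun x hx => (mem_powerset.1 hA) hx)
  · intro ω _
    rfl

theorem edges_verts {S : Finset (ℤ × ℤ)} {x y : ℤ × ℤ} (h : s(x, y) ∈ edges S) :
    x ∈ verts S ∧ y ∈ verts S := by
  rw [edges, mem_biUnion] at h
  obtain ⟨f, hf, h⟩ := h
  have hv : ∀ z, z ∈ ({f, f + (1, 0), f + (0, 1), f + (1, 1)} : Finset (ℤ × ℤ)) →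
      z ∈ verts S := fun z hz => mem_biUnion.2 ⟨f, hf, hz⟩
  simp only [mem_insert, mem_singleton, Sym2.eq_iff] at h hv
  rcases h with (⟨rfl, rfl⟩ | ⟨rfl, rfl⟩) | (⟨rfl, rfl⟩ | ⟨rfl, rfl⟩) |
    (⟨rfl, rfl⟩ | ⟨rfl, rfl⟩) | (⟨rfl, rfl⟩ | ⟨rfl, rfl⟩) <;>
  exact ⟨hv _ (by tauto), hv _ (by tauto)⟩

theorem out_mk (e : Sym2 (ℤ × ℤ)) : s((Quot.out e).1, (Quot.out e).2) = e := Quot.out_eq e

theorem out_verts {S : Finset (ℤ × ℤ)} (e : edges S) :
    (Quot.out e.1).1 ∈ verts S ∧ (Quot.out e.1).2 ∈ verts S := by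
  apply edges_verts
  rw [out_mk]
  exact e.2

/-- The first end. -/
noncomputable def ea (S : Finset (ℤ × ℤ)) (e : edges S) : verts S := ⟨_, (out_verts e).1⟩

/-- The second end. -/
noncomputable def eb (S : Finset (ℤ × ℤ)) (e : edges S) : verts S := ⟨_, (out_verts e).2⟩

theorem ends (S : Finset (ℤ × ℤ)) (e : edges S) :
    s((ea S e : ℤ × ℤ), (eb S e : ℤ × ℤ)) = e := out_mk e.1

/-- The set of open edges. -/
def opn {S : Finset (ℤ × ℤ)} (ω : Finset (edges S)) : Finset (Sym2 (ℤ × ℤ)) :=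
  ω.map (Function.Embedding.subtype _)

theorem mem_opn {S : Finset (ℤ × ℤ)} {ω : Finset (edges S)} {e : Sym2 (ℤ × ℤ)} :
    e ∈ opn ω ↔ ∃ h : e ∈ edges S, (⟨e, h⟩ : edges S) ∈ ω := by
  rw [opn, mem_map]
  constructor
  · rintro ⟨e', h, rfl⟩
    exact ⟨e'.2, h⟩
  · rintro ⟨h, h'⟩
    exact ⟨_, h', rfl⟩

theorem openAdj_mem {S : Finset (ℤ × ℤ)} {ω : Finset (edges S)} {x y : verts S}
    (h : OpenAdj (ea S) (eb S) ω x y) : s((x : ℤ × ℤ), (y : ℤ × ℤ)) ∈ opn ω := by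
  obtain ⟨e, he, rfl, rfl⟩ := h
  rw [ends]
  exact mem_opn.2 ⟨e.2, he⟩

theorem mem_openAdj {S : Finset (ℤ × ℤ)} {ω : Finset (edges S)} {x y : verts S}
    (h : s((x : ℤ × ℤ), (y : ℤ × ℤ)) ∈ opn ω) :
    OpenAdj (ea S) (eb S) ω x y ∨ OpenAdj (ea S) (eb S) ω y x := by
  obtain ⟨h1, h2⟩ := mem_opn.1 h
  have h3 := ends S ⟨_, h1⟩
  rw [Sym2.eq_iff] at h3
  rcases h3 with ⟨h3, h4⟩ | ⟨h3, h4⟩
  · exact Or.inl ⟨_, h2, Subtype.ext h3, Subtype.ext h4⟩
  · exact Or.inr ⟨_, h2, Subtype.ext h3, Subtype.ext h4⟩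

theorem joined_symm {A : Finset (Sym2 (ℤ × ℤ))} {x y : ℤ × ℤ} (h : Joined A x y) :
    Joined A y x := by
  induction h with
  | refl => exact Relation.ReflTransGen.refl
  | @tail u v _ huv ih =>
    have h1 : s(v, u) ∈ A := by
      rw [Sym2.eq_swap]
      exact huv
    exact Relation.ReflTransGen.head h1 ih

theorem conn_joined {S : Finset (ℤ × ℤ)} {ω : Finset (edges S)} {x y : verts S} :
    Conn (ea S) (eb S) ω x y ↔ Joined (opn ω) x y := by
  constructor
  · intro h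
    induction h with
    | rel x y h => exact Relation.ReflTransGen.single (openAdj_mem h)
    | refl x => exact Relation.ReflTransGen.refl
    | symm x y _ h => exact joined_symm h
    | trans x y z _ _ h h' => exact Relation.ReflTransGen.trans h h'
  · intro h
    have key : ∀ z, Joined (opn ω) x z → ∃ hz : z ∈ verts S,
        Conn (ea S) (eb S) ω x ⟨z, hz⟩ := by
      intro z hz
      induction hz with
      | refl => exact ⟨x.2, Relation.EqvGen.refl _⟩
      | @tail u v _ huv ih =>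
        obtain ⟨hu, hxu⟩ := ih
        obtain ⟨he, -⟩ := mem_opn.1 huv
        have hv := (edges_verts he).2
        refine ⟨hv, ?_⟩
        rcases mem_openAdj (x := ⟨u, hu⟩) (y := ⟨v, hv⟩) huv with h | h
        · exact Relation.EqvGen.trans _ _ _ hxu (Relation.EqvGen.rel _ _ h)
        · exact Relation.EqvGen.trans _ _ _ hxu
            (Relation.EqvGen.symm _ _ (Relation.EqvGen.rel _ _ h))
    obtain ⟨_, hz⟩ := key y h
    exact hz

/-- The vertices of `W` in the graph. -/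
def inV (S W : Finset (ℤ × ℤ)) : Finset (verts S) := W.subtype fun x => x ∈ verts S

theorem mem_inV {S W : Finset (ℤ × ℤ)} {x : verts S} : x ∈ inV S W ↔ (x : ℤ × ℤ) ∈ W := by
  rw [inV, mem_subtype]

theorem clusters_lat (S W : Finset (ℤ × ℤ)) (ω : Finset (edges S)) :
    clusters (ea S) (eb S) (inV S W) ω = latClusters S W (opn ω) := by
  refine card_quot ?_ ?_
  · rintro x y (h | ⟨h, h'⟩)
    · exact Relation.EqvGen.rel _ _ (Or.inl (openAdj_mem h))
    · exact Relation.EqvGen.rel _ _ (Or.inr ⟨mem_inV.1 h, mem_inV.1 h'⟩)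
  · rintro x y (h | ⟨h, h'⟩)
    · rcases mem_openAdj h with h | h
      · exact Relation.EqvGen.rel _ _ (Or.inl h)
      · exact Relation.EqvGen.symm _ _ (Relation.EqvGen.rel _ _ (Or.inl h))
    · exact Relation.EqvGen.rel _ _ (Or.inr ⟨mem_inV.2 h, mem_inV.2 h'⟩)

theorem weight_lat (q : ℝ) (S W : Finset (ℤ × ℤ)) (ω : Finset (edges S)) :
    weight (ea S) (eb S) (fun _ => selfDual q) q (inV S W) ω = latWeight q S W (opn ω) := by
  rw [weight, latWeight, clusters_lat, prod_const, prod_const, card_compl, Fintype.card_coe,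
    opn, card_map]

theorem prob_lat (q : ℝ) (S W : Finset (ℤ × ℤ)) (P : Finset (Sym2 (ℤ × ℤ)) → Prop) :
    prob (ea S) (eb S) (fun _ => selfDual q) q (inV S W) (fun ω => P (opn ω)) =
      latProb q S W P := by
  classical
  rw [prob, latProb, sum_filter, sum_filter, sum_powerset_subtype, sum_powerset_subtype]
  congr 1
  · refine sum_congr rfl fun ω _ => ?_
    by_cases h : P (opn ω)
    · rw [if_pos h, weight_lat]
      exact (if_pos h).symm
    · rw [if_neg h]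
      exact (if_neg h).symm
  · exact sum_congr rfl fun ω _ => weight_lat q S W ω

theorem selfDual_mem {q : ℝ} (hq : 0 < q) : 0 ≤ selfDual q ∧ selfDual q < 1 := by
  have h : 0 < √q := Real.sqrt_pos.2 hq
  rw [selfDual]
  refine ⟨by positivity, ?_⟩
  rw [div_lt_one (by linarith)]
  linarith

/-- No open path joins `T` and `W`. -/
def LatMiss (T W : Finset (ℤ × ℤ)) (A : Finset (Sym2 (ℤ × ℤ))) : Prop :=
  ∀ x ∈ T, ∀ y ∈ W, ¬ Joined A x y

theorem miss_lat {S T W : Finset (ℤ × ℤ)} (hT : T ⊆ verts S) (hW : W ⊆ verts S)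
    (ω : Finset (edges S)) :
    Miss (ea S) (eb S) (inV S T) (inV S W) ω ↔ LatMiss T W (opn ω) := by
  constructor
  · intro h x hx y hy hxy
    exact h ⟨x, hT hx⟩ (mem_inV.2 hx) ⟨y, hW hy⟩ (mem_inV.2 hy) (conn_joined.2 hxy)
  · intro h x hx y hy hxy
    exact h x (mem_inV.1 hx) y (mem_inV.1 hy) (conn_joined.1 hxy)

theorem lat_capacity {q : ℝ} (hq : 0 < q) (hq1 : q ≤ 1) {S T : Finset (ℤ × ℤ)}
    (hT : T ⊆ verts S) : ∃ π : Finset (verts S) → ℝ, (∀ A, 0 ≤ π A) ∧ ∑ A, π A = 1 ∧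
      ∀ W ⊆ verts S, latProb q S W (LatMiss T W) =
        ∑ A with Disjoint A (inV S W), π A := by
  obtain ⟨π, h0, h1, h2⟩ := capacity (ea S) (eb S) (p := fun _ => selfDual q)
    (fun _ => selfDual_mem hq) hq hq1 (inV S T)
  refine ⟨π, h0, h1, fun W hW => ?_⟩
  rw [← h2, ← prob_lat]
  congr 1
  funext ω
  exact propext (miss_lat hT hW ω).symm

theorem arc_verts {n : ℕ} {p : ZMod n → ℤ × ℤ} {S : Finset (ℤ × ℤ)} (hp : IsPolygon p)
    (hS : Encloses p S) (k : ℕ) : arc p k ⊆ verts S := by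
  intro x hx
  rw [arc, mem_image] at hx
  obtain ⟨i, -, rfl⟩ := hx
  obtain ⟨r, hr⟩ := hp.2.2 (i : ZMod n)
  have h1 := ((hS (p i) r).1 ⟨i, rfl, hr⟩).1
  refine mem_biUnion.2 ⟨_, h1, ?_⟩
  generalize p (i : ZMod n) = v
  obtain ⟨v1, v2⟩ := v
  fin_cases r <;> simp [face]

end Vale.Agent.P167.H623
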