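import Vale.Agent.P167.H623.Rect
import Vale.Agent.P167.H623.RectDefs
import Vale.Agent.P167.H623.Lat

/-!
The crossing probability of the self-dual rectangle.
-/

namespace Vale.Agent.P167.H623

open Finset

set_option linter.unusedSectionVars false

section maps

variable {V V₁ : Type*} [Fintype V] [DecidableEq V] [Fintype V₁] [DecidableEq V₁]

/-- The relation of the images. -/
def pull (c : V → V₁) (hc : Function.Surjective c) (P : Setoid V)
    (h1 : ∀ x y, c x = c y → P x y) : Setoid V₁ where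
  r u v := ∀ x y, c x = u → c y = v → P x y
  iseqv := by
    refine ⟨fun u x y hx hy => h1 x y (hx.trans hy.symm),
      fun h x y hx hy => P.symm (h y x hy hx), fun {u v w} h h' x y hx hy => ?_⟩
    obtain ⟨z, hz⟩ := hc v
    exact P.trans (h x z hx hz) (h' z y hz hy)

theorem card_map_classes (c : V → V₁) (hc : Function.Surjective c) {P : Setoid V}
    {P₁ : Setoid V₁} (h2 : ∀ x y, P x y → P₁ (c x) (c y)) (h3 : ∀ x y, P₁ (c x) (c y) → P x y) :
    (classes P₁).card = (classes P).card := by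
  rw [← card_quot_classes (r := fun x y => P x y) (P := P) (fun _ _ h => h)
      (fun _ _ h => Relation.EqvGen.rel _ _ h),
    ← card_quot_classes (r := fun x y => P₁ x y) (P := P₁) (fun _ _ h => h)
      (fun _ _ h => Relation.EqvGen.rel _ _ h)]
  symm
  refine Nat.card_congr (Equiv.ofBijective (Quot.lift (fun x => Quot.mk _ (c x))
    fun x y h => Quot.sound (h2 x y h)) ⟨?_, ?_⟩)
  · rintro ⟨x⟩ ⟨y⟩ h
    have h4 := Quot.eqvGen_exact h
    rw [P₁.iseqv.eqvGen_iff] at h4
    exact Quot.sound (h3 x y h4)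
  · rintro ⟨u⟩
    obtain ⟨x, rfl⟩ := hc u
    exact ⟨Quot.mk _ x, rfl⟩

end maps

section

variable {V E : Type*} [Fintype V] [DecidableEq V] [Fintype E] [DecidableEq E]
  {V' : Type*} [Fintype V'] [DecidableEq V']

theorem prob_congr {a b : E → V} {a' b' : E → V'} {p : E → ℝ} {q : ℝ} {W : Finset V}
    {W' : Finset V'} {A A' : Finset E → Prop} (h : ∀ ω, clusters a b W ω = clusters a' b' W' ω)
    (h' : ∀ ω, A ω ↔ A' ω) : prob a b p q W A = prob a' b' p q W' A' := by
  classical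
  rw [prob, prob, sum_filter, sum_filter]
  have h1 : ∀ ω, weight a b p q W ω = weight a' b' p q W' ω := by
    intro ω
    rw [weight, weight, h]
  congr 1
  · refine sum_congr rfl fun ω _ => ?_
    by_cases h2 : A ω
    · rw [if_pos h2, if_pos ((h' ω).1 h2), h1]
    · rw [if_neg h2, if_neg fun k => h2 ((h' ω).2 k)]
  · exact sum_congr rfl fun ω _ => h1 ω

theorem hit_iff {a b : E → V} {W : Finset V} {ω : Finset E} {x : V} :
    Hit a b {x} W ω ↔ ∃ z ∈ W, conf a b ω x z := by
  constructor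
  · rintro ⟨u, hu, z, hz, h⟩
    rw [mem_singleton] at hu
    subst hu
    exact ⟨z, hz, (conn_iff a b ω _ _).1 h⟩
  · rintro ⟨z, hz, h⟩
    exact ⟨x, mem_singleton_self x, z, hz, (conn_iff a b ω _ _).2 h⟩

end

/-! ### The contraction of the left side -/

section

variable {m k : ℕ}

theorem con_zero (y : Fin (m + 1)) (h : 0 < m + 1 + k + 1) :
    con ((⟨0, h⟩, y) : RV m k) = none := rfl

theorem con_succ (x : ℕ) (h : x + 1 < m + 1 + k + 1) (y : Fin (m + 1)) :
    con ((⟨x + 1, h⟩, y) : RV m k) = some (⟨x, by omega⟩, y) := rfl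

theorem mem_left {v : RV m k} : v ∈ left m k ↔ (v.1 : ℕ) = 0 := by
  simp [left]

theorem mem_far {v : RV m k} : v ∈ far m k ↔ m + 1 ≤ (v.1 : ℕ) := by
  simp [far]

theorem con_surj : Function.Surjective (con (m := m) (k := k)) := by
  rintro (_ | ⟨⟨x, hx⟩, y⟩)
  · exact ⟨(⟨0, by omega⟩, ⟨0, by omega⟩), rfl⟩
  · exact ⟨(⟨x + 1, by omega⟩, y), rfl⟩

theorem con_inj {u v : RV m k} (h : con u = con v) : u = v ∨ (u ∈ left m k ∧ v ∈ left m k) := by
  obtain ⟨⟨x, hx⟩, y⟩ := u
  obtain ⟨⟨x', hx'⟩, y'⟩ := v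
  rcases x with _ | x <;> rcases x' with _ | x'
  · exact Or.inr ⟨mem_left.2 rfl, mem_left.2 rfl⟩
  · rw [con_zero, con_succ] at h
    exact absurd h (by simp)
  · rw [con_zero, con_succ] at h
    exact absurd h (by simp)
  · rw [con_succ, con_succ] at h
    left
    simp only [Option.some.injEq, Prod.mk.injEq, Fin.mk.injEq] at h
    obtain ⟨rfl, rfl⟩ := h
    rfl

theorem con_none {v : RV m k} : con v = none ↔ v ∈ left m k := by
  obtain ⟨⟨x, hx⟩, y⟩ := v
  rw [mem_left]
  rcases x with _ | x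
  · exact ⟨fun _ => rfl, fun _ => rfl⟩
  · exact ⟨fun h => absurd h (by rw [con_succ]; simp), fun h => absurd h (by simp)⟩

theorem pt_con (ω : Finset (RE m k)) (x y : RV m k) :
    pt (con ∘ ra) (con ∘ rb) ∅ ω (con x) (con y) ↔ pt ra rb (left m k) ω x y := by
  have h1 : ∀ x y : RV m k, con x = con y → pt ra rb (left m k) ω x y := by
    intro x y h
    rcases con_inj h with rfl | h
    · exact Setoid.refl' _ _
    · exact (le_sup_left : wire (left m k) ≤ _) (Or.inr h)
  constructor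
  · intro h
    have h2 : pt (con ∘ ra) (con ∘ rb) ∅ ω ≤
        pull con con_surj (pt ra rb (left m k) ω) h1 := by
      refine sup_le ?_ ?_
      · rintro u v (k | ⟨k, -⟩)
        · subst k; exact Setoid.refl' _ _
        · exact absurd k (notMem_empty _)
      · rw [conf_le_iff]
        intro e he x y hx hy
        have h3 : pt ra rb (left m k) ω (ra e) (rb e) :=
          (le_sup_right : conf ra rb ω ≤ _) (conf_edge ra rb he)
        exact Setoid.trans' _ (h1 _ _ hx) (Setoid.trans' _ h3 (h1 _ _ hy.symm))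
    exact h2 h x y rfl rfl
  · intro h
    have h2 : pt ra rb (left m k) ω ≤
        (⟨fun x y => pt (con ∘ ra) (con ∘ rb) ∅ ω (con x) (con y),
          fun x => Setoid.refl' _ _, fun h => Setoid.symm' _ h,
          fun h h' => Setoid.trans' _ h h'⟩ : Setoid (RV m k)) := by
      refine sup_le ?_ ?_
      · rintro u v (k | ⟨k, k'⟩)
        · subst k; exact Setoid.refl' _ _
        · change pt (con ∘ ra) (con ∘ rb) ∅ ω (con u) (con v)
          rw [con_none.2 k, con_none.2 k']
      · rw [conf_le_iff]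
        intro e he
        exact (le_sup_right : conf (con ∘ ra) (con ∘ rb) ω ≤ _)
          (conf_edge (con ∘ ra) (con ∘ rb) he)
    exact h2 h

theorem clusters_con (ω : Finset (RE m k)) :
    clusters (con ∘ ra) (con ∘ rb) ∅ ω = clusters ra rb (left m k) ω := by
  rw [clusters_pt, clusters_pt]
  exact card_map_classes con con_surj (fun x y h => (pt_con ω x y).2 h)
    fun x y h => (pt_con ω x y).1 h

/-- The left side wired or contracted: one vertex. -/
theorem prob_con (p : RE m k → ℝ) (q : ℝ) (y : RV m k) :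
    prob (con ∘ ra) (con ∘ rb) p q {con y}
      (Hit (con ∘ ra) (con ∘ rb) {none} {con y}) =
    prob ra rb p q (left m k) (Hit ra rb {y} (left m k)) := by
  refine prob_congr (fun ω => ?_) fun ω => ?_
  · rw [clusters_singleton, clusters_con]
  · rw [hit_iff, hit_iff]
    have hl : ((⟨0, by omega⟩, ⟨0, by omega⟩) : RV m k) ∈ left m k := mem_left.2 rfl
    rw [← pt_hit hl, ← pt_con]
    have h0 : pt (con ∘ ra) (con ∘ rb) ∅ ω = conf (con ∘ ra) (con ∘ rb) ω := by
      refine le_antisymm (sup_le ?_ le_rfl) le_sup_right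
      rintro u v (k | ⟨k, -⟩)
      · subst k; exact Setoid.refl' _ _
      · exact absurd k (notMem_empty _)
    rw [h0, con_none.2 hl]
    constructor
    · rintro ⟨z, hz, h⟩
      rw [mem_singleton] at hz
      subst hz
      exact Setoid.symm' _ h
    · intro h
      exact ⟨_, mem_singleton_self _, Setoid.symm' _ h⟩

/-! ### The far columns -/

/-- The far columns in the contracted rectangle. -/
def farC (m k : ℕ) : Finset (CV m k) := (far m k).image con

theorem mem_farC {v : CV m k} : v ∈ farC m k ↔ ∃ x y, v = some (x, y) ∧ m ≤ (x : ℕ) := by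
  rw [farC, mem_image]
  constructor
  · rintro ⟨⟨⟨x, hx⟩, y⟩, h, rfl⟩
    rw [mem_far] at h
    rcases x with _ | x
    · exact absurd h (by simp)
    · exact ⟨_, _, con_succ x hx y, by simpa using h⟩
  · rintro ⟨⟨x, hx⟩, y, rfl, h⟩
    exact ⟨(⟨x + 1, by omega⟩, y), mem_far.2 (by simpa using h), rfl⟩

/-- The identification of the far columns. -/
def squ : CV m k → V0 m
  | none => none
  | some (x, y) => some (⟨min x m, by omega⟩, y)

theorem squ_surj : Function.Surjective (squ (m := m) (k := k)) := by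
  rintro (_ | ⟨⟨x, hx⟩, y⟩)
  · exact ⟨none, rfl⟩
  · refine ⟨some (⟨x, by omega⟩, y), ?_⟩
    have : min x m = x := by omega
    simp only [squ, this]

theorem mem_right {v : V0 m} : v ∈ right m ↔ ∃ y, v = some (Fin.last m, y) := by
  rw [right, mem_image]
  constructor
  · rintro ⟨y, -, rfl⟩; exact ⟨y, rfl⟩
  · rintro ⟨y, rfl⟩; exact ⟨y, mem_univ y, rfl⟩

theorem squ_right {v : CV m k} : squ v ∈ right m ↔ v ∈ farC m k := by
  rw [mem_right, mem_farC]
  rcases v with _ | ⟨x, y⟩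
  · simp [squ]
  · simp only [squ, Option.some.injEq, Prod.mk.injEq, Fin.ext_iff, Fin.val_last]
    constructor
    · rintro ⟨y', h, -⟩
      exact ⟨x, y, ⟨rfl, rfl⟩, by omega⟩
    · rintro ⟨x', y', ⟨h, -⟩, h'⟩
      exact ⟨y, by omega, rfl⟩

theorem squ_inj {u v : CV m k} (h : squ u = squ v) : u = v ∨ (u ∈ farC m k ∧ v ∈ farC m k) := by
  rcases u with _ | ⟨x, y⟩ <;> rcases v with _ | ⟨x', y'⟩
  · exact Or.inl rfl
  · exact absurd h (by simp [squ])
  · exact absurd h (by simp [squ])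
  · simp only [squ, Option.some.injEq, Prod.mk.injEq, Fin.mk.injEq] at h
    obtain ⟨h1, rfl⟩ := h
    by_cases h2 : m ≤ (x : ℕ)
    · right
      exact ⟨mem_farC.2 ⟨x, y, rfl, h2⟩, mem_farC.2 ⟨x', y, rfl, by omega⟩⟩
    · left
      have : x = x' := Fin.ext (by omega)
      rw [this]

theorem squ_con {x y : ℕ} (hx : x < m + 1 + k + 1) (hy : y < m + 1) (h : x ≤ m + 1) :
    squ (con ((⟨x, hx⟩, ⟨y, hy⟩) : RV m k)) = node m x y := by
  rcases x with _ | x
  · rfl
  · rw [con_succ, node, if_neg (Nat.succ_ne_zero _), Nat.add_sub_cancel]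
    simp only [squ, Option.some.injEq, Prod.mk.injEq, Fin.ext_iff, Fin.ofNat,
      Nat.mod_eq_of_lt hy, Nat.mod_eq_of_lt (show x < m + 1 by omega), and_true]
    omega

theorem squ_ra (e : E0 m) : squ (con (ra (k := k) (Sum.inl e))) = a0 e := by
  rcases e with ⟨i, j⟩ | ⟨i, j⟩
  · exact squ_con _ _ (by have := i.2; omega)
  · exact squ_con _ _ (by have := i.2; omega)

theorem squ_rb (e : E0 m) : squ (con (rb (k := k) (Sum.inl e))) = b0 e := by
  rcases e with ⟨i, j⟩ | ⟨i, j⟩
  · exact squ_con _ _ (by have := i.2; omega)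
  · exact squ_con _ _ (by have := i.2; omega)

/-- The other edges do not matter. -/
theorem other (e : Fin m ⊕ ((Fin (k + 1) × Fin m) ⊕ (Fin k × Fin (m + 1)))) :
    con (ra (k := k) (Sum.inr e)) = con (rb (k := k) (Sum.inr e)) ∨
      (con (ra (k := k) (Sum.inr e)) ∈ farC m k ∧ con (rb (k := k) (Sum.inr e)) ∈ farC m k) := by
  rcases e with j | ⟨i, j⟩ | ⟨i, j⟩
  · exact Or.inl rfl
  · refine Or.inr ⟨mem_image_of_mem _ (mem_far.2 ?_), mem_image_of_mem _ (mem_far.2 ?_)⟩ <;>
      simp [ra, rb]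
  · refine Or.inr ⟨mem_image_of_mem _ (mem_far.2 ?_), mem_image_of_mem _ (mem_far.2 ?_)⟩ <;>
      simp [ra, rb]
    omega

theorem pt_squ (ω₀ : Finset (E0 m))
    (ω₁ : Finset (Fin m ⊕ ((Fin (k + 1) × Fin m) ⊕ (Fin k × Fin (m + 1))))) (u v : CV m k) :
    pt a0 b0 (right m) ω₀ (squ u) (squ v) ↔
      pt (con ∘ ra) (con ∘ rb) (farC m k) (ω₀.disjSum ω₁) u v := by
  have h1 : ∀ u v : CV m k, squ u = squ v →
      pt (con ∘ ra) (con ∘ rb) (farC m k) (ω₀.disjSum ω₁) u v := by
    intro u v h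
    rcases squ_inj h with rfl | h
    · exact Setoid.refl' _ _
    · exact (le_sup_left : wire (farC m k) ≤ _) (Or.inr h)
  constructor
  · intro h
    have h2 : pt a0 b0 (right m) ω₀ ≤ pull squ squ_surj
        (pt (con ∘ ra) (con ∘ rb) (farC m k) (ω₀.disjSum ω₁)) h1 := by
      refine sup_le ?_ ?_
      · rintro u v (l | ⟨l, l'⟩)
        · subst l; exact Setoid.refl' _ _
        · rintro x y rfl rfl
          exact (le_sup_left : wire (farC m k) ≤ _) (Or.inr ⟨squ_right.1 l, squ_right.1 l'⟩)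
      · rw [conf_le_iff]
        intro e he x y hx hy
        have h3 : pt (con ∘ ra) (con ∘ rb) (farC m k) (ω₀.disjSum ω₁)
            ((con ∘ ra) (Sum.inl e)) ((con ∘ rb) (Sum.inl e)) :=
          (le_sup_right : conf (con ∘ ra) (con ∘ rb) _ ≤ _)
            (conf_edge (con ∘ ra) (con ∘ rb) (inl_mem_disjSum.2 he))
        refine Setoid.trans' _ (h1 _ _ (hx.trans (squ_ra e).symm))
          (Setoid.trans' _ h3 (h1 _ _ ((squ_rb e).trans hy.symm)))
    exact h2 h u v rfl rfl
  · intro h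
    have h2 : pt (con ∘ ra) (con ∘ rb) (farC m k) (ω₀.disjSum ω₁) ≤
        (⟨fun x y => pt a0 b0 (right m) ω₀ (squ x) (squ y),
          fun x => Setoid.refl' _ _, fun h => Setoid.symm' _ h,
          fun h h' => Setoid.trans' _ h h'⟩ : Setoid (CV m k)) := by
      have hfar : ∀ u v : CV m k, u ∈ farC m k → v ∈ farC m k →
          pt a0 b0 (right m) ω₀ (squ u) (squ v) := fun u v l l' =>
        (le_sup_left : wire (right m) ≤ _) (Or.inr ⟨squ_right.2 l, squ_right.2 l'⟩)
      refine sup_le ?_ ?_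
      · rintro u v (l | ⟨l, l'⟩)
        · subst l; exact Setoid.refl' _ _
        · exact hfar u v l l'
      · rw [conf_le_iff]
        intro e he
        rcases e with e | e
        · change pt a0 b0 (right m) ω₀ (squ (con (ra (Sum.inl e)))) (squ (con (rb (Sum.inl e))))
          rw [squ_ra, squ_rb]
          exact (le_sup_right : conf a0 b0 _ ≤ _) (conf_edge a0 b0 (inl_mem_disjSum.1 he))
        · change pt a0 b0 (right m) ω₀ (squ (con (ra (Sum.inr e)))) (squ (con (rb (Sum.inr e))))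
          rcases other e with h3 | h3
          · rw [h3]
          · exact hfar _ _ h3.1 h3.2
    exact h2 h

theorem clusters_far (ω₀ : Finset (E0 m))
    (ω₁ : Finset (Fin m ⊕ ((Fin (k + 1) × Fin m) ⊕ (Fin k × Fin (m + 1))))) :
    clusters (con ∘ ra) (con ∘ rb) (farC m k) (ω₀.disjSum ω₁) = ks ω₀ := by
  rw [ks, clusters_pt, clusters_pt]
  symm
  exact card_map_classes squ squ_surj (fun x y h => (pt_squ ω₀ ω₁ x y).2 h)
    fun x y h => (pt_squ ω₀ ω₁ x y).1 h

theorem hit_far (ω₀ : Finset (E0 m))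
    (ω₁ : Finset (Fin m ⊕ ((Fin (k + 1) × Fin m) ⊕ (Fin k × Fin (m + 1))))) :
    Hit (con ∘ ra) (con ∘ rb) {none} (farC m k) (ω₀.disjSum ω₁) ↔ Cross ω₀ := by
  have hm : m < m + 1 + k := by omega
  have h1 : (some (⟨m, hm⟩, (0 : Fin (m + 1))) : CV m k) ∈ farC m k :=
    mem_farC.2 ⟨_, _, rfl, le_rfl⟩
  rw [hit_iff, ← pt_hit h1, ← pt_squ, Cross, ← pt_hit (squ_right.2 h1)]
  rfl

end

/-! ### The probability -/

open Classical in
theorem sum_cross {m : ℕ} (r : ℝ) :
    ∑ ω : Finset (E0 m) with ¬ Cross ω, r ^ (ω.card + 2 * ks ω) =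
      r * ∑ ω : Finset (E0 m) with Cross ω, r ^ (ω.card + 2 * ks ω) := by
  rw [mul_sum]
  symm
  refine sum_nbij' star star ?_ ?_ ?_ ?_ ?_
  · intro ω h
    rw [mem_filter] at h ⊢
    exact ⟨mem_univ _, fun k => (cross_star ω).1 k h.2⟩
  · intro ω h
    rw [mem_filter] at h ⊢
    exact ⟨mem_univ _, (cross_star ω).2 h.2⟩
  · intro ω _; exact star_star ω
  · intro ω _; exact star_star ω
  · intro ω h
    rw [mem_filter] at h
    rw [exponent h.2, pow_succ]
    ring

theorem sum_disjSum {α β : Type*} [Fintype α] [Fintype β] [DecidableEq α] [DecidableEq β]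
    (F : Finset (α ⊕ β) → ℝ) : ∑ ω, F ω = ∑ ω₀ : Finset α, ∑ ω₁ : Finset β,
      F (ω₀.disjSum ω₁) := by
  rw [← Fintype.sum_prod_type (f := fun x : Finset α × Finset β => F (x.1.disjSum x.2))]
  exact (Fintype.sum_equiv (Finset.sumEquiv (α := α) (β := β)).symm.toEquiv _ _
    fun x => rfl).symm

theorem weight_far {m k : ℕ} {q : ℝ} (hq : 0 < q) (ω₀ : Finset (E0 m))
    (ω₁ : Finset (Fin m ⊕ ((Fin (k + 1) × Fin m) ⊕ (Fin k × Fin (m + 1))))) :
    weight (con ∘ ra) (con ∘ rb) (fun _ => selfDual q) q (farC m k) (ω₀.disjSum ω₁) =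
      (1 - selfDual q) ^ Fintype.card (RE m k) * √q ^ ω₁.card *
        √q ^ (ω₀.card + 2 * ks ω₀) := by
  have h1 : selfDual q = √q * (1 - selfDual q) := by
    rw [selfDual]
    have : (1 : ℝ) + √q ≠ 0 := by positivity
    field_simp
    ring
  have h2 : (ω₀.disjSum ω₁).card + (ω₀.disjSum ω₁)ᶜ.card = Fintype.card (RE m k) :=
    card_add_card_compl _
  have h3 : q ^ ks ω₀ = √q ^ (2 * ks ω₀) := by
    rw [pow_mul, Real.sq_sqrt hq.le]
  rw [weight, clusters_far, prod_const, prod_const, h3, ← h2, card_disjSum]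
  have h4 : selfDual q ^ (ω₀.card + ω₁.card) =
      √q ^ (ω₀.card + ω₁.card) * (1 - selfDual q) ^ (ω₀.card + ω₁.card) := by
    rw [← mul_pow, ← h1]
  rw [h4]
  ring

theorem crossing (m k : ℕ) {q : ℝ} (hq : 0 < q) :
    prob (con ∘ ra) (con ∘ rb) (fun _ => selfDual q) q (farC m k)
      (Hit (con ∘ ra) (con ∘ rb) {none} (farC m k)) = 1 / (1 + √q) := by
  classical
  have hr : 0 < √q := Real.sqrt_pos.2 hq
  set K : ℝ := (1 - selfDual q) ^ Fintype.card (RE m k) *
    ∑ ω₁ : Finset (Fin m ⊕ ((Fin (k + 1) × Fin m) ⊕ (Fin k × Fin (m + 1)))),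
      √q ^ ω₁.card with hK
  have hKpos : 0 < K := by
    refine mul_pos (pow_pos (by linarith [(selfDual_mem hq).2]) _) ?_
    exact sum_pos (fun ω _ => pow_pos hr _) ⟨∅, mem_univ _⟩
  have h1 : ∑ ω with Hit (con ∘ ra) (con ∘ rb) {none} (farC m k) ω,
      weight (con ∘ ra) (con ∘ rb) (fun _ => selfDual q) q (farC m k) ω =
      K * ∑ ω : Finset (E0 m) with Cross ω, √q ^ (ω.card + 2 * ks ω) := by
    rw [sum_filter, sum_disjSum, sum_filter, mul_sum]
    refine sum_congr rfl fun ω₀ _ => ?_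
    rw [hK, mul_sum, sum_mul]
    refine sum_congr rfl fun ω₁ _ => ?_
    by_cases h : Cross ω₀
    · rw [if_pos ((hit_far ω₀ ω₁).2 h), if_pos h, weight_far hq]
    · rw [if_neg fun l => h ((hit_far ω₀ ω₁).1 l), if_neg h, mul_zero]
  have h2 : ∑ ω, weight (con ∘ ra) (con ∘ rb) (fun _ => selfDual q) q (farC m k) ω =
      K * ∑ ω : Finset (E0 m), √q ^ (ω.card + 2 * ks ω) := by
    rw [sum_disjSum, mul_sum]
    refine sum_congr rfl fun ω₀ _ => ?_
    rw [hK, mul_sum, sum_mul]
    exact sum_congr rfl fun ω₁ _ => weight_far hq ω₀ ω₁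
  have h3 : ∑ ω : Finset (E0 m), √q ^ (ω.card + 2 * ks ω) =
      (1 + √q) * ∑ ω : Finset (E0 m) with Cross ω, √q ^ (ω.card + 2 * ks ω) := by
    rw [← sum_filter_add_sum_filter_not univ (fun ω : Finset (E0 m) => Cross ω),
      sum_cross]
    ring
  have h4 : 0 < ∑ ω : Finset (E0 m), √q ^ (ω.card + 2 * ks ω) :=
    sum_pos (fun ω _ => pow_pos hr _) ⟨∅, mem_univ _⟩
  have h5 : 0 < ∑ ω : Finset (E0 m) with Cross ω, √q ^ (ω.card + 2 * ks ω) := by
    rw [h3] at h4
    exact pos_of_mul_pos_right h4 (by linarith)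
  rw [prob, h1, h2, h3]
  field_simp

end Vale.Agent.P167.H623
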