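import Mathlib

/-!
The random-cluster (FK) measure on a finite multigraph with a wired set of vertices.

`V` and `E` are the finite types of the vertices and of the edges; the edge `e` joins `a e` and
`b e` (loops and parallel edges are allowed). A configuration is the set `ω` of its open edges.
-/

namespace Vale.Agent.P167.H623

open Finset

variable {V E : Type*} [Fintype V] [DecidableEq V] [Fintype E] [DecidableEq E]

/-- There is an open edge between `x` and `y`. -/
def OpenAdj (a b : E → V) (ω : Finset E) (x y : V) : Prop := ∃ e ∈ ω, a e = x ∧ b e = y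

/-- `x` and `y` are in the same open cluster (joined by a path of open edges). -/
def Conn (a b : E → V) (ω : Finset E) (x y : V) : Prop :=
  Relation.EqvGen (OpenAdj a b ω) x y

/-- The number of open clusters, isolated vertices included, after the vertices of `W` have been
identified. -/
noncomputable def clusters (a b : E → V) (W : Finset V) (ω : Finset E) : ℕ :=
  Nat.card (Quot fun x y => OpenAdj a b ω x y ∨ (x ∈ W ∧ y ∈ W))

/-- The random-cluster weight of `ω` with edge parameters `p`, cluster weight `q` and wired
set `W`. -/
noncomputable def weight (a b : E → V) (p : E → ℝ) (q : ℝ) (W : Finset V) (ω : Finset E) : ℝ :=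
  (∏ e ∈ ω, p e) * (∏ e ∈ ωᶜ, (1 - p e)) * q ^ clusters a b W ω

open Classical in
/-- The probability of `A` for the random-cluster measure with wired set `W`
(free for `W = ∅`). -/
noncomputable def prob (a b : E → V) (p : E → ℝ) (q : ℝ) (W : Finset V)
    (A : Finset E → Prop) : ℝ :=
  (∑ ω with A ω, weight a b p q W ω) / ∑ ω, weight a b p q W ω

/-- No open path joins `T` and `W`. -/
def Miss (a b : E → V) (T W : Finset V) (ω : Finset E) : Prop :=
  ∀ x ∈ T, ∀ y ∈ W, ¬ Conn a b ω x y

/-- Some open path joins `T` and `W`. -/
def Hit (a b : E → V) (T W : Finset V) (ω : Finset E) : Prop :=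
  ∃ x ∈ T, ∃ y ∈ W, Conn a b ω x y

end Vale.Agent.P167.H623
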