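import Vale.Agent.P167.H623.Adj

/-!
Planar duality for the number of clusters, from the orthogonality (modulo 2) of the cuts of a graph
and of the cuts of its dual.
-/

namespace Vale.Agent.P167.H623

open Finset

set_option linter.unusedSectionVars false

variable {V E : Type*} [Fintype V] [DecidableEq V] [Fintype E] [DecidableEq E]

/-- The partition whose only class with more than one point is `W`. -/
def wire (W : Finset V) : Setoid V where
  r u v := u = v ∨ (u ∈ W ∧ v ∈ W)
  iseqv := by
    refine ⟨fun u => Or.inl rfl, ?_, ?_⟩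
    · rintro u v (h | ⟨h, h'⟩)
      · exact Or.inl h.symm
      · exact Or.inr ⟨h', h⟩
    · rintro u v w (h | ⟨h, h'⟩) (k | ⟨k, k'⟩)
      · exact Or.inl (h.trans k)
      · subst h; exact Or.inr ⟨k, k'⟩
      · subst k; exact Or.inr ⟨h, h'⟩
      · exact Or.inr ⟨h, k'⟩

theorem card_quot_classes {r : V → V → Prop} {P : Setoid V} (h : ∀ x y, r x y → P x y)
    (h' : ∀ x y, P x y → Relation.EqvGen r x y) : Nat.card (Quot r) = (classes P).card := by
  rw [← Fintype.card_coe, ← Nat.card_eq_fintype_card]
  refine Nat.card_congr (Equiv.ofBijective (Quot.lift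
    (fun x => (⟨cls P x, cls_mem P x⟩ : {c // c ∈ classes P})) fun x y k => ?_) ⟨?_, ?_⟩)
  · exact Subtype.ext (cls_eq_iff.2 (h x y k))
  · rintro ⟨x⟩ ⟨y⟩ k
    exact Quot.eqvGen_sound (h' x y (cls_eq_iff.1 (congrArg Subtype.val k)))
  · rintro ⟨c, hc⟩
    obtain ⟨x, rfl⟩ := mem_classes.1 hc
    exact ⟨Quot.mk _ x, rfl⟩

/-- The partition into the clusters after the identification of `W`. -/
def pt (a b : E → V) (W : Finset V) (ω : Finset E) : Setoid V := wire W ⊔ conf a b ω

theorem clusters_pt (a b : E → V) (W : Finset V) (ω : Finset E) :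
    clusters a b W ω = (classes (pt a b W ω)).card := by
  refine card_quot_classes ?_ ?_
  · rintro x y (⟨e, he, rfl, rfl⟩ | h)
    · exact (le_sup_right : conf a b ω ≤ pt a b W ω) (conf_edge a b he)
    · exact (le_sup_left : wire W ≤ pt a b W ω) (Or.inr h)
  · intro x y h
    have h1 : pt a b W ω ≤ Relation.EqvGen.setoid
        (fun x y => OpenAdj a b ω x y ∨ (x ∈ W ∧ y ∈ W)) := by
      refine sup_le ?_ ?_
      · rintro u v (k | k)
        · subst k; exact Relation.EqvGen.refl _
        · exact Relation.EqvGen.rel _ _ (Or.inr k)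
      · exact (conf_le_iff a b).2 fun e he => Relation.EqvGen.rel _ _ (Or.inl ⟨e, he, rfl, rfl⟩)
    exact h1 h

theorem pt_insert (a b : E → V) (W : Finset V) (e : E) (ω : Finset E) :
    pt a b W (insert e ω) = pt a b W ω ⊔ join (a e) (b e) := by
  rw [pt, pt, conf_insert, sup_assoc, sup_comm (join (a e) (b e))]

theorem card_join_of {P : Setoid V} {x y : V} (h : P x y) :
    (classes (P ⊔ join x y)).card = (classes P).card := by
  rw [sup_eq_left.2 (join_le_iff.2 h)]

theorem card_join_of_not {P : Setoid V} {x y : V} (h : ¬ P x y) :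
    (classes (P ⊔ join x y)).card + 1 = (classes P).card := by
  have hne : cls P y ≠ cls P x := fun k => h (cls_eq_iff.1 k.symm)
  have h2 : cls P x ∪ cls P y ∉ ((classes P).erase (cls P x)).erase (cls P y) := by
    intro k
    rw [mem_erase, mem_erase, mem_classes] at k
    obtain ⟨-, -, u, hu⟩ := k
    have hx : P u x := mem_cls.1 (hu ▸ mem_union_left _ (self_mem_cls P x))
    have hy : P u y := mem_cls.1 (hu ▸ mem_union_right _ (self_mem_cls P y))
    exact h (P.trans (P.symm hx) hy)
  rw [classes_sup_join, card_insert_of_notMem h2,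
    card_erase_add_one (mem_erase.2 ⟨hne, cls_mem P y⟩), card_erase_add_one (cls_mem P x)]

variable {V' : Type*} [Fintype V'] [DecidableEq V']

/-- The cuts of the graph and of the dual graph are orthogonal modulo 2. -/
def Orth (a b : E → V) (W : Finset V) (a' b' : E → V') (W' : Finset V') : Prop :=
  ∀ (f : V → ZMod 2) (g : V' → ZMod 2), (∀ x ∈ W, ∀ y ∈ W, f x = f y) →
    (∀ x ∈ W', ∀ y ∈ W', g x = g y) →
    ∑ e, (f (a e) + f (b e)) * (g (a' e) + g (b' e)) = 0

theorem Orth.symm {a b : E → V} {W : Finset V} {a' b' : E → V'} {W' : Finset V'}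
    (h : Orth a b W a' b' W') : Orth a' b' W' a b W := by
  intro g f hg hf
  rw [← h f g hf hg]
  exact sum_congr rfl fun e _ => mul_comm _ _

theorem euler_le {a b : E → V} {W : Finset V} {a' b' : E → V'} {W' : Finset V'}
    (ho : Orth a b W a' b' W') (ω : Finset E) :
    clusters a' b' W' ωᶜ + clusters a b W ∅ ≤
      clusters a b W ω + ω.card + clusters a' b' W' univ := by
  classical
  rw [clusters_pt, clusters_pt, clusters_pt, clusters_pt]
  induction ω using Finset.induction_on with
  | empty => rw [compl_empty, card_empty]; omega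
  | insert e ω he ih =>
    have hc : ωᶜ = insert e (insert e ω)ᶜ := by
      rw [compl_insert, insert_erase (mem_compl.2 he)]
    rw [hc, pt_insert a' b'] at ih
    rw [pt_insert a b, card_insert_of_notMem he]
    by_cases h1 : pt a b W ω (a e) (b e)
    · rw [card_join_of h1]
      by_cases h2 : pt a' b' W' (insert e ω)ᶜ (a' e) (b' e)
      · rw [card_join_of h2] at ih
        omega
      · have := card_join_of_not h2
        omega
    · have h3 := card_join_of_not h1
      by_cases h2 : pt a' b' W' (insert e ω)ᶜ (a' e) (b' e)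
      · rw [card_join_of h2] at ih
        omega
      · exfalso
        have := ho (fun x => if pt a b W ω (a e) x then 1 else 0)
          (fun x => if pt a' b' W' (insert e ω)ᶜ (a' e) x then 1 else 0) ?_ ?_
        · rw [sum_eq_single e] at this
          · rw [if_pos (Setoid.refl' _ _), if_neg h1, if_pos (Setoid.refl' _ _), if_neg h2] at this
            simp at this
          · intro e' _ hne
            have hself : ∀ z : ZMod 2, z + z = 0 := by decide
            by_cases he' : e' ∈ ω
            · have h4 : pt a b W ω (a e') (b e') :=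
                (le_sup_right : conf a b ω ≤ pt a b W ω) (conf_edge a b he')
              have h5 : pt a b W ω (a e) (a e') ↔ pt a b W ω (a e) (b e') :=
                ⟨fun k => Setoid.trans' _ k h4, fun k => Setoid.trans' _ k (Setoid.symm' _ h4)⟩
              simp only [h5, hself, zero_mul]
            · have h4 : pt a' b' W' (insert e ω)ᶜ (a' e') (b' e') :=
                (le_sup_right : conf a' b' (insert e ω)ᶜ ≤ _) (conf_edge a' b'
                  (mem_compl.2 fun k => (mem_insert.1 k).elim hne he'))
              have h5 : pt a' b' W' (insert e ω)ᶜ (a' e) (a' e') ↔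
                  pt a' b' W' (insert e ω)ᶜ (a' e) (b' e') :=
                ⟨fun k => Setoid.trans' _ k h4, fun k => Setoid.trans' _ k (Setoid.symm' _ h4)⟩
              simp only [h5, hself, mul_zero]
          · exact fun k => absurd (mem_univ e) k
        · intro x hx y hy
          have h4 : pt a b W ω x y := (le_sup_left : wire W ≤ _) (Or.inr ⟨hx, hy⟩)
          have h5 : pt a b W ω (a e) x ↔ pt a b W ω (a e) y :=
            ⟨fun k => Setoid.trans' _ k h4, fun k => Setoid.trans' _ k (Setoid.symm' _ h4)⟩
          simp only [h5]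
        · intro x hx y hy
          have h4 : pt a' b' W' (insert e ω)ᶜ x y :=
            (le_sup_left : wire W' ≤ _) (Or.inr ⟨hx, hy⟩)
          have h5 : pt a' b' W' (insert e ω)ᶜ (a' e) x ↔
              pt a' b' W' (insert e ω)ᶜ (a' e) y :=
            ⟨fun k => Setoid.trans' _ k h4, fun k => Setoid.trans' _ k (Setoid.symm' _ h4)⟩
          simp only [h5]

/-- **Planar duality** for the numbers of clusters. -/
theorem euler_eq {a b : E → V} {W : Finset V} {a' b' : E → V'} {W' : Finset V'}
    (ho : Orth a b W a' b' W')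
    (hcount : Fintype.card E + clusters a b W univ + clusters a' b' W' univ ≤
      clusters a b W ∅ + clusters a' b' W' ∅) (ω : Finset E) :
    clusters a' b' W' ωᶜ + clusters a b W ∅ =
      clusters a b W ω + ω.card + clusters a' b' W' univ := by
  have h1 := euler_le ho ω
  have h2 := euler_le ho.symm ωᶜ
  rw [compl_compl] at h2
  have h3 : ω.card + ωᶜ.card = Fintype.card E := card_add_card_compl ω
  omega

theorem clusters_empty (a b : E → V) (W : Finset V) :
    clusters a b W ∅ = Wᶜ.card + (if W = ∅ then 0 else 1) := by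
  classical
  rw [clusters_eq]
  congr 1
  have h1 : ∀ x, cls (conf a b ∅) x = {x} := by
    intro x
    ext y
    rw [mem_cls, mem_singleton]
    constructor
    · intro h
      have : conf a b ∅ ≤ ⊥ := (conf_le_iff a b).2 fun e he => absurd he (notMem_empty e)
      exact (this h).symm
    · rintro rfl
      exact Setoid.refl' _ _
  have h2 : (classes (conf a b ∅)).filter (fun c => Disjoint c W) =
      Wᶜ.image fun x => ({x} : Finset V) := by
    ext c
    rw [mem_filter, mem_classes, mem_image]
    constructor
    · rintro ⟨⟨x, rfl⟩, h⟩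
      rw [h1, disjoint_singleton_left] at h
      exact ⟨x, mem_compl.2 h, (h1 x).symm⟩
    · rintro ⟨x, hx, rfl⟩
      exact ⟨⟨x, h1 x⟩, disjoint_singleton_left.2 (mem_compl.1 hx)⟩
  rw [h2, card_image_of_injective _ singleton_injective]

/-- Crossing in terms of the numbers of clusters. -/
theorem pt_hit {a b : E → V} {W : Finset V} {ω : Finset E} {x y : V} (hy : y ∈ W) :
    pt a b W ω x y ↔ ∃ z ∈ W, conf a b ω x z := by
  constructor
  · intro h
    by_contra hn
    push Not at hn
    have h1 : pt a b W ω ≤ (⟨fun u v => (conf a b ω x u ↔ conf a b ω x v),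
        fun _ => Iff.rfl, fun h => h.symm, fun h h' => h.trans h'⟩ : Setoid V) := by
      refine sup_le ?_ ?_
      · rintro u v (k | ⟨k, k'⟩)
        · subst k; exact Iff.rfl
        · exact ⟨fun l => absurd l (hn u k), fun l => absurd l (hn v k')⟩
      · intro u v k
        exact ⟨fun l => Setoid.trans' _ l k, fun l => Setoid.trans' _ l (Setoid.symm' _ k)⟩
    exact hn y hy ((h1 h).1 (Setoid.refl' _ x))
  · rintro ⟨z, hz, hxz⟩
    exact Setoid.trans' _ ((le_sup_right : conf a b ω ≤ pt a b W ω) hxz)
      ((le_sup_left : wire W ≤ pt a b W ω) (Or.inr ⟨hz, hy⟩))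

theorem pt_insertV {a b : E → V} {W : Finset V} {ω : Finset E} {x y : V} (hy : y ∈ W) :
    pt a b (insert x W) ω = pt a b W ω ⊔ join x y := by
  apply le_antisymm
  · refine sup_le ?_ (le_sup_right.trans le_sup_left)
    have hW : wire W ≤ pt a b W ω ⊔ join x y := le_sup_left.trans le_sup_left
    have hj : (pt a b W ω ⊔ join x y) x y :=
      (le_sup_right : join x y ≤ _) (Or.inr (Or.inl ⟨rfl, rfl⟩))
    have key : ∀ u ∈ insert x W, (pt a b W ω ⊔ join x y) u y := by
      intro u hu
      rcases mem_insert.1 hu with rfl | hu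
      · exact hj
      · exact hW (Or.inr ⟨hu, hy⟩)
    rintro u v (k | ⟨k, k'⟩)
    · subst k; exact Setoid.refl' _ _
    · exact Setoid.trans' _ (key u k) (Setoid.symm' _ (key v k'))
  · refine sup_le (sup_le ?_ le_sup_right) ?_
    · refine le_trans ?_ le_sup_left
      rintro u v (k | ⟨k, k'⟩)
      · exact Or.inl k
      · exact Or.inr ⟨mem_insert_of_mem k, mem_insert_of_mem k'⟩
    · rw [join_le_iff]
      exact (le_sup_left : wire (insert x W) ≤ _)
        (Or.inr ⟨mem_insert_self x W, mem_insert_of_mem hy⟩)

theorem clusters_hit {a b : E → V} {W : Finset V} {ω : Finset E} {x : V}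
    (hW : W.Nonempty) (h : ∃ z ∈ W, conf a b ω x z) :
    clusters a b (insert x W) ω = clusters a b W ω := by
  obtain ⟨y, hy⟩ := hW
  rw [clusters_pt, clusters_pt, pt_insertV hy, card_join_of ((pt_hit hy).2 h)]

theorem clusters_miss {a b : E → V} {W : Finset V} {ω : Finset E} {x : V}
    (hW : W.Nonempty) (h : ¬ ∃ z ∈ W, conf a b ω x z) :
    clusters a b (insert x W) ω + 1 = clusters a b W ω := by
  obtain ⟨y, hy⟩ := hW
  rw [clusters_pt, clusters_pt, pt_insertV hy,
    card_join_of_not fun k => h ((pt_hit hy).1 k)]

end Vale.Agent.P167.H623
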