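import Vale.Agent.P167.H623.Part

/-!
The expansion of the partition functions of the random-cluster model with wired sets.
-/

namespace Vale.Agent.P167.H623

open Finset

set_option linter.unusedSectionVars false

variable {V E : Type*} [Fintype V] [DecidableEq V] [Fintype E] [DecidableEq E] (a b : E → V)

theorem join_le_iff {V : Type*} {x y : V} {Q : Setoid V} : join x y ≤ Q ↔ Q x y := by
  constructor
  · intro h
    exact h (Or.inr (Or.inl ⟨rfl, rfl⟩))
  · rintro h u v (k | ⟨k, k'⟩ | ⟨k, k'⟩)
    · subst k; exact Q.refl u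
    · subst k; subst k'; exact h
    · subst k; subst k'; exact Q.symm h

theorem conf_le_iff {g : Finset E} {Q : Setoid V} :
    conf a b g ≤ Q ↔ ∀ e ∈ g, Q (a e) (b e) := by
  rw [conf, Finset.sup_le_iff]
  exact forall₂_congr fun e _ => join_le_iff

theorem conf_edge {g : Finset E} {e : E} (he : e ∈ g) : conf a b g (a e) (b e) :=
  (conf_le_iff a b).1 le_rfl e he

/-- No edge of `g` joins `X` to its complement. -/
def Closed (X : Finset V) (g : Finset E) : Prop := ∀ e ∈ g, (a e ∈ X ↔ b e ∈ X)

/-- The edges of `g` in `X`. -/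
def res (X : Finset V) (g : Finset E) : Finset E := g.filter fun e => a e ∈ X ∧ b e ∈ X

/-- The edges in `X`. -/
def inE (X : Finset V) : Finset E := univ.filter fun e => a e ∈ X ∧ b e ∈ X

variable {a b}

theorem mem_inE {X : Finset V} {e : E} : e ∈ inE a b X ↔ a e ∈ X ∧ b e ∈ X := by
  simp [inE]

theorem mem_res {X : Finset V} {g : Finset E} {e : E} :
    e ∈ res a b X g ↔ e ∈ g ∧ a e ∈ X ∧ b e ∈ X := by
  simp [res]

theorem res_subset (X : Finset V) (g : Finset E) : res a b X g ⊆ g := filter_subset _ _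

theorem Closed.compl {X : Finset V} {g : Finset E} (h : Closed a b X g) : Closed a b Xᶜ g := by
  intro e he
  rw [mem_compl, mem_compl, h e he]

theorem Closed.mem_iff {X : Finset V} {g : Finset E} (h : Closed a b X g) {x y : V}
    (hxy : conf a b g x y) : x ∈ X ↔ y ∈ X := by
  let Q : Setoid V := ⟨fun x y => (x ∈ X ↔ y ∈ X), fun _ => Iff.rfl, fun h => h.symm,
    fun h h' => h.trans h'⟩
  have : conf a b g ≤ Q := (conf_le_iff a b).2 h
  exact this hxy

theorem conf_res {X : Finset V} {g : Finset E} (h : Closed a b X g) {x y : V} (hx : x ∈ X) :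
    conf a b g x y ↔ conf a b (res a b X g) x y := by
  constructor
  · intro hxy
    let Q : Setoid V := ⟨fun x y => (x ∈ X ↔ y ∈ X) ∧ (x ∈ X → conf a b (res a b X g) x y),
      fun x => ⟨Iff.rfl, fun _ => Setoid.refl' _ x⟩,
      fun h => ⟨h.1.symm, fun hy => Setoid.symm' _ (h.2 (h.1.2 hy))⟩,
      fun h h' => ⟨h.1.trans h'.1, fun hx => Setoid.trans' _ (h.2 hx) (h'.2 (h.1.1 hx))⟩⟩
    have : conf a b g ≤ Q := by
      refine (conf_le_iff a b).2 fun e he => ⟨h e he, fun hx => ?_⟩
      exact conf_edge a b (mem_res.2 ⟨he, hx, (h e he).1 hx⟩)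
    exact (this hxy).2 hx
  · intro hxy
    exact conf_mono a b (res_subset X g) hxy

theorem cls_res {X : Finset V} {g : Finset E} (h : Closed a b X g) {x : V} (hx : x ∈ X) :
    cls (conf a b g) x = cls (conf a b (res a b X g)) x := by
  ext y
  rw [mem_cls, mem_cls, conf_res h hx]

theorem cls_subset {X : Finset V} {g : Finset E} (h : Closed a b X g) {x : V} (hx : x ∈ X) :
    cls (conf a b g) x ⊆ X := by
  intro y hy
  exact (h.mem_iff (mem_cls.1 hy)).1 hx

theorem closed_res (X : Finset V) (g : Finset E) : Closed a b X (res a b X g) := by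
  intro e he
  rw [mem_res] at he
  exact ⟨fun _ => he.2.2, fun _ => he.2.1⟩

/-! ### Products over the classes -/

theorem wt_split (θ : Finset V → ℝ) {X : Finset V} {g : Finset E} (h : Closed a b X g) :
    wt θ (conf a b g) = (∏ c ∈ X.image (cls (conf a b g)), θ c) *
      ∏ c ∈ Xᶜ.image (cls (conf a b g)), θ c := by
  rw [wt, classes, ← prod_union, ← image_union, union_compl]
  rw [disjoint_left]
  intro c hc hc'
  obtain ⟨x, hx, rfl⟩ := mem_image.1 hc
  obtain ⟨y, hy, hxy⟩ := mem_image.1 hc'
  have := (h.mem_iff (cls_eq_iff.1 hxy)).2 hx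
  exact (mem_compl.1 hy) this

theorem prodOn_congr {X : Finset V} {P P' : Setoid V} {θ θ' : Finset V → ℝ}
    (h : ∀ x ∈ X, cls P x = cls P' x) (h' : ∀ x ∈ X, θ (cls P' x) = θ' (cls P' x)) :
    ∏ c ∈ X.image (cls P), θ c = ∏ c ∈ X.image (cls P'), θ' c := by
  rw [image_congr (g := cls P') (fun x hx => h x hx)]
  refine prod_congr rfl fun c hc => ?_
  obtain ⟨x, hx, rfl⟩ := mem_image.1 hc
  exact h' x hx

theorem prodOn_one {X : Finset V} {P : Setoid V} {θ : Finset V → ℝ}
    (h : ∀ x ∈ X, θ (cls P x) = 1) : ∏ c ∈ X.image (cls P), θ c = 1 := by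
  refine prod_eq_one fun c hc => ?_
  obtain ⟨x, hx, rfl⟩ := mem_image.1 hc
  exact h x hx

theorem theta_one {J K : Finset V} {κ s : ℝ} {P : Setoid V} {x : V} (hx : x ∈ J) :
    theta J K κ s (cls P x) = 1 := by
  rw [theta, if_neg]
  exact fun h => disjoint_left.1 h (self_mem_cls P x) hx

/-- The classes outside of `X` do not count. -/
theorem wt_res {X K : Finset V} {κ s : ℝ} {g : Finset E} (h : Closed a b X g) :
    wt (theta Xᶜ K κ s) (conf a b g) = wt (theta Xᶜ K κ s) (conf a b (res a b X g)) := by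
  rw [wt_split _ h, wt_split _ (closed_res X g), prodOn_one (X := Xᶜ) fun x hx => theta_one hx,
    prodOn_one (X := Xᶜ) fun x hx => theta_one hx, mul_one, mul_one]
  exact prodOn_congr (fun x hx => cls_res h hx) fun x hx => rfl

theorem wt_two {A R T : Finset V} {κ s : ℝ} {g : Finset E} (hRA : R ⊆ A) (hTR : T ⊆ R)
    (hR : Closed a b R g) :
    wt (theta Aᶜ T κ s) (conf a b g) =
      wt (theta Rᶜ T κ s) (conf a b (res a b R g)) *
        wt (theta (A \ R)ᶜ ∅ κ s) (conf a b (res a b Rᶜ g)) := by
  rw [wt_split _ hR]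
  congr 1
  · rw [wt_split _ (closed_res R g), prodOn_one (X := Rᶜ) fun x hx => theta_one hx, mul_one]
    refine prodOn_congr (fun x hx => cls_res hR hx) fun x hx => ?_
    have h1 := cls_subset (closed_res (a := a) (b := b) R g) hx
    have h2 : Disjoint (cls (conf a b (res a b R g)) x) Rᶜ :=
      disjoint_left.2 fun y hy hy' => (mem_compl.1 hy') (h1 hy)
    have h3 : Disjoint (cls (conf a b (res a b R g)) x) Aᶜ :=
      h2.mono_right (compl_subset_compl.2 hRA)
    rw [theta, theta, if_pos h2, if_pos h3]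
  · have hc : Closed a b R (res a b Rᶜ g) := by
      have := (closed_res (a := a) (b := b) Rᶜ g).compl
      rwa [compl_compl] at this
    rw [wt_split _ hc, prodOn_one (X := R), one_mul]
    · refine prodOn_congr (fun x hx => cls_res hR.compl hx) fun x hx => ?_
      have h1 := cls_subset (closed_res (a := a) (b := b) Rᶜ g) hx
      have h2 : Disjoint (cls (conf a b (res a b Rᶜ g)) x) R :=
        disjoint_left.2 fun y hy hy' => (mem_compl.1 (h1 hy)) hy'
      have h3 : Disjoint (cls (conf a b (res a b Rᶜ g)) x) (A \ R)ᶜ ↔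
          Disjoint (cls (conf a b (res a b Rᶜ g)) x) Aᶜ := by
        have : (A \ R)ᶜ = Aᶜ ∪ R := by
          ext y; simp [mem_compl, mem_sdiff]; tauto
        rw [this, disjoint_union_right]
        exact and_iff_left h2
      rw [theta, theta]
      by_cases h4 : Disjoint (cls (conf a b (res a b Rᶜ g)) x) Aᶜ
      · rw [if_pos h4, if_pos (h3.2 h4), if_pos (h2.mono_right hTR),
          if_pos (disjoint_empty_right _)]
      · rw [if_neg h4, if_neg fun h => h4 (h3.1 h)]
    · intro x hx
      refine theta_one ?_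
      rw [mem_compl, mem_sdiff]
      exact fun h => h.2 hx

/-! ### Sums over the subsets of a disjoint union -/

theorem sum_powerset_union' {α : Type*} [DecidableEq α] {g₁ g₂ : Finset α}
    (h : Disjoint g₁ g₂) (F : Finset α → ℝ) :
    ∑ B ∈ (g₁ ∪ g₂).powerset, F B =
      ∑ B₁ ∈ g₁.powerset, ∑ B₂ ∈ g₂.powerset, F (B₁ ∪ B₂) := by
  induction g₁ using Finset.induction_on generalizing F with
  | empty => simp
  | insert e g he ih =>
    have h1 : Disjoint g g₂ := h.mono_left (subset_insert _ _)
    have h2 : e ∉ g₂ := fun k => disjoint_left.1 h (mem_insert_self _ _) k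
    rw [insert_union, sum_powerset_insert (by simp [he, h2]), sum_powerset_insert he,
      ih h1, ih h1]
    congr 1
    refine sum_congr rfl fun B₁ _ => sum_congr rfl fun B₂ _ => ?_
    rw [insert_union]

end Vale.Agent.P167.H623
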