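import Vale.Agent.P167.H623.Zed

/-!
The recursion: summing over the union of the clusters which meet `T`.
-/

namespace Vale.Agent.P167.H623

open Finset

set_option linter.unusedSectionVars false

variable {V E : Type*} [Fintype V] [DecidableEq V] [Fintype E] [DecidableEq E]

theorem sum_sum_powerset (w : E → ℝ) (L : Finset E) : ∀ G : Finset E → ℝ,
    ∑ g ∈ L.powerset, (∏ e ∈ g, w e) * ∑ B ∈ g.powerset, (∏ e ∈ B, (1 + w e)) * G B =
      (∏ e ∈ L, (1 + w e)) * ∑ B ∈ L.powerset, (∏ e ∈ B, w e) * G B := by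
  induction L using Finset.induction_on with
  | empty => intro G; simp
  | insert e L he ih =>
    intro G
    rw [sum_powerset_insert he, sum_powerset_insert he, prod_insert he, ih G]
    have h1 : ∑ g ∈ L.powerset, (∏ e ∈ insert e g, w e) *
        ∑ B ∈ (insert e g).powerset, (∏ e ∈ B, (1 + w e)) * G B =
        w e * (∏ e ∈ L, (1 + w e)) * ∑ B ∈ L.powerset, (∏ e ∈ B, w e) * G B +
        w e * (1 + w e) * ((∏ e ∈ L, (1 + w e)) *
          ∑ B ∈ L.powerset, (∏ e ∈ B, w e) * G (insert e B)) := by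
      rw [mul_assoc, ← ih G, ← ih fun B => G (insert e B), mul_sum, mul_sum, ← sum_add_distrib]
      refine sum_congr rfl fun g hg => ?_
      have heg : e ∉ g := fun h => he (mem_powerset.1 hg h)
      rw [prod_insert heg, sum_powerset_insert heg]
      have h2 : ∑ B ∈ g.powerset, (∏ e ∈ insert e B, (1 + w e)) * G (insert e B) =
          (1 + w e) * ∑ B ∈ g.powerset, (∏ e ∈ B, (1 + w e)) * G (insert e B) := by
        rw [mul_sum]
        refine sum_congr rfl fun B hB => ?_
        rw [prod_insert fun h => heg (mem_powerset.1 hB h)]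
        ring
      rw [h2]
      ring
    have h3 : ∑ B ∈ L.powerset, (∏ e ∈ insert e B, w e) * G (insert e B) =
        w e * ∑ B ∈ L.powerset, (∏ e ∈ B, w e) * G (insert e B) := by
      rw [mul_sum]
      refine sum_congr rfl fun B hB => ?_
      rw [prod_insert fun h => he (mem_powerset.1 hB h)]
      ring
    rw [h1, h3]
    ring

variable (a b : E → V) (w : E → ℝ) (s κ : ℝ)

/-- The term of `g`. -/
noncomputable def term (T A : Finset V) (g : Finset E) : ℝ :=
  (∏ e ∈ g, w e) * ∑ B ∈ g.powerset, (∏ e ∈ B, (1 + w e)) * wt (theta Aᶜ T κ s) (conf a b B)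

/-- The full sum. -/
noncomputable def aa (T A : Finset V) : ℝ := ∑ g ∈ (inE a b A).powerset, term a b w s κ T A g

theorem aa_eq (T A : Finset V) : aa a b w s κ T A = zz a b w A * ZT a b w s κ T A := by
  rw [aa, zz, ZT]
  exact sum_sum_powerset w (inE a b A) _

open Classical in
/-- The sum over the `g` in which all points of `R` are connected to `T`. -/
noncomputable def Phi (T R : Finset V) : ℝ :=
  ∑ g ∈ (inE a b R).powerset with ∀ x ∈ R, ∃ t ∈ T, conf a b g x t, term a b w s κ T R g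

theorem Phi_nonneg (hw : ∀ e, 0 ≤ w e) (hs0 : 0 ≤ s) (hs1 : s ≤ 1) (hκ : 0 ≤ κ)
    (T R : Finset V) : 0 ≤ Phi a b w s κ T R := by
  classical
  refine sum_nonneg fun g hg => ?_
  rw [mem_filter] at hg
  refine mul_nonneg (prod_nonneg fun e _ => hw e) ?_
  have := pos_key a b (fun e => 1 + w e) Rᶜ T κ s hκ hs0 (fun e => by linarith [hw e]) g ⊥
    (fun x => by
      rw [bot_sup_eq]
      by_cases hx : x ∈ R
      · obtain ⟨t, ht, hxt⟩ := hg.2 x hx
        exact ⟨t, Or.inr ht, hxt⟩
      · exact ⟨x, Or.inl (mem_compl.2 hx), Setoid.refl' _ x⟩)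
  simpa only [bot_sup_eq] using this

theorem term_union {A R T : Finset V} (hRA : R ⊆ A) (hTR : T ⊆ R) {g₁ g₂ : Finset E}
    (h₁ : g₁ ⊆ inE a b R) (h₂ : g₂ ⊆ inE a b (A \ R)) :
    term a b w s κ T A (g₁ ∪ g₂) =
      term a b w s κ T R g₁ * term a b w s κ ∅ (A \ R) g₂ := by
  have hd : Disjoint R (A \ R) := disjoint_sdiff
  rw [term, term, term, prod_union ((disjoint_inE hd).mono h₁ h₂),
    sum_powerset_union' ((disjoint_inE hd).mono h₁ h₂), mul_mul_mul_comm, sum_mul_sum]
  congr 1
  refine sum_congr rfl fun B₁ hB₁ => sum_congr rfl fun B₂ hB₂ => ?_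
  rw [mem_powerset] at hB₁ hB₂
  rw [prod_union ((disjoint_inE hd).mono (hB₁.trans h₁) (hB₂.trans h₂)),
    wt_two hRA hTR (closed_union hd (hB₁.trans h₁) (hB₂.trans h₂)),
    res_union_left hd (hB₁.trans h₁) (hB₂.trans h₂),
    res_union_right hd (hB₁.trans h₁) (hB₂.trans h₂)]
  ring

theorem aa_rec {T A : Finset V} (hT : T ⊆ A) : aa a b w s κ T A =
    ∑ R ∈ A.powerset with T ⊆ R, Phi a b w s κ T R * aa a b w s κ ∅ (A \ R) := by
  classical
  rw [aa, ← sum_fiberwise_of_maps_to
    (g := fun g => A.filter fun x => ∃ t ∈ T, conf a b g x t)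
    (t := A.powerset.filter fun R => T ⊆ R)]
  · refine sum_congr rfl fun R hR => ?_
    rw [mem_filter, mem_powerset] at hR
    obtain ⟨hRA, hTR⟩ := hR
    have hd : Disjoint R (A \ R) := disjoint_sdiff
    have hsub : inE a b R ∪ inE a b (A \ R) ⊆ inE a b A := by
      intro e he
      rw [mem_union, mem_inE, mem_inE, mem_sdiff, mem_sdiff] at he
      rw [mem_inE]
      rcases he with he | he
      · exact ⟨hRA he.1, hRA he.2⟩
      · exact ⟨he.1.1, he.2.1⟩
    have h1 : (inE a b A).powerset.filter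
        (fun g => (A.filter fun x => ∃ t ∈ T, conf a b g x t) = R) =
        (inE a b R ∪ inE a b (A \ R)).powerset.filter
          (fun g => (A.filter fun x => ∃ t ∈ T, conf a b g x t) = R) := by
      ext g
      rw [mem_filter, mem_filter, mem_powerset, mem_powerset]
      constructor
      · rintro ⟨hg, hgR⟩
        refine ⟨fun e he => ?_, hgR⟩
        have hA := mem_inE.1 (hg he)
        have hab := conf_edge a b he
        rw [mem_union, mem_inE, mem_inE, mem_sdiff, mem_sdiff]
        by_cases ha : a e ∈ R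
        · left
          refine ⟨ha, ?_⟩
          rw [← hgR, mem_filter] at ha ⊢
          obtain ⟨t, ht, hat⟩ := ha.2
          exact ⟨hA.2, t, ht, Setoid.trans' _ (Setoid.symm' _ hab) hat⟩
        · right
          refine ⟨⟨hA.1, ha⟩, hA.2, fun hb => ha ?_⟩
          rw [← hgR, mem_filter] at hb ⊢
          obtain ⟨t, ht, hbt⟩ := hb.2
          exact ⟨hA.1, t, ht, Setoid.trans' _ hab hbt⟩
      · rintro ⟨hg, hgR⟩
        exact ⟨hg.trans hsub, hgR⟩
    rw [h1, sum_filter, sum_powerset_union' (disjoint_inE hd), Phi, sum_filter, aa,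
      sum_mul_sum]
    refine sum_congr rfl fun g₁ h₁ => sum_congr rfl fun g₂ h₂ => ?_
    rw [mem_powerset] at h₁ h₂
    have hc := closed_union hd h₁ h₂
    have h3 : ((A.filter fun x => ∃ t ∈ T, conf a b (g₁ ∪ g₂) x t) = R) ↔
        ∀ x ∈ R, ∃ t ∈ T, conf a b g₁ x t := by
      constructor
      · intro h x hx
        have hx' := hx
        rw [← h, mem_filter] at hx
        obtain ⟨t, ht, hxt⟩ := hx.2
        refine ⟨t, ht, ?_⟩
        rwa [conf_res hc hx', res_union_left hd h₁ h₂] at hxt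
      · intro h
        ext x
        rw [mem_filter]
        constructor
        · rintro ⟨-, t, ht, hxt⟩
          exact (hc.mem_iff hxt).2 (hTR ht)
        · intro hx
          obtain ⟨t, ht, hxt⟩ := h x hx
          exact ⟨hRA hx, t, ht, conf_mono a b subset_union_left hxt⟩
    by_cases h4 : ∀ x ∈ R, ∃ t ∈ T, conf a b g₁ x t
    · rw [if_pos (h3.2 h4), if_pos h4, term_union a b w s κ hRA hTR h₁ h₂]
    · rw [if_neg (fun h => h4 (h3.1 h)), if_neg h4, zero_mul]
  · intro g _
    rw [mem_filter, mem_powerset]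
    exact ⟨filter_subset _ _, fun t ht => mem_filter.2 ⟨hT ht, t, ht, Setoid.refl' _ t⟩⟩

/-- The multiplicative factor. -/
noncomputable def hh (A : Finset V) : ℝ :=
  ∏ e : E, (if a e ∈ A then (1 + w e)⁻¹ else 1) * (if b e ∈ A then (1 + w e)⁻¹ else 1)

theorem hh_nonneg (hw : ∀ e, 0 ≤ w e) (A : Finset V) : 0 ≤ hh a b w A := by
  refine prod_nonneg fun e _ => mul_nonneg ?_ ?_ <;> split_ifs
  all_goals first | exact zero_le_one | exact inv_nonneg.2 (by linarith [hw e])

theorem hh_union {A B : Finset V} (h : Disjoint A B) :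
    hh a b w (A ∪ B) = hh a b w A * hh a b w B := by
  rw [hh, hh, hh, ← prod_mul_distrib]
  refine prod_congr rfl fun e _ => ?_
  have h1 : a e ∈ A → a e ∉ B := fun k => disjoint_left.1 h k
  have h2 : b e ∈ A → b e ∉ B := fun k => disjoint_left.1 h k
  by_cases ha : a e ∈ A <;> by_cases hb : b e ∈ A <;> by_cases ha' : a e ∈ B <;>
    by_cases hb' : b e ∈ B <;> simp_all

theorem zz_compl (hw : ∀ e, 0 ≤ w e) (A : Finset V) :
    zz a b w Aᶜ = zz a b w univ * hh a b w A * zz a b w A := by
  have h1 : ∀ B : Finset V, zz a b w B = ∏ e : E, if a e ∈ B ∧ b e ∈ B then 1 + w e else 1 := by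
    intro B
    rw [zz, inE, prod_filter]
  rw [h1, h1, h1, hh, ← prod_mul_distrib, ← prod_mul_distrib]
  refine prod_congr rfl fun e _ => ?_
  have : (1 : ℝ) + w e ≠ 0 := by linarith [hw e]
  by_cases ha : a e ∈ A <;> by_cases hb : b e ∈ A <;> simp [ha, hb] <;> field_simp

theorem theta_empty (J : Finset V) : theta J ∅ κ s = theta J ∅ 1 s := by
  funext c
  simp [theta]

theorem aa_empty (A : Finset V) : aa a b w s κ ∅ A = aa a b w s 1 ∅ A := by
  simp only [aa, term]
  rw [theta_empty s κ]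

/-- The partition function with wired set `Dᶜ`. -/
noncomputable def XX (D : Finset V) : ℝ := NN a b w (1 - s) 1 ∅ D

theorem NN_aa (hw : ∀ e, 0 ≤ w e) (T D : Finset V) : NN a b w (1 - s) κ T D =
    ∑ A ∈ D.powerset with T ⊆ A, zz a b w univ * hh a b w A * aa a b w s κ T A := by
  rw [NN_eq]
  refine sum_congr rfl fun A _ => ?_
  rw [zz_compl a b w hw, aa_eq]
  ring

theorem NN_rec (hw : ∀ e, 0 ≤ w e) (T D : Finset V) : NN a b w (1 - s) κ T D =
    ∑ R ∈ D.powerset with T ⊆ R, hh a b w R * Phi a b w s κ T R * XX a b w s (D \ R) := by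
  rw [NN_aa a b w s κ hw]
  have h1 : ∀ A ∈ D.powerset.filter (fun A => T ⊆ A),
      zz a b w univ * hh a b w A * aa a b w s κ T A =
      ∑ R ∈ A.powerset with T ⊆ R, zz a b w univ * hh a b w A *
        (Phi a b w s κ T R * aa a b w s κ ∅ (A \ R)) := by
    intro A hA
    rw [mem_filter] at hA
    rw [aa_rec a b w s κ hA.2, mul_sum]
  rw [sum_congr rfl h1]
  rw [sum_comm' (t' := D.powerset.filter fun R => T ⊆ R)
    (s' := fun R => D.powerset.filter fun A => R ⊆ A)]
  · refine sum_congr rfl fun R hR => ?_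
    rw [mem_filter, mem_powerset] at hR
    rw [sum_sup_powerset hR.1, XX, NN_aa a b w s 1 hw, mul_sum]
    have h2 : (D \ R).powerset.filter (fun A => ∅ ⊆ A) = (D \ R).powerset :=
      filter_true_of_mem fun A _ => empty_subset A
    rw [h2]
    refine sum_congr rfl fun A hA => ?_
    rw [mem_powerset] at hA
    have hd : Disjoint R A := disjoint_left.2 fun x hx hx' => (mem_sdiff.1 (hA hx')).2 hx
    have h3 : (R ∪ A) \ R = A := by
      rw [union_sdiff_left, sdiff_eq_self_of_disjoint hd.symm]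
    rw [h3, hh_union a b w hd, aa_empty]
    ring
  · intro A R
    simp only [mem_filter, mem_powerset]
    constructor
    · rintro ⟨⟨h1, h2⟩, h3, h4⟩
      exact ⟨⟨h1, h3⟩, h3.trans h1, h4⟩
    · rintro ⟨⟨h1, h2⟩, h3, h4⟩
      exact ⟨⟨h1, h4.trans h2⟩, h2, h4⟩

end Vale.Agent.P167.H623
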