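import Vale.Agent.P167.H623.Fib

/-!
The ratios of the partition functions are totally monotone.
-/

namespace Vale.Agent.P167.H623

open Finset

set_option linter.unusedSectionVars false

variable {V E : Type*} [Fintype V] [DecidableEq V] [Fintype E] [DecidableEq E]

theorem wt_factor (θ : Finset V → ℝ) (P : Setoid V) (x : V) :
    wt θ P = θ (cls P x) * ∏ c ∈ (classes P).erase (cls P x), θ c := by
  rw [mul_prod_erase _ _ (cls_mem P x)]
  rfl

theorem wt_wire (P : Setoid V) (s : ℝ) (D : Finset V) (x : V) :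
    wt (cw (1 - s) 1 (D \ {x})ᶜ ∅) P =
      wt (cw (1 - s) 1 Dᶜ ∅) P + s * wt (cw (1 - s) 1 Dᶜ {x}) P := by
  rw [wt_factor _ P x, wt_factor _ P x, wt_factor _ P x]
  have hcompl : (D \ {x})ᶜ = Dᶜ ∪ {x} := by
    ext y
    simp only [mem_compl, mem_sdiff, mem_union, mem_singleton]
    tauto
  have h0 : ∀ c ∈ (classes P).erase (cls P x), Disjoint c {x} := by
    intro c hc
    rw [mem_erase, mem_classes] at hc
    obtain ⟨hne, y, rfl⟩ := hc
    rw [disjoint_singleton_right, mem_cls]
    exact fun h => hne (cls_eq_iff.2 h)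
  have h1 : ∏ c ∈ (classes P).erase (cls P x), cw (1 - s) 1 (D \ {x})ᶜ ∅ c =
      ∏ c ∈ (classes P).erase (cls P x), cw (1 - s) 1 Dᶜ ∅ c := by
    refine prod_congr rfl fun c hc => ?_
    rw [cw, cw, hcompl]
    simp only [disjoint_union_right, h0 c hc, and_true]
  have h2 : ∏ c ∈ (classes P).erase (cls P x), cw (1 - s) 1 Dᶜ {x} c =
      ∏ c ∈ (classes P).erase (cls P x), cw (1 - s) 1 Dᶜ ∅ c := by
    refine prod_congr rfl fun c hc => ?_
    rw [cw, cw]
    simp only [h0 c hc, disjoint_empty_right, if_true]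
  have h3 : cw (1 - s) 1 (D \ {x})ᶜ ∅ (cls P x) =
      cw (1 - s) 1 Dᶜ ∅ (cls P x) + s * cw (1 - s) 1 Dᶜ {x} (cls P x) := by
    have h4 : ¬ Disjoint (cls P x) {x} := by
      rw [disjoint_singleton_right]
      exact fun h => h (self_mem_cls P x)
    rw [cw, cw, cw, hcompl]
    simp only [disjoint_union_right, h4, and_false, if_false, disjoint_empty_right, if_true]
    split_ifs <;> ring
  rw [h1, h2, h3]
  ring

variable (a b : E → V) (w : E → ℝ) (s : ℝ)

theorem XX_wire (D : Finset V) (x : V) :
    XX a b w s (D \ {x}) = XX a b w s D + s * NN a b w (1 - s) 1 {x} D := by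
  rw [XX, XX, NN, NN, NN, mul_sum, ← sum_add_distrib]
  refine sum_congr rfl fun ω _ => ?_
  rw [wt_wire _ s D x]
  ring

theorem XX_pos (hw : ∀ e, 0 ≤ w e) (hs : s < 1) (D : Finset V) : 0 < XX a b w s D := by
  have h0 : ∀ P : Setoid V, 0 < wt (cw (1 - s) 1 Dᶜ ∅) P := by
    intro P
    refine prod_pos fun c _ => ?_
    rw [cw]
    simp only [disjoint_empty_right, if_true]
    split_ifs
    · linarith
    · exact one_pos
  rw [XX, NN]
  refine sum_pos' (fun ω _ => mul_nonneg (prod_nonneg fun e _ => hw e) (h0 _).le) ?_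
  refine ⟨∅, empty_mem_powerset _, ?_⟩
  rw [prod_empty, one_mul]
  exact h0 _

/-- One vertex. -/
theorem single (hw : ∀ e, 0 ≤ w e) (hs0 : 0 ≤ s) (hs : s < 1) {S : Finset V} {x : V}
    (hx : x ∉ S)
    (ih : ∀ U ⊆ S, TM (S \ U) fun D => XX a b w s D / XX a b w s (D ∪ U)) :
    TM S fun D => XX a b w s D / XX a b w s (insert x D) := by
  have hF : TM S fun D => s * ∑ U ∈ S.powerset, (hh a b w ({x} ∪ U) *
      Phi a b w s 1 {x} ({x} ∪ U)) *
        (if U ⊆ D then XX a b w s (D \ U) / XX a b w s (D \ U ∪ U) else 0) := by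
    refine TM.smul hs0 (TM.sum _ fun U hU => TM.smul ?_ ?_)
    · exact mul_nonneg (hh_nonneg a b w hw _) (Phi_nonneg a b w s 1 hw hs0 hs.le zero_le_one _ _)
    · exact (ih U (mem_powerset.1 hU)).shift
  have hFD : ∀ D ⊆ S, s * ∑ U ∈ S.powerset, (hh a b w ({x} ∪ U) *
      Phi a b w s 1 {x} ({x} ∪ U)) *
        (if U ⊆ D then XX a b w s (D \ U) / XX a b w s (D \ U ∪ U) else 0) =
      1 - XX a b w s (insert x D) / XX a b w s D := by
    intro D hD
    have hxD : x ∉ D := fun h => hx (hD h)
    have hpos := XX_pos a b w s hw hs D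
    have h1 : insert x D \ {x} = D := by
      rw [sdiff_singleton_eq_erase, erase_insert hxD]
    have h2 := XX_wire a b w s (insert x D) x
    rw [h1] at h2
    have h3 : NN a b w (1 - s) 1 {x} (insert x D) = ∑ U ∈ D.powerset, (hh a b w ({x} ∪ U) *
      Phi a b w s 1 {x} ({x} ∪ U)) * XX a b w s (D \ U) := by
      rw [NN_rec a b w s 1 hw, sum_sup_powerset (singleton_subset_iff.2 (mem_insert_self x D)),
        h1]
      refine sum_congr rfl fun U hU => ?_
      rw [mem_powerset] at hU
      have h4 : insert x D \ ({x} ∪ U) = D \ U := by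
        ext y
        simp only [mem_sdiff, mem_insert, mem_union, mem_singleton, not_or]
        constructor
        · rintro ⟨h | h, h', h''⟩
          · exact absurd h h'
          · exact ⟨h, h''⟩
        · rintro ⟨h, h'⟩
          exact ⟨Or.inr h, fun k => hxD (k ▸ h), h'⟩
      rw [h4]
    have h5 : ∑ U ∈ S.powerset, (hh a b w ({x} ∪ U) *
      Phi a b w s 1 {x} ({x} ∪ U)) *
        (if U ⊆ D then XX a b w s (D \ U) / XX a b w s (D \ U ∪ U) else 0) =
        (∑ U ∈ D.powerset, (hh a b w ({x} ∪ U) *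
      Phi a b w s 1 {x} ({x} ∪ U)) * XX a b w s (D \ U)) / XX a b w s D := by
      rw [sum_div, ← sum_subset (powerset_mono.2 hD)]
      · refine sum_congr rfl fun U hU => ?_
        rw [mem_powerset] at hU
        rw [if_pos hU, sdiff_union_of_subset hU]
        ring
      · intro U _ hU
        rw [mem_powerset] at hU
        rw [if_neg hU, mul_zero]
    rw [h5, ← h3]
    field_simp
    linarith
  have hinv := (hF.congr hFD).inv fun D _ => by
    have := div_pos (XX_pos a b w s hw hs (insert x D)) (XX_pos a b w s hw hs D)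
    linarith
  exact hinv.congr fun D _ => by rw [sub_sub_cancel, inv_div]

theorem ratio_aux (hw : ∀ e, 0 ≤ w e) (hs0 : 0 ≤ s) (hs : s < 1) : ∀ n : ℕ,
    ∀ S U : Finset V, Disjoint S U → S.card + U.card = n →
      TM S fun D => XX a b w s D / XX a b w s (D ∪ U) := by
  intro n
  induction n using Nat.strong_induction_on with
  | _ n ih =>
    intro S U hSU hn
    rcases U.eq_empty_or_nonempty with rfl | ⟨x, hxU⟩
    · refine (TM.one S).congr fun D _ => ?_
      rw [union_empty, div_self (XX_pos a b w s hw hs D).ne']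
    · have hxS : x ∉ S := fun h => disjoint_left.1 hSU h hxU
      have hd : Disjoint S (U.erase x) := hSU.mono_right (erase_subset _ _)
      have hcard : (U.erase x).card + 1 = U.card := card_erase_add_one hxU
      have h1 := ih (S.card + (U.erase x).card) (by omega) S (U.erase x) hd rfl
      have h2 : TM (S ∪ U.erase x) fun D => XX a b w s D / XX a b w s (insert x D) := by
        refine single a b w s hw hs0 hs ?_ fun U' hU' => ?_
        · rw [mem_union]
          rintro (h | h)
          · exact hxS h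
          · exact (mem_erase.1 h).1 rfl
        · refine ih _ ?_ _ U' sdiff_disjoint rfl
          rw [card_sdiff_add_card_eq_card hU', card_union_of_disjoint hd]
          omega
      have h3 := h1.mul (h2.restrict hd)
      refine h3.congr fun D _ => ?_
      have h4 : insert x (D ∪ U.erase x) = D ∪ U := by
        rw [← union_insert, insert_erase hxU]
      rw [h4, div_mul_div_cancel₀ (XX_pos a b w s hw hs _).ne']

theorem ratio (hw : ∀ e, 0 ≤ w e) (hs0 : 0 ≤ s) (hs : s < 1) {S U : Finset V}
    (h : Disjoint S U) : TM S fun D => XX a b w s D / XX a b w s (D ∪ U) :=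
  ratio_aux a b w s hw hs0 hs _ S U h rfl

/-- **Total monotonicity** of the avoidance probabilities. -/
theorem NN_ratio (hw : ∀ e, 0 ≤ w e) (hs0 : 0 ≤ s) (hs : s < 1) {κ : ℝ} (hκ : 0 ≤ κ)
    (T : Finset V) : TM univ fun D => NN a b w (1 - s) κ T D / XX a b w s D := by
  have h1 : TM univ fun D => ∑ R ∈ (univ : Finset V).powerset with T ⊆ R,
      (hh a b w R * Phi a b w s κ T R) *
        (if R ⊆ D then XX a b w s (D \ R) / XX a b w s (D \ R ∪ R) else 0) := by
    refine TM.sum _ fun R _ => TM.smul ?_ ?_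
    · exact mul_nonneg (hh_nonneg a b w hw _) (Phi_nonneg a b w s κ hw hs0 hs.le hκ _ _)
    · exact (ratio a b w s hw hs0 hs sdiff_disjoint).shift
  refine h1.congr fun D _ => ?_
  rw [NN_rec a b w s κ hw, sum_div]
  symm
  have hsub : (D.powerset.filter fun R => T ⊆ R) ⊆
      (univ : Finset V).powerset.filter fun R => T ⊆ R :=
    filter_subset_filter _ (powerset_mono.2 (subset_univ D))
  rw [← sum_subset hsub]
  · refine sum_congr rfl fun R hR => ?_
    rw [mem_filter, mem_powerset] at hR
    rw [if_pos hR.1, sdiff_union_of_subset hR.1]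
    ring
  · intro R hR hR'
    rw [mem_filter] at hR hR'
    rw [if_neg, mul_zero]
    exact fun h => hR' ⟨mem_powerset.2 h, hR.2⟩

end Vale.Agent.P167.H623
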