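import Vale.Agent.P167.H623.Main
import Vale.Agent.P167.H623.Defs

/-!
The partition functions of the random-cluster measure.
-/

namespace Vale.Agent.P167.H623

open Finset

set_option linter.unusedSectionVars false

variable {V E : Type*} [Fintype V] [DecidableEq V] [Fintype E] [DecidableEq E]
  (a b : E → V)

theorem conn_iff (ω : Finset E) (x y : V) : Conn a b ω x y ↔ conf a b ω x y := by
  constructor
  · intro h
    induction h with
    | rel x y h =>
      obtain ⟨e, he, rfl, rfl⟩ := h
      exact conf_edge a b he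
    | refl x => exact Setoid.refl' _ x
    | symm x y _ h => exact Setoid.symm' _ h
    | trans x y z _ _ h h' => exact Setoid.trans' _ h h'
  · intro h
    have : conf a b ω ≤ Relation.EqvGen.setoid (OpenAdj a b ω) :=
      (conf_le_iff a b).2 fun e he => Relation.EqvGen.rel _ _ ⟨e, he, rfl, rfl⟩
    exact this h

open Classical in
/-- The class, or `none` if it meets `W`. -/
noncomputable def mark (W : Finset V) (ω : Finset E) (x : V) : Option (Finset V) :=
  if Disjoint (cls (conf a b ω) x) W then some (cls (conf a b ω) x) else none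

theorem mark_eq_iff (W : Finset V) (ω : Finset E) (x y : V) :
    mark a b W ω x = mark a b W ω y ↔
      Relation.EqvGen (fun x y => OpenAdj a b ω x y ∨ (x ∈ W ∧ y ∈ W)) x y := by
  constructor
  · intro h
    have h0 : ∀ u v, conf a b ω u v →
        Relation.EqvGen (fun x y => OpenAdj a b ω x y ∨ (x ∈ W ∧ y ∈ W)) u v := by
      intro u v huv
      exact Relation.EqvGen.mono (fun _ _ k => Or.inl k) _ _ ((conn_iff a b ω u v).2 huv)
    have h1 : ∀ u, ¬ Disjoint (cls (conf a b ω) u) W → ∃ z ∈ W, conf a b ω u z := by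
      intro u hu
      rw [not_disjoint_iff] at hu
      obtain ⟨z, hz, hzW⟩ := hu
      exact ⟨z, hzW, mem_cls.1 hz⟩
    rw [mark, mark] at h
    split_ifs at h with h2 h3 h3
    · exact h0 _ _ (cls_eq_iff.1 (Option.some_injective _ h))
    · obtain ⟨z, hz, hxz⟩ := h1 x h2
      obtain ⟨z', hz', hyz⟩ := h1 y h3
      have h6 : Relation.EqvGen (fun x y => OpenAdj a b ω x y ∨ (x ∈ W ∧ y ∈ W)) z z' :=
        Relation.EqvGen.rel _ _ (Or.inr ⟨hz, hz'⟩)
      exact Relation.EqvGen.trans _ _ _ (h0 _ _ hxz)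
        (Relation.EqvGen.trans _ _ _ h6 (Relation.EqvGen.symm _ _ (h0 _ _ hyz)))
  · intro h
    induction h with
    | rel x y h =>
      rcases h with h | ⟨hx, hy⟩
      · have : conf a b ω x y := (conn_iff a b ω x y).1 (Relation.EqvGen.rel _ _ h)
        rw [mark, mark, cls_eq_iff.2 this]
      · rw [mark, mark, if_neg, if_neg]
        · exact not_disjoint_iff.2 ⟨y, self_mem_cls _ y, hy⟩
        · exact not_disjoint_iff.2 ⟨x, self_mem_cls _ x, hx⟩
    | refl x => rfl
    | symm x y _ h => exact h.symm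
    | trans x y z _ _ h h' => exact h.trans h'

open Classical in
theorem clusters_eq (W : Finset V) (ω : Finset E) :
    clusters a b W ω = ((classes (conf a b ω)).filter fun c => Disjoint c W).card +
      (if W = ∅ then 0 else 1) := by
  have h1 : clusters a b W ω = (univ.image (mark a b W ω)).card := by
    rw [clusters, ← Fintype.card_coe, ← Nat.card_eq_fintype_card]
    refine Nat.card_congr (Equiv.ofBijective (Quot.lift
      (fun x => (⟨mark a b W ω x, mem_image_of_mem _ (mem_univ x)⟩ :
        {y // y ∈ univ.image (mark a b W ω)})) fun x y h => ?_) ⟨?_, ?_⟩)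
    · exact Subtype.ext ((mark_eq_iff a b W ω x y).2 (Relation.EqvGen.rel _ _ h))
    · rintro ⟨x⟩ ⟨y⟩ h
      exact Quot.eqvGen_sound ((mark_eq_iff a b W ω x y).1 (congrArg Subtype.val h))
    · rintro ⟨y, hy⟩
      obtain ⟨x, -, rfl⟩ := mem_image.1 hy
      exact ⟨Quot.mk _ x, rfl⟩
  have h2 : univ.image (mark a b W ω) =
      ((classes (conf a b ω)).filter fun c => Disjoint c W).image some ∪
        (if W = ∅ then ∅ else {none}) := by
    ext o
    rw [mem_union, mem_image, mem_image]
    constructor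
    · rintro ⟨x, -, rfl⟩
      by_cases h3 : Disjoint (cls (conf a b ω) x) W
      · rw [mark, if_pos h3]
        exact Or.inl ⟨_, mem_filter.2 ⟨cls_mem _ x, h3⟩, rfl⟩
      · have h4 : W ≠ ∅ := by
          rintro rfl
          exact h3 (disjoint_empty_right _)
        rw [mark, if_neg h3, if_neg h4]
        exact Or.inr (mem_singleton_self _)
    · rintro (⟨c, hc, rfl⟩ | h)
      · rw [mem_filter, mem_classes] at hc
        obtain ⟨⟨x, rfl⟩, hx⟩ := hc
        exact ⟨x, mem_univ x, by rw [mark, if_pos hx]⟩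
      · split_ifs at h with h4
        · exact absurd h (notMem_empty _)
        · rw [mem_singleton] at h
          obtain ⟨x, hx⟩ := nonempty_iff_ne_empty.2 h4
          refine ⟨x, mem_univ x, ?_⟩
          rw [mark, if_neg, h]
          exact not_disjoint_iff.2 ⟨x, self_mem_cls _ x, hx⟩
  rw [h1, h2, card_union_of_disjoint, card_image_of_injective _ (Option.some_injective _)]
  · congr 1
    split_ifs <;> simp
  · rw [disjoint_left]
    intro o ho ho'
    obtain ⟨c, -, rfl⟩ := mem_image.1 ho
    split_ifs at ho' with h4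
    · exact absurd ho' (notMem_empty _)
    · exact absurd (mem_singleton.1 ho') (by simp)

open Classical in
theorem wt_eq_pow (q κ : ℝ) (W : Finset V) (ω : Finset E) :
    wt (cw q κ W ∅) (conf a b ω) =
      q ^ ((classes (conf a b ω)).filter fun c => Disjoint c W).card := by
  rw [wt, ← prod_const, prod_filter]
  refine prod_congr rfl fun c _ => ?_
  simp [cw]

open Classical in
theorem wt_eq_pow' (q : ℝ) (W T : Finset V) (ω : Finset E) :
    wt (cw q q W T) (conf a b ω) =
      if Miss a b T W ω then q ^ ((classes (conf a b ω)).filter fun c => Disjoint c W).card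
      else 0 := by
  split_ifs with h
  · rw [wt, ← prod_const, prod_filter]
    refine prod_congr rfl fun c hc => ?_
    obtain ⟨x, rfl⟩ := mem_classes.1 hc
    rw [cw]
    split_ifs with h1 h2 h2
    · rfl
    · rfl
    · rfl
    · exfalso
      obtain ⟨y, hy, hyW⟩ := not_disjoint_iff.1 h1
      obtain ⟨z, hz, hzT⟩ := not_disjoint_iff.1 h2
      refine h z hzT y hyW ((conn_iff a b ω z y).2 ?_)
      exact Setoid.trans' _ (Setoid.symm' _ (mem_cls.1 hz)) (mem_cls.1 hy)
  · rw [Miss] at h
    push Not at h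
    obtain ⟨x, hx, y, hy, hxy⟩ := h
    rw [conn_iff] at hxy
    refine prod_eq_zero (cls_mem _ x) ?_
    rw [cw, if_neg, if_neg]
    · exact not_disjoint_iff.2 ⟨x, self_mem_cls _ x, hx⟩
    · exact not_disjoint_iff.2 ⟨y, mem_cls.2 hxy, hy⟩

/-- The constant factor. -/
noncomputable def kap (p : E → ℝ) (q : ℝ) (W : Finset V) : ℝ :=
  (∏ e, (1 - p e)) * (if W = ∅ then 1 else q)

open Classical in
theorem weight_eq {p : E → ℝ} (hp : ∀ e, p e < 1) (q : ℝ) (W : Finset V) (ω : Finset E) :
    weight a b p q W ω = kap p q W * ((∏ e ∈ ω, p e / (1 - p e)) *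
      q ^ ((classes (conf a b ω)).filter fun c => Disjoint c W).card) := by
  have h1 : (∏ e ∈ ω, p e) * ∏ e ∈ ωᶜ, (1 - p e) =
      (∏ e, (1 - p e)) * ∏ e ∈ ω, p e / (1 - p e) := by
    rw [← prod_mul_prod_compl ω, prod_div_distrib]
    have : ∏ e ∈ ω, (1 - p e) ≠ 0 := prod_ne_zero_iff.2 fun e _ => by linarith [hp e]
    field_simp
  rw [weight, clusters_eq, h1, kap]
  split_ifs <;> ring

theorem kap_pos {p : E → ℝ} (hp : ∀ e, p e < 1) {q : ℝ} (hq : 0 < q) (W : Finset V) :
    0 < kap p q W := by
  refine mul_pos (prod_pos fun e _ => by linarith [hp e]) ?_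
  split_ifs
  · exact one_pos
  · exact hq

theorem sum_weight {p : E → ℝ} (hp : ∀ e, p e < 1) (q : ℝ) (W : Finset V) :
    ∑ ω, weight a b p q W ω =
      kap p q W * XX a b (fun e => p e / (1 - p e)) (1 - q) Wᶜ := by
  classical
  rw [XX, NN, mul_sum, powerset_univ]
  refine sum_congr rfl fun ω _ => ?_
  rw [weight_eq a b hp, compl_compl, sub_sub_cancel, wt_eq_pow]

open Classical in
theorem sum_weight_miss {p : E → ℝ} (hp : ∀ e, p e < 1) (q : ℝ) (T W : Finset V) :
    ∑ ω with Miss a b T W ω, weight a b p q W ω =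
      kap p q W * NN a b (fun e => p e / (1 - p e)) (1 - (1 - q)) q T Wᶜ := by
  rw [NN, mul_sum, powerset_univ, sum_filter]
  refine sum_congr rfl fun ω _ => ?_
  rw [compl_compl, sub_sub_cancel, wt_eq_pow']
  split_ifs
  · rw [weight_eq a b hp]
  · ring

theorem prob_miss {p : E → ℝ} (hp : ∀ e, p e < 1) {q : ℝ} (hq : 0 < q) (T W : Finset V) :
    prob a b p q W (Miss a b T W) =
      NN a b (fun e => p e / (1 - p e)) (1 - (1 - q)) q T Wᶜ /
        XX a b (fun e => p e / (1 - p e)) (1 - q) Wᶜ := by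
  classical
  have h1 := sum_weight_miss a b hp q T W
  rw [prob, sum_weight a b hp]
  have h2 : ∑ ω with Miss a b T W ω, weight a b p q W ω =
      kap p q W * NN a b (fun e => p e / (1 - p e)) (1 - (1 - q)) q T Wᶜ := by
    rw [← h1]
  rw [h2, mul_div_mul_left _ _ (kap_pos hp hq W).ne']

theorem sum_weight_pos {p : E → ℝ} (hp : ∀ e, 0 ≤ p e ∧ p e < 1) {q : ℝ} (hq : 0 < q)
    (W : Finset V) : 0 < ∑ ω, weight a b p q W ω := by
  rw [sum_weight a b fun e => (hp e).2]
  refine mul_pos (kap_pos (fun e => (hp e).2) hq W) (XX_pos a b _ _ (fun e => ?_) ?_ _)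
  · exact div_nonneg (hp e).1 (by linarith [(hp e).2])
  · linarith

/-- **The hitting capacity.** -/
theorem capacity {p : E → ℝ} (hp : ∀ e, 0 ≤ p e ∧ p e < 1) {q : ℝ} (hq : 0 < q) (hq1 : q ≤ 1)
    (T : Finset V) : ∃ π : Finset V → ℝ, (∀ A, 0 ≤ π A) ∧ ∑ A, π A = 1 ∧
      ∀ W : Finset V, prob a b p q W (Miss a b T W) = ∑ A with Disjoint A W, π A := by
  classical
  have hw : ∀ e, 0 ≤ p e / (1 - p e) := fun e => div_nonneg (hp e).1 (by linarith [(hp e).2])
  obtain ⟨π, h0, h1⟩ := NN_ratio a b (fun e => p e / (1 - p e)) (1 - q) hw (by linarith)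
    (by linarith) hq.le T
  have h2 : ∀ W : Finset V, prob a b p q W (Miss a b T W) = ∑ A with Disjoint A W, π A := by
    intro W
    rw [prob_miss a b (fun e => (hp e).2) hq]
    have := h1 Wᶜ (subset_univ _)
    beta_reduce at this
    rw [this]
    refine sum_congr ?_ fun _ _ => rfl
    ext A
    rw [mem_powerset, mem_filter, subset_compl_iff_disjoint_right]
    simp
  refine ⟨π, h0, ?_, h2⟩
  have h3 := h2 ∅
  have h4 : ∀ A : Finset V, Disjoint A ∅ := fun A => disjoint_empty_right A
  rw [filter_true_of_mem fun A _ => h4 A] at h3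
  rw [← h3, prob]
  have h5 : (univ : Finset (Finset E)).filter (fun ω => Miss a b T ∅ ω) = univ :=
    filter_true_of_mem fun ω _ x _ y hy => absurd hy (notMem_empty y)
  rw [h5, div_self (sum_weight_pos a b hp hq ∅).ne']

end Vale.Agent.P167.H623
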