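import Mathlib

/-!
Partitions of a finite set, as setoids, and a positivity lemma for sums over sets of edges of
products over the classes (deletion and contraction).
-/

namespace Vale.Agent.P167.H623

open Finset

variable {V : Type*}

/-- The partition whose only class with more than one point is `{x, y}`. -/
def join (x y : V) : Setoid V where
  r u v := u = v ∨ (u = x ∧ v = y) ∨ (u = y ∧ v = x)
  iseqv := by
    refine ⟨fun u => Or.inl rfl, ?_, ?_⟩
    · rintro u v (h | ⟨h, h'⟩ | ⟨h, h'⟩)
      · exact Or.inl h.symm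
      · exact Or.inr (Or.inr ⟨h', h⟩)
      · exact Or.inr (Or.inl ⟨h', h⟩)
    · rintro u v w (h | ⟨h, h'⟩ | ⟨h, h'⟩) (k | ⟨k, k'⟩ | ⟨k, k'⟩) <;> subst_vars <;> simp

theorem join_comm (x y : V) : join x y = join y x := by
  ext u v
  change (u = v ∨ (u = x ∧ v = y) ∨ (u = y ∧ v = x)) ↔ (u = v ∨ (u = y ∧ v = x) ∨ (u = x ∧ v = y))
  tauto

/-- The explicit join of a partition with a pair. -/
def addPair (P : Setoid V) (x y : V) : Setoid V where
  r u v := P u v ∨ (P u x ∧ P y v) ∨ (P u y ∧ P x v)
  iseqv := by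
    refine ⟨fun u => Or.inl (P.refl u), ?_, ?_⟩
    · rintro u v (h | ⟨h, h'⟩ | ⟨h, h'⟩)
      · exact Or.inl (P.symm h)
      · exact Or.inr (Or.inr ⟨P.symm h', P.symm h⟩)
      · exact Or.inr (Or.inl ⟨P.symm h', P.symm h⟩)
    · rintro u v w (h | ⟨h, h'⟩ | ⟨h, h'⟩) (k | ⟨k, k'⟩ | ⟨k, k'⟩)
      · exact Or.inl (P.trans h k)
      · exact Or.inr (Or.inl ⟨P.trans h k, k'⟩)
      · exact Or.inr (Or.inr ⟨P.trans h k, k'⟩)
      · exact Or.inr (Or.inl ⟨h, P.trans h' k⟩)
      · exact Or.inr (Or.inl ⟨h, k'⟩)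
      · exact Or.inl (P.trans h k')
      · exact Or.inr (Or.inr ⟨h, P.trans h' k⟩)
      · exact Or.inl (P.trans h k')
      · exact Or.inr (Or.inr ⟨h, k'⟩)

theorem sup_join (P : Setoid V) (x y : V) : P ⊔ join x y = addPair P x y := by
  apply le_antisymm
  · apply sup_le
    · intro u v h
      exact Or.inl h
    · rintro u v (h | ⟨h, h'⟩ | ⟨h, h'⟩)
      · subst h
        exact Or.inl (P.refl u)
      · subst h; subst h'
        exact Or.inr (Or.inl ⟨P.refl _, P.refl _⟩)
      · subst h; subst h'
        exact Or.inr (Or.inr ⟨P.refl _, P.refl _⟩)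
  · have h1 : P ≤ P ⊔ join x y := le_sup_left
    have h2 : join x y ≤ P ⊔ join x y := le_sup_right
    have hxy : (P ⊔ join x y) x y := h2 (Or.inr (Or.inl ⟨rfl, rfl⟩))
    rintro u v (h | ⟨h, h'⟩ | ⟨h, h'⟩)
    · exact h1 h
    · exact Setoid.trans' _ (h1 h) (Setoid.trans' _ hxy (h1 h'))
    · exact Setoid.trans' _ (h1 h) (Setoid.trans' _ (Setoid.symm' _ hxy) (h1 h'))

theorem sup_join_iff (P : Setoid V) (x y u v : V) :
    (P ⊔ join x y) u v ↔ P u v ∨ (P u x ∧ P y v) ∨ (P u y ∧ P x v) := by
  rw [sup_join]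
  rfl

/-! ### Classes -/

section classes

set_option linter.unusedSectionVars false

variable [Fintype V] [DecidableEq V]

open Classical in
/-- The class of `x`. -/
noncomputable def cls (P : Setoid V) (x : V) : Finset V := univ.filter fun y => P x y

theorem mem_cls {P : Setoid V} {x y : V} : y ∈ cls P x ↔ P x y := by
  simp [cls]

theorem self_mem_cls (P : Setoid V) (x : V) : x ∈ cls P x := mem_cls.2 (P.refl x)

theorem cls_eq_iff {P : Setoid V} {x y : V} : cls P x = cls P y ↔ P x y := by
  constructor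
  · intro h
    exact P.symm (mem_cls.1 (h ▸ self_mem_cls P x))
  · intro h
    ext z
    rw [mem_cls, mem_cls]
    exact ⟨fun k => P.trans (P.symm h) k, fun k => P.trans h k⟩

/-- The set of the classes. -/
noncomputable def classes (P : Setoid V) : Finset (Finset V) := univ.image (cls P)

theorem mem_classes {P : Setoid V} {c : Finset V} : c ∈ classes P ↔ ∃ x, cls P x = c := by
  simp [classes]

theorem cls_mem (P : Setoid V) (x : V) : cls P x ∈ classes P := mem_classes.2 ⟨x, rfl⟩

/-- The product over the classes. -/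
noncomputable def wt (θ : Finset V → ℝ) (P : Setoid V) : ℝ := ∏ c ∈ classes P, θ c

/-- The weight of a class: `1` if it meets `J`, else `κ` if it meets `K`, else `-s`. -/
noncomputable def theta (J K : Finset V) (κ s : ℝ) (c : Finset V) : ℝ :=
  if Disjoint c J then (if Disjoint c K then -s else κ) else 1

open Classical in
theorem cls_sup_join (P : Setoid V) (x y u : V) :
    cls (P ⊔ join x y) u = if P u x ∨ P u y then cls P x ∪ cls P y else cls P u := by
  ext v
  split_ifs with h
  · rw [mem_cls, mem_union, mem_cls, mem_cls, sup_join_iff]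
    constructor
    · rintro (k | ⟨k, k'⟩ | ⟨k, k'⟩)
      · rcases h with h | h
        · exact Or.inl (P.trans (P.symm h) k)
        · exact Or.inr (P.trans (P.symm h) k)
      · exact Or.inr k'
      · exact Or.inl k'
    · rintro (k | k)
      · rcases h with h | h
        · exact Or.inl (P.trans h k)
        · exact Or.inr (Or.inr ⟨h, k⟩)
      · rcases h with h | h
        · exact Or.inr (Or.inl ⟨h, k⟩)
        · exact Or.inl (P.trans h k)
  · rw [mem_cls, mem_cls, sup_join_iff]
    push Not at h
    constructor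
    · rintro (k | ⟨k, k'⟩ | ⟨k, k'⟩)
      · exact k
      · exact absurd k h.1
      · exact absurd k h.2
    · exact Or.inl

theorem classes_sup_join (P : Setoid V) (x y : V) :
    classes (P ⊔ join x y) =
      insert (cls P x ∪ cls P y) (((classes P).erase (cls P x)).erase (cls P y)) := by
  ext c
  rw [mem_classes, mem_insert, mem_erase, mem_erase, mem_classes]
  constructor
  · rintro ⟨u, rfl⟩
    rw [cls_sup_join]
    split_ifs with h
    · exact Or.inl rfl
    · push Not at h
      refine Or.inr ⟨?_, ?_, u, rfl⟩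
      · rw [Ne, cls_eq_iff]; exact h.2
      · rw [Ne, cls_eq_iff]; exact h.1
  · rintro (rfl | ⟨h1, h2, u, rfl⟩)
    · refine ⟨x, ?_⟩
      rw [cls_sup_join, if_pos (Or.inl (P.refl x))]
    · refine ⟨u, ?_⟩
      rw [cls_sup_join, if_neg]
      rintro (h | h)
      · exact h2 (cls_eq_iff.2 h)
      · exact h1 (cls_eq_iff.2 h)

theorem wt_merge (P : Setoid V) (x y : V) (J K : Finset V) (κ s : ℝ) (hxy : ¬ P x y)
    (hJ : Disjoint (cls P y) J) (hK : Disjoint (cls P y) K) :
    wt (theta J K κ s) P = -s * wt (theta J K κ s) (P ⊔ join x y) := by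
  have hne : cls P y ≠ cls P x := fun h => hxy (cls_eq_iff.1 h.symm)
  have h1 : wt (theta J K κ s) P = theta J K κ s (cls P x) * (theta J K κ s (cls P y) *
      ∏ c ∈ ((classes P).erase (cls P x)).erase (cls P y), theta J K κ s c) := by
    rw [mul_prod_erase _ _ (mem_erase.2 ⟨hne, cls_mem P y⟩), mul_prod_erase _ _ (cls_mem P x)]
    rfl
  have h2 : cls P x ∪ cls P y ∉ ((classes P).erase (cls P x)).erase (cls P y) := by
    intro h
    rw [mem_erase, mem_erase, mem_classes] at h
    obtain ⟨-, -, u, hu⟩ := h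
    have hx : P u x := mem_cls.1 (hu ▸ mem_union_left _ (self_mem_cls P x))
    have hy : P u y := mem_cls.1 (hu ▸ mem_union_right _ (self_mem_cls P y))
    exact hxy (P.trans (P.symm hx) hy)
  have h3 : wt (theta J K κ s) (P ⊔ join x y) = theta J K κ s (cls P x ∪ cls P y) *
      ∏ c ∈ ((classes P).erase (cls P x)).erase (cls P y), theta J K κ s c := by
    rw [wt, classes_sup_join, prod_insert h2]
  have h4 : theta J K κ s (cls P y) = -s := by
    rw [theta, if_pos hJ, if_pos hK]
  have h5 : theta J K κ s (cls P x ∪ cls P y) = theta J K κ s (cls P x) := by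
    simp only [theta, disjoint_union_left, hJ, hK, and_true]
  rw [h1, h3, h4, h5]
  ring

/-! ### Configurations -/

variable {E : Type*} [DecidableEq E]

/-- The partition into the clusters of the set `ω` of open edges. -/
def conf (a b : E → V) (ω : Finset E) : Setoid V := ω.sup fun e => join (a e) (b e)

theorem conf_insert (a b : E → V) (e : E) (ω : Finset E) :
    conf a b (insert e ω) = join (a e) (b e) ⊔ conf a b ω := by
  rw [conf, sup_insert]
  rfl

theorem conf_mono (a b : E → V) {ω ω' : Finset E} (h : ω ⊆ ω') : conf a b ω ≤ conf a b ω' :=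
  Finset.sup_mono h

/-- **Positivity** (deletion and contraction). -/
theorem pos_key (a b : E → V) (v : E → ℝ) (J K : Finset V) (κ s : ℝ) (hκ : 0 ≤ κ) (hs : 0 ≤ s)
    (hv : ∀ e, s ≤ v e) (L : Finset E) : ∀ P : Setoid V,
    (∀ x, ∃ y, (y ∈ J ∨ y ∈ K) ∧ (P ⊔ conf a b L) x y) →
    0 ≤ ∑ B ∈ L.powerset, (∏ e ∈ B, v e) * wt (theta J K κ s) (P ⊔ conf a b B) := by
  induction L using Finset.induction_on with
  | empty =>
    intro P hP
    rw [powerset_empty, sum_singleton, prod_empty, one_mul]
    apply prod_nonneg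
    intro c hc
    obtain ⟨x, rfl⟩ := mem_classes.1 hc
    obtain ⟨y, hy, hxy⟩ := hP x
    rw [theta]
    split_ifs with h1 h2
    · exfalso
      rcases hy with hy | hy
      · exact disjoint_left.1 h1 (mem_cls.2 hxy) hy
      · exact disjoint_left.1 h2 (mem_cls.2 hxy) hy
    · exact hκ
    · exact zero_le_one
  | insert e L he ih =>
    intro P hP
    rw [sum_powerset_insert he]
    have hP' : ∀ x, ∃ y, (y ∈ J ∨ y ∈ K) ∧ (P ⊔ join (a e) (b e) ⊔ conf a b L) x y := by
      intro x
      obtain ⟨y, hy, hxy⟩ := hP x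
      refine ⟨y, hy, ?_⟩
      rw [conf_insert, ← sup_assoc] at hxy
      exact hxy
    have hI := ih (P ⊔ join (a e) (b e)) hP'
    have hsum : ∑ B ∈ L.powerset, (∏ e' ∈ insert e B, v e') *
        wt (theta J K κ s) (P ⊔ conf a b (insert e B)) =
        v e * ∑ B ∈ L.powerset, (∏ e' ∈ B, v e') *
          wt (theta J K κ s) (P ⊔ join (a e) (b e) ⊔ conf a b B) := by
      rw [mul_sum]
      refine sum_congr rfl fun B hB => ?_
      rw [prod_insert (fun h => he (mem_powerset.1 hB h)), conf_insert, ← sup_assoc, mul_assoc]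
    rw [hsum]
    by_cases hA : ∀ x, ∃ y, (y ∈ J ∨ y ∈ K) ∧ (P ⊔ conf a b L) x y
    · exact add_nonneg (ih P hA) (mul_nonneg (hs.trans (hv e)) hI)
    · push Not at hA
      obtain ⟨x0, hx0⟩ := hA
      -- the two ends of `e`: one in the class of `x0`
      have key : ∀ x y : V, join x y = join (a e) (b e) → (P ⊔ conf a b L) x0 y →
          ¬ (P ⊔ conf a b L) x y →
          0 ≤ ∑ B ∈ L.powerset, (∏ e' ∈ B, v e') * wt (theta J K κ s) (P ⊔ conf a b B) +
            v e * ∑ B ∈ L.powerset, (∏ e' ∈ B, v e') *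
              wt (theta J K κ s) (P ⊔ join (a e) (b e) ⊔ conf a b B) := by
        intro x y hj h0 hxy
        have : ∑ B ∈ L.powerset, (∏ e' ∈ B, v e') * wt (theta J K κ s) (P ⊔ conf a b B) =
            -s * ∑ B ∈ L.powerset, (∏ e' ∈ B, v e') *
              wt (theta J K κ s) (P ⊔ join (a e) (b e) ⊔ conf a b B) := by
          rw [mul_sum]
          refine sum_congr rfl fun B hB => ?_
          have hle : P ⊔ conf a b B ≤ P ⊔ conf a b L :=
            sup_le_sup_left (conf_mono a b (mem_powerset.1 hB)) P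
          have hd : ∀ S : Finset V, (∀ z ∈ S, z ∈ J ∨ z ∈ K) →
              Disjoint (cls (P ⊔ conf a b B) y) S := by
            intro S hS
            rw [disjoint_left]
            intro z hz hzS
            exact hx0 z (hS z hzS) (Setoid.trans' _ h0 (hle (mem_cls.1 hz)))
          rw [wt_merge (P ⊔ conf a b B) x y J K κ s (fun h => hxy (hle h))
            (hd J fun z hz => Or.inl hz) (hd K fun z hz => Or.inr hz), hj]
          have : P ⊔ conf a b B ⊔ join (a e) (b e) = P ⊔ join (a e) (b e) ⊔ conf a b B := by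
            rw [sup_right_comm]
          rw [this]
          ring
        rw [this, ← add_mul]
        exact mul_nonneg (by linarith [hv e]) hI
      obtain ⟨y, hy, hxy⟩ := hP' x0
      rw [sup_right_comm] at hxy
      rcases (sup_join_iff (P ⊔ conf a b L) (a e) (b e) x0 y).1 hxy with h | ⟨h, h'⟩ | ⟨h, h'⟩
      · exact absurd h (hx0 y hy)
      · refine key (b e) (a e) (join_comm _ _) h fun hk => ?_
        exact hx0 y hy (Setoid.trans' _ h (Setoid.trans' _ (Setoid.symm' _ hk) h'))
      · refine key (a e) (b e) rfl h fun hk => ?_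
        exact hx0 y hy (Setoid.trans' _ h (Setoid.trans' _ (Setoid.symm' _ hk) h'))

end classes

end Vale.Agent.P167.H623
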