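import Vale.Agent.P167.H623.Euler

/-!
The self-duality of the rectangle.
-/

namespace Vale.Agent.P167.H623

open Finset

set_option linter.unusedSectionVars false

/-! ### Summation by parts -/

theorem parts_one {m : ℕ} (D G : ℕ → ZMod 2) (h0 : G 0 = 0) (h1 : G (m + 1) = 0) :
    ∑ j ∈ range (m + 1), D j * (G j + G (j + 1)) =
      ∑ j ∈ range m, (D (j + 1) + D j) * G (j + 1) := by
  have e1 : ∑ j ∈ range (m + 1), D j * (G j + G (j + 1)) =
      ∑ j ∈ range (m + 1), D j * G j + ∑ j ∈ range (m + 1), D j * G (j + 1) := by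
    rw [← sum_add_distrib]
    exact sum_congr rfl fun j _ => mul_add _ _ _
  rw [e1, sum_range_succ' (fun j => D j * G j), sum_range_succ (fun j => D j * G (j + 1)), h0, h1,
    mul_zero, mul_zero, add_zero, add_zero, ← sum_add_distrib]
  exact sum_congr rfl fun j _ => (add_mul _ _ _).symm

theorem parts_two {m : ℕ} (H G : ℕ → ZMod 2) (h0 : H 0 = 0) (h1 : H (m + 1) = 0) :
    ∑ i ∈ range m, H (i + 1) * (G i + G (i + 1)) =
      ∑ i ∈ range (m + 1), (H (i + 1) + H i) * G i := by
  have e1 : ∑ i ∈ range (m + 1), (H (i + 1) + H i) * G i =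
      ∑ i ∈ range (m + 1), H (i + 1) * G i + ∑ i ∈ range (m + 1), H i * G i := by
    rw [← sum_add_distrib]
    exact sum_congr rfl fun j _ => add_mul _ _ _
  rw [e1, sum_range_succ (fun i => H (i + 1) * G i), sum_range_succ' (fun i => H i * G i), h0, h1,
    zero_mul, zero_mul, add_zero, add_zero, ← sum_add_distrib]
  exact sum_congr rfl fun j _ => mul_add _ _ _

theorem grid_orth {m : ℕ} (F G : ℕ → ℕ → ZMod 2) (hF0 : ∀ y, F 0 y = F 0 0)
    (hF1 : ∀ y, F (m + 1) y = F (m + 1) 0) (c : ZMod 2) (hG0 : ∀ y, G 0 y = c)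
    (hG1 : ∀ y, G (m + 1) y = c) :
    ∑ i ∈ range (m + 1), ∑ j ∈ range (m + 1), (F i j + F (i + 1) j) * (G j i + G (j + 1) i) +
      ∑ i ∈ range m, ∑ j ∈ range m,
        (F (i + 1) j + F (i + 1) (j + 1)) * (G (j + 1) i + G (j + 1) (i + 1)) = 0 := by
  have h2 : (2 : ZMod 2) = 0 := by decide
  have e1 : ∀ i, ∑ j ∈ range (m + 1), (F i j + F (i + 1) j) * (G j i + G (j + 1) i) =
      ∑ j ∈ range m, ((F i (j + 1) + F (i + 1) (j + 1)) + (F i j + F (i + 1) j)) *
        (G (j + 1) i + c) := by
    intro i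
    have := parts_one (m := m) (fun j => F i j + F (i + 1) j) (fun j => G j i + c)
      (by rw [hG0]; linear_combination c * h2) (by rw [hG1]; linear_combination c * h2)
    rw [← this]
    refine sum_congr rfl fun j _ => ?_
    linear_combination (-(F i j + F (i + 1) j) * c) * h2
  have e2 : ∑ i ∈ range m, ∑ j ∈ range m,
      (F (i + 1) j + F (i + 1) (j + 1)) * (G (j + 1) i + G (j + 1) (i + 1)) =
      ∑ i ∈ range (m + 1), ∑ j ∈ range m,
        ((F (i + 1) j + F (i + 1) (j + 1)) + (F i j + F i (j + 1))) * (G (j + 1) i + c) := by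
    rw [sum_comm, sum_comm (s := range (m + 1))]
    refine sum_congr rfl fun j _ => ?_
    have := parts_two (m := m) (fun i => F i j + F i (j + 1)) (fun i => G (j + 1) i + c)
      (by rw [hF0 j, hF0 (j + 1)]; linear_combination (F 0 0) * h2)
      (by rw [hF1 j, hF1 (j + 1)]; linear_combination (F (m + 1) 0) * h2)
    rw [← this]
    refine sum_congr rfl fun i _ => ?_
    linear_combination (-(F (i + 1) j + F (i + 1) (j + 1)) * c) * h2
  rw [sum_congr rfl fun i _ => e1 i, e2, ← sum_add_distrib]
  refine sum_eq_zero fun i _ => ?_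
  rw [← sum_add_distrib]
  refine sum_eq_zero fun j _ => ?_
  linear_combination ((F i (j + 1) + F (i + 1) (j + 1) + F i j + F (i + 1) j) *
    (G (j + 1) i + c)) * h2

/-! ### The contracted rectangle without the vertical edges of the sides -/

/-- The edges without the sides. -/
abbrev E0 (m : ℕ) : Type := (Fin (m + 1) × Fin (m + 1)) ⊕ (Fin m × Fin m)

/-- The vertices. -/
abbrev V0 (m : ℕ) : Type := Option (Fin (m + 1) × Fin (m + 1))

/-- The right side. -/
def right (m : ℕ) : Finset (V0 m) := univ.image fun y => some (Fin.last m, y)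

/-- The vertices with natural coordinates. -/
def node (m : ℕ) (x y : ℕ) : V0 m :=
  if x = 0 then none else some (Fin.ofNat (m + 1) (x - 1), Fin.ofNat (m + 1) y)

/-- First end. -/
def a0 {m : ℕ} : E0 m → V0 m
  | Sum.inl (i, j) => node m i j
  | Sum.inr (i, j) => node m (i + 1) j

/-- Second end. -/
def b0 {m : ℕ} : E0 m → V0 m
  | Sum.inl (i, j) => node m (i + 1) j
  | Sum.inr (i, j) => node m (i + 1) (j + 1)

theorem ofNat_val {n : ℕ} (i : Fin (n + 1)) : Fin.ofNat (n + 1) (i : ℕ) = i := by
  apply Fin.ext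
  simp [Fin.ofNat, Nat.mod_eq_of_lt i.2]

theorem node_zero (m y : ℕ) : node m 0 y = none := rfl

theorem node_succ {m : ℕ} (x y : Fin (m + 1)) : node m ((x : ℕ) + 1) y = some (x, y) := by
  rw [node, if_neg (Nat.succ_ne_zero _), Nat.add_sub_cancel, ofNat_val, ofNat_val]

theorem a0_h {m : ℕ} (i j : Fin (m + 1)) : a0 (Sum.inl (i, j)) = node m i j := rfl

theorem b0_h {m : ℕ} (i j : Fin (m + 1)) : b0 (Sum.inl (i, j)) = node m (i + 1) j := rfl

theorem a0_v {m : ℕ} (i j : Fin m) : a0 (Sum.inr (i, j)) = node m (i + 1) j := rfl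

theorem b0_v {m : ℕ} (i j : Fin m) : b0 (Sum.inr (i, j)) = node m (i + 1) (j + 1) := rfl

/-- The duality of the edges. -/
def tau (m : ℕ) : E0 m ≃ E0 m :=
  Equiv.sumCongr (Equiv.prodComm _ _) (Equiv.prodComm _ _)

theorem orth_rect (m : ℕ) : Orth (a0 (m := m)) b0 (right m) (a0 ∘ tau m) (b0 ∘ tau m)
    (insert none (right m)) := by
  intro f g hf hg
  have hR : ∀ y, node m (m + 1) y ∈ right m := by
    intro y
    rw [right, mem_image]
    refine ⟨Fin.ofNat (m + 1) y, mem_univ _, ?_⟩
    rw [node, if_neg (Nat.succ_ne_zero _), Nat.add_sub_cancel]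
    congr 2
    apply Fin.ext
    simp [Fin.ofNat, Fin.last]
  have key := grid_orth (m := m) (fun x y => f (node m x y)) (fun x y => g (node m x y))
    (fun y => rfl) (fun y => hf _ (hR y) _ (hR 0)) (g none) (fun y => rfl)
    (fun y => hg _ (mem_insert_of_mem (hR y)) _ (mem_insert_self _ _))
  rw [← key, Fintype.sum_sum_type, Fintype.sum_prod_type, Fintype.sum_prod_type]
  congr 1
  · rw [← Fin.sum_univ_eq_sum_range (fun i => ∑ j ∈ range (m + 1),
      (f (node m i j) + f (node m (i + 1) j)) * (g (node m j i) + g (node m (j + 1) i)))]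
    refine sum_congr rfl fun i _ => ?_
    rw [← Fin.sum_univ_eq_sum_range (fun j =>
      (f (node m i j) + f (node m (i + 1) j)) * (g (node m j i) + g (node m (j + 1) i)))]
    refine sum_congr rfl fun j _ => ?_
    have h1 : tau m (Sum.inl (i, j)) = Sum.inl (j, i) := rfl
    rw [Function.comp_apply, Function.comp_apply, h1, a0_h, b0_h, a0_h, b0_h]
  · rw [← Fin.sum_univ_eq_sum_range (fun i => ∑ j ∈ range m,
      (f (node m (i + 1) j) + f (node m (i + 1) (j + 1))) *
        (g (node m (j + 1) i) + g (node m (j + 1) (i + 1))))]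
    refine sum_congr rfl fun i _ => ?_
    rw [← Fin.sum_univ_eq_sum_range (fun j =>
      (f (node m (i + 1) j) + f (node m (i + 1) (j + 1))) *
        (g (node m (j + 1) i) + g (node m (j + 1) (i + 1))))]
    refine sum_congr rfl fun j _ => ?_
    have h1 : tau m (Sum.inr (i, j)) = Sum.inr (j, i) := rfl
    rw [Function.comp_apply, Function.comp_apply, h1, a0_v, b0_v, a0_v, b0_v]

/-! ### The counts -/

theorem card_right (m : ℕ) : (right m).card = m + 1 := by
  rw [right, card_image_of_injective, card_univ, Fintype.card_fin]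
  intro y y' h
  simpa using h

theorem none_notMem_right (m : ℕ) : (none : V0 m) ∉ right m := by
  rw [right, mem_image]
  rintro ⟨y, -, h⟩
  exact absurd h (by simp)

theorem card_V0 (m : ℕ) : Fintype.card (V0 m) = (m + 1) * (m + 1) + 1 := by
  simp [Fintype.card_option]

theorem clusters_univ_le (m : ℕ) {W : Finset (V0 m)} (hW : right m ⊆ W) :
    clusters (a0 (m := m)) b0 W univ ≤ 1 := by
  rw [clusters]
  have hne : ∀ i y : Fin (m + 1), Relation.EqvGen
      (fun x y => OpenAdj (a0 (m := m)) b0 univ x y ∨ (x ∈ W ∧ y ∈ W)) (node m i y)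
      (node m (i + 1) y) := by
    intro i y
    exact Relation.EqvGen.rel _ _ (Or.inl ⟨Sum.inl (i, y), mem_univ _, a0_h i y, b0_h i y⟩)
  have hrow : ∀ (k : ℕ) (i : ℕ), i + k = m + 1 → ∀ y : Fin (m + 1), Relation.EqvGen
      (fun x y => OpenAdj (a0 (m := m)) b0 univ x y ∨ (x ∈ W ∧ y ∈ W)) (node m i y)
      (node m (m + 1) y) := by
    intro k
    induction k with
    | zero =>
      intro i hi y
      rw [add_zero] at hi
      rw [hi]
      exact Relation.EqvGen.refl _
    | succ k ih =>
      intro i hi y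
      refine Relation.EqvGen.trans _ _ _ (hne ⟨i, by omega⟩ y) (ih (i + 1) (by omega) y)
  have hlast : ∀ y : Fin (m + 1), node m (m + 1) y = some (Fin.last m, y) := by
    intro y
    have := node_succ (Fin.last m) y
    rwa [Fin.val_last] at this
  have hW' : ∀ y : Fin (m + 1), node m (m + 1) y ∈ W := by
    intro y
    rw [hlast]
    exact hW (mem_image_of_mem _ (mem_univ y))
  have hall : ∀ v : V0 m, Relation.EqvGen
      (fun x y => OpenAdj (a0 (m := m)) b0 univ x y ∨ (x ∈ W ∧ y ∈ W)) v
      (node m (m + 1) (0 : Fin (m + 1))) := by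
    intro v
    rcases v with _ | ⟨x, y⟩
    · have := hrow (m + 1) 0 (by omega) 0
      exact this
    · have h1 := hrow (m - x) (x + 1) (by have := x.2; omega) y
      rw [node_succ] at h1
      exact Relation.EqvGen.trans _ _ _ h1 (Relation.EqvGen.rel _ _ (Or.inr ⟨hW' y, hW' 0⟩))
  have : Subsingleton (Quot fun x y =>
      OpenAdj (a0 (m := m)) b0 univ x y ∨ (x ∈ W ∧ y ∈ W)) := by
    refine ⟨fun u v => ?_⟩
    obtain ⟨u, rfl⟩ := Quot.exists_rep u
    obtain ⟨v, rfl⟩ := Quot.exists_rep v
    exact Quot.eqvGen_sound (Relation.EqvGen.trans _ _ _ (hall u)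
      (Relation.EqvGen.symm _ _ (hall v)))
  exact Finite.card_le_one_iff_subsingleton.2 this

theorem one_le_clusters {V E : Type*} [Fintype V] [DecidableEq V] [Fintype E] [DecidableEq E]
    (a b : E → V) {W : Finset V} (hW : W.Nonempty) (ω : Finset E) : 1 ≤ clusters a b W ω := by
  classical
  rw [clusters_eq, if_neg (nonempty_iff_ne_empty.1 hW)]
  omega

theorem clusters_comp {V E : Type*} [Fintype V] [DecidableEq V] [Fintype E] [DecidableEq E]
    (a b : E → V) (W : Finset V) (t : E ≃ E) (ω : Finset E) :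
    clusters (a ∘ t) (b ∘ t) W ω = clusters a b W (ω.map t.toEmbedding) := by
  have h : ∀ x y, OpenAdj (a ∘ t) (b ∘ t) ω x y ↔ OpenAdj a b (ω.map t.toEmbedding) x y := by
    intro x y
    constructor
    · rintro ⟨e, he, h1, h2⟩
      exact ⟨t e, mem_map.2 ⟨e, he, rfl⟩, h1, h2⟩
    · rintro ⟨e, he, h1, h2⟩
      obtain ⟨e', he', rfl⟩ := mem_map.1 he
      exact ⟨e', he', h1, h2⟩
  rw [clusters, clusters]
  congr 2
  funext x y
  rw [h]

/-- The dual configuration. -/
def star {m : ℕ} (ω : Finset (E0 m)) : Finset (E0 m) := ωᶜ.map (tau m).toEmbedding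

theorem tau_tau {m : ℕ} (e : E0 m) : tau m (tau m e) = e := by
  rcases e with ⟨i, j⟩ | ⟨i, j⟩ <;> rfl

theorem mem_star {m : ℕ} {ω : Finset (E0 m)} {e : E0 m} : e ∈ star ω ↔ tau m e ∉ ω := by
  rw [star, mem_map]
  constructor
  · rintro ⟨e', he', rfl⟩
    rw [Equiv.coe_toEmbedding, tau_tau]
    exact mem_compl.1 he'
  · intro h
    exact ⟨tau m e, mem_compl.2 h, tau_tau e⟩

theorem star_star {m : ℕ} (ω : Finset (E0 m)) : star (star ω) = ω := by
  ext e
  rw [mem_star, mem_star, tau_tau, not_not]

theorem card_star {m : ℕ} (ω : Finset (E0 m)) :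
    (star ω).card + ω.card = (m + 1) * (m + 1) + m * m := by
  rw [star, card_map, add_comm, card_add_card_compl]
  simp

/-- The number of clusters with the right side wired, separately from the left side. -/
noncomputable def ks {m : ℕ} (ω : Finset (E0 m)) : ℕ := clusters a0 b0 (right m) ω

/-- The number of clusters with the right side wired, together with the left side. -/
noncomputable def kt {m : ℕ} (ω : Finset (E0 m)) : ℕ :=
  clusters a0 b0 (insert none (right m)) ω

theorem euler_rect {m : ℕ} (ω : Finset (E0 m)) :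
    kt (star ω) + (m * m + m + 1) = ks ω + ω.card := by
  have hdual := clusters_comp (a0 (m := m)) b0 (insert none (right m)) (tau m)
  have hs := clusters_univ_le m (subset_refl (right m))
  have ht := clusters_univ_le m (subset_insert none (right m))
  have hmap : (univ : Finset (E0 m)).map (tau m).toEmbedding = univ := by
    ext e
    simp
  have hne : (right m).Nonempty := ⟨_, mem_image_of_mem _ (mem_univ 0)⟩
  have hcs : clusters (a0 (m := m)) b0 (right m) ∅ + (m + 1) = (m + 1) * (m + 1) + 2 := by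
    rw [clusters_empty, if_neg (nonempty_iff_ne_empty.1 hne)]
    have h1 : (right m)ᶜ.card + (right m).card = Fintype.card (V0 m) := by
      rw [add_comm]; exact card_add_card_compl _
    rw [card_right, card_V0] at h1
    omega
  have hct : clusters (a0 ∘ tau m) (b0 ∘ tau m) (insert none (right m)) ∅ + (m + 2) =
      (m + 1) * (m + 1) + 2 := by
    rw [clusters_empty, if_neg (nonempty_iff_ne_empty.1 (insert_nonempty _ _))]
    have h1 : (insert none (right m))ᶜ.card + (insert none (right m)).card =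
        Fintype.card (V0 m) := by
      rw [add_comm]; exact card_add_card_compl _
    rw [card_insert_of_notMem (none_notMem_right m), card_right, card_V0] at h1
    omega
  have hE : Fintype.card (E0 m) = (m + 1) * (m + 1) + m * m := by
    simp
  have hq : (m + 1) * (m + 1) = m * m + 2 * m + 1 := by ring
  have h := euler_eq (orth_rect m) (by
    rw [hdual univ, hmap, hE]
    omega) ω
  have h1 := one_le_clusters (a0 (m := m)) b0 (insert_nonempty none (right m)) univ
  rw [hdual, hdual, hmap] at h
  have h2 : kt (star ω) = clusters a0 b0 (insert none (right m)) (ωᶜ.map (tau m).toEmbedding) :=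
    rfl
  have h3 : ks ω = clusters a0 b0 (right m) ω := rfl
  rw [h2, h3]
  omega

/-- The crossing event. -/
def Cross {m : ℕ} (ω : Finset (E0 m)) : Prop := ∃ z ∈ right m, conf a0 b0 ω none z

theorem kt_cross {m : ℕ} {ω : Finset (E0 m)} (h : Cross ω) : kt ω = ks ω :=
  clusters_hit ⟨_, mem_image_of_mem _ (mem_univ 0)⟩ h

theorem kt_not_cross {m : ℕ} {ω : Finset (E0 m)} (h : ¬ Cross ω) : kt ω + 1 = ks ω :=
  clusters_miss ⟨_, mem_image_of_mem _ (mem_univ 0)⟩ h

/-- **Duality of the crossings.** -/
theorem cross_star {m : ℕ} (ω : Finset (E0 m)) : Cross (star ω) ↔ ¬ Cross ω := by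
  have h1 := euler_rect ω
  have h2 := euler_rect (star ω)
  rw [star_star] at h2
  have h3 := card_star ω
  have hq : (m + 1) * (m + 1) = m * m + 2 * m + 1 := by ring
  constructor
  · intro h4 h5
    have := kt_cross h4
    have := kt_cross h5
    omega
  · intro h4
    by_contra h5
    have := kt_not_cross h4
    have := kt_not_cross h5
    omega

theorem exponent {m : ℕ} {ω : Finset (E0 m)} (h : Cross ω) :
    (star ω).card + 2 * ks (star ω) = ω.card + 2 * ks ω + 1 := by
  have h1 := euler_rect ω
  have h2 := euler_rect (star ω)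
  rw [star_star] at h2
  have h3 := card_star ω
  have hq : (m + 1) * (m + 1) = m * m + 2 * m + 1 := by ring
  have h4 := kt_cross h
  omega

end Vale.Agent.P167.H623
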