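import Vale.Agent.P167.H623.Two

/-!
The crossing bounds at the self-dual point.
-/

namespace Vale.Agent.P167.H623

open Finset

set_option linter.unusedSectionVars false

variable {m k : ℕ} {q : ℝ}

theorem cross2_left_single (p : RE m k → ℝ) (q : ℝ) {y : RV m k} (hy : y ∉ left m k) :
    cross2 ra rb p q (left m k) {y} = prob ra rb p q (left m k) (Hit ra rb {y} (left m k)) := by
  have h1 : Disjoint (left m k) {y} := disjoint_singleton_right.2 hy
  rw [cross2_contr (contr_con m k) h1, image_singleton, prob_con]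

theorem le_one_div (hq : 0 < q) (hq1 : q ≤ 1) {A B : Finset (RV m k)} (hA : A ⊆ left m k)
    (hB : B ⊆ far m k) :
    cross2 ra rb (fun _ => selfDual q) q A B ≤ 1 / (1 + √q) := by
  rw [← cross2_rect m k hq]
  exact cross2_mono ra rb (fun _ => selfDual_mem hq) hq hq1 hA hB (left_far m k)

theorem one_div_le (hq : 0 < q) (hq1 : q ≤ 1) {A B : Finset (RV m k)} (hA : left m k ⊆ A)
    (hB : far m k ⊆ B) (hAB : Disjoint A B) :
    1 / (1 + √q) ≤ cross2 ra rb (fun _ => selfDual q) q A B := by
  rw [← cross2_rect m k hq]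
  exact cross2_mono ra rb (fun _ => selfDual_mem hq) hq hq1 hA hB hAB

theorem cover_bound (hq : 0 < q) (hq1 : q ≤ 1) (r s : ℕ) (A : Fin r → Finset (RV m k))
    (B : Fin s → Finset (RV m k)) (hA : left m k ⊆ univ.biUnion A)
    (hB : far m k ⊆ univ.biUnion B) (hAB : Disjoint (univ.biUnion A) (univ.biUnion B)) :
    1 / (1 + √q) ≤ ∑ i, ∑ j, cross2 ra rb (fun _ => selfDual q) q (A i) (B j) :=
  (one_div_le hq hq1 hA hB hAB).trans
    (cross2_cover ra rb (fun _ => selfDual_mem hq) hq hq1 univ univ A B hAB)

theorem free_bound (hq : 0 < q) (hq1 : q ≤ 1) :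
    1 / (1 + √q) ≤ ∑ x ∈ left m k, ∑ y ∈ far m k,
      prob ra rb (fun _ => selfDual q) q ∅ (fun ω => Conn ra rb ω x y) := by
  have hA : (left m k).biUnion (fun x => ({x} : Finset (RV m k))) = left m k :=
    biUnion_singleton_eq_self
  have hB : (far m k).biUnion (fun x => ({x} : Finset (RV m k))) = far m k :=
    biUnion_singleton_eq_self
  have h := cross2_cover ra rb (fun _ => selfDual_mem hq) hq hq1 (left m k) (far m k)
    (fun x => ({x} : Finset (RV m k))) (fun x => ({x} : Finset (RV m k)))
    (by rw [hA, hB]; exact left_far m k)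
  rw [hA, hB, cross2_rect m k hq] at h
  refine h.trans (le_of_eq ?_)
  exact sum_congr rfl fun x _ => sum_congr rfl fun y _ => cross2_single _ _ _ _ _ _

theorem wired_bound (hq : 0 < q) (hq1 : q ≤ 1) :
    1 / (1 + √q) ≤ ∑ y ∈ far m k, prob ra rb (fun _ => selfDual q) q (left m k)
      (Hit ra rb {y} (left m k)) := by
  have hB : (far m k).biUnion (fun x => ({x} : Finset (RV m k))) = far m k :=
    biUnion_singleton_eq_self
  have h := cross2_biUnion ra rb (fun _ => selfDual_mem hq) hq hq1 (A := left m k) (far m k)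
    (fun x => ({x} : Finset (RV m k))) (by rw [hB]; exact left_far m k)
  rw [hB, cross2_rect m k hq] at h
  refine h.trans (le_of_eq ?_)
  refine sum_congr rfl fun y hy => ?_
  exact cross2_left_single _ _ fun h => disjoint_left.1 (left_far m k) h hy

theorem wired_le (hq : 0 < q) (hq1 : q ≤ 1) {y : RV m k} (hy : y ∈ far m k) :
    prob ra rb (fun _ => selfDual q) q (left m k) (Hit ra rb {y} (left m k)) ≤
      1 / (1 + √q) := by
  rw [← cross2_left_single _ _ fun h => disjoint_left.1 (left_far m k) h hy]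
  exact le_one_div hq hq1 subset_rfl (singleton_subset_iff.2 hy)

theorem card_left : (left m k).card = m + 1 := by
  have h : left m k = univ.image fun y : Fin (m + 1) => ((⟨0, by omega⟩, y) : RV m k) := by
    ext v
    rw [mem_left, mem_image]
    constructor
    · intro h
      exact ⟨v.2, mem_univ _, Prod.ext (Fin.ext h.symm) rfl⟩
    · rintro ⟨y, -, rfl⟩
      rfl
  rw [h, card_image_of_injective, card_univ, Fintype.card_fin]
  intro y y' h
  simpa using h

theorem card_far_zero : (far m 0).card = m + 1 := by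
  have h : far m 0 = univ.image fun y : Fin (m + 1) => ((⟨m + 1, by omega⟩, y) : RV m 0) := by
    ext v
    rw [mem_far, mem_image]
    constructor
    · intro h
      refine ⟨v.2, mem_univ _, Prod.ext (Fin.ext ?_) rfl⟩
      have := v.1.2
      change m + 1 = (v.1 : ℕ)
      omega
    · rintro ⟨y, -, rfl⟩
      exact le_rfl
  rw [h, card_image_of_injective, card_univ, Fintype.card_fin]
  intro y y' h
  simpa using h

/-- Two vertices of opposite sides which are joined with a probability not too small. -/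
theorem two_point (m : ℕ) (hq : 0 < q) (hq1 : q ≤ 1) :
    ∃ x ∈ left m 0, ∃ y ∈ far m 0, 1 / ((1 + √q) * (m + 1) ^ 2) ≤
      prob ra rb (fun _ => selfDual q) q ∅ (fun ω => Conn ra rb ω x y) := by
  by_contra hn
  push Not at hn
  have hr : 0 < √q := Real.sqrt_pos.2 hq
  have h1 := free_bound (m := m) (k := 0) hq hq1
  have h2 : ∑ x ∈ left m 0, ∑ y ∈ far m 0,
      prob ra rb (fun _ => selfDual q) q ∅ (fun ω => Conn ra rb ω x y) <
      ∑ x ∈ left m 0, ∑ y ∈ far m 0, 1 / ((1 + √q) * ((m : ℝ) + 1) ^ 2) := by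
    have hl : (left m 0).Nonempty := by
      rw [← card_pos, card_left]; omega
    have hf : (far m 0).Nonempty := by
      rw [← card_pos, card_far_zero]; omega
    exact sum_lt_sum_of_nonempty hl fun x hx => sum_lt_sum_of_nonempty hf fun y hy => hn x hx y hy
  rw [sum_const, sum_const, card_left, card_far_zero, nsmul_eq_mul, nsmul_eq_mul] at h2
  have h3 : ((m + 1 : ℕ) : ℝ) * (((m + 1 : ℕ) : ℝ) * (1 / ((1 + √q) * ((m : ℝ) + 1) ^ 2))) =
      1 / (1 + √q) := by
    push_cast
    field_simp
  rw [h3] at h2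
  linarith

end Vale.Agent.P167.H623
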