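import Vale.Agent.P167.H623.Expand

/-!
Totally monotone functions on the subsets of a finite set: sums `f D = ∑ A ⊆ D, c A` with
nonnegative coefficients `c`.
-/

namespace Vale.Agent.P167.H623

open Finset

set_option linter.unusedSectionVars false

variable {V : Type*} [DecidableEq V]

theorem sum_sup_powerset {U D : Finset V} (h : U ⊆ D) (G : Finset V → ℝ) :
    ∑ A ∈ D.powerset with U ⊆ A, G A = ∑ A ∈ (D \ U).powerset, G (U ∪ A) := by
  refine sum_nbij' (fun A => A \ U) (fun A => U ∪ A) ?_ ?_ ?_ ?_ ?_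
  · intro A hA
    rw [mem_filter, mem_powerset] at hA
    exact mem_powerset.2 (sdiff_subset_sdiff hA.1 subset_rfl)
  · intro A hA
    rw [mem_powerset] at hA
    rw [mem_filter, mem_powerset]
    exact ⟨union_subset h (hA.trans sdiff_subset), subset_union_left⟩
  · intro A hA
    rw [mem_filter] at hA
    exact union_sdiff_of_subset hA.2
  · intro A hA
    rw [mem_powerset] at hA
    have : Disjoint A U := disjoint_left.2 fun x hx hx' => (mem_sdiff.1 (hA hx)).2 hx'
    rw [union_sdiff_left]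
    exact sdiff_eq_self_of_disjoint this
  · intro A hA
    rw [mem_filter] at hA
    rw [union_sdiff_of_subset hA.2]

/-- `f` is a sum over the subsets with nonnegative coefficients, on the subsets of `S`. -/
def TM (S : Finset V) (f : Finset V → ℝ) : Prop :=
  ∃ c : Finset V → ℝ, (∀ A, 0 ≤ c A) ∧ ∀ D ⊆ S, f D = ∑ A ∈ D.powerset, c A

theorem TM.congr {S : Finset V} {f g : Finset V → ℝ} (h : TM S f) (hfg : ∀ D ⊆ S, f D = g D) :
    TM S g := by
  obtain ⟨c, h0, h1⟩ := h
  exact ⟨c, h0, fun D hD => (hfg D hD).symm.trans (h1 D hD)⟩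

theorem TM.nonneg {S : Finset V} {f : Finset V → ℝ} (h : TM S f) {D : Finset V} (hD : D ⊆ S) :
    0 ≤ f D := by
  obtain ⟨c, h0, h1⟩ := h
  rw [h1 D hD]
  exact sum_nonneg fun A _ => h0 A

theorem TM.zero (S : Finset V) : TM S fun _ => 0 :=
  ⟨fun _ => 0, fun _ => le_rfl, fun D _ => by simp⟩

theorem TM.one (S : Finset V) : TM S fun _ => 1 :=
  ⟨fun A => if A = ∅ then 1 else 0, fun A => by beta_reduce; split_ifs <;> simp,
    fun D _ => by simp⟩

theorem TM.add {S : Finset V} {f g : Finset V → ℝ} (hf : TM S f) (hg : TM S g) :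
    TM S fun D => f D + g D := by
  obtain ⟨c, h0, h1⟩ := hf
  obtain ⟨d, k0, k1⟩ := hg
  exact ⟨fun A => c A + d A, fun A => add_nonneg (h0 A) (k0 A), fun D hD => by
    beta_reduce; rw [h1 D hD, k1 D hD, sum_add_distrib]⟩

theorem TM.smul {S : Finset V} {f : Finset V → ℝ} {k : ℝ} (hk : 0 ≤ k) (hf : TM S f) :
    TM S fun D => k * f D := by
  obtain ⟨c, h0, h1⟩ := hf
  exact ⟨fun A => k * c A, fun A => mul_nonneg hk (h0 A), fun D hD => by
    beta_reduce; rw [h1 D hD, mul_sum]⟩

theorem TM.sum {ι : Type*} [DecidableEq ι] (I : Finset ι) {S : Finset V}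
    {f : ι → Finset V → ℝ} (h : ∀ i ∈ I, TM S (f i)) : TM S fun D => ∑ i ∈ I, f i D := by
  induction I using Finset.induction_on with
  | empty => simpa using TM.zero S
  | insert i I hi ih =>
    have := (h i (mem_insert_self i I)).add (ih fun j hj => h j (mem_insert_of_mem hj))
    exact this.congr fun D _ => by rw [sum_insert hi]

theorem TM.mul {S : Finset V} {f g : Finset V → ℝ} (hf : TM S f) (hg : TM S g) :
    TM S fun D => f D * g D := by
  obtain ⟨c, h0, h1⟩ := hf
  obtain ⟨d, k0, k1⟩ := hg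
  refine ⟨fun C => ∑ x ∈ C.powerset ×ˢ C.powerset with x.1 ∪ x.2 = C, c x.1 * d x.2,
    fun C => sum_nonneg fun x _ => mul_nonneg (h0 _) (k0 _), fun D hD => ?_⟩
  beta_reduce
  rw [h1 D hD, k1 D hD, sum_mul_sum, ← sum_product']
  rw [← sum_fiberwise_of_maps_to (g := fun x : Finset V × Finset V => x.1 ∪ x.2)
    (t := D.powerset)]
  · refine sum_congr rfl fun C hC => ?_
    rw [mem_powerset] at hC
    refine sum_congr ?_ fun _ _ => rfl
    ext x
    simp only [mem_filter, mem_product, mem_powerset]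
    constructor
    · rintro ⟨-, h⟩
      exact ⟨⟨h ▸ subset_union_left, h ▸ subset_union_right⟩, h⟩
    · rintro ⟨h, h'⟩
      exact ⟨⟨h.1.trans hC, h.2.trans hC⟩, h'⟩
  · intro x hx
    rw [mem_product, mem_powerset, mem_powerset] at hx
    exact mem_powerset.2 (union_subset hx.1 hx.2)

theorem TM.pow {S : Finset V} {f : Finset V → ℝ} (hf : TM S f) (n : ℕ) :
    TM S fun D => f D ^ n := by
  induction n with
  | zero => exact (TM.one S).congr fun D _ => by simp
  | succ n ih => exact (ih.mul hf).congr fun D _ => by rw [pow_succ]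

theorem TM.shift {S U : Finset V} {g : Finset V → ℝ} (h : TM (S \ U) g) :
    TM S fun D => if U ⊆ D then g (D \ U) else 0 := by
  obtain ⟨c, h0, h1⟩ := h
  refine ⟨fun A => if U ⊆ A then c (A \ U) else 0, fun A => ?_, fun D hD => ?_⟩
  · beta_reduce
    split_ifs
    · exact h0 _
    · exact le_rfl
  · beta_reduce
    split_ifs with hU
    · rw [← sum_filter, sum_sup_powerset hU, h1 _ (sdiff_subset_sdiff hD subset_rfl)]
      refine sum_congr rfl fun A hA => ?_
      rw [mem_powerset] at hA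
      have : Disjoint A U := disjoint_left.2 fun x hx hx' => (mem_sdiff.1 (hA hx)).2 hx'
      rw [union_sdiff_left, sdiff_eq_self_of_disjoint this]
    · rw [sum_eq_zero]
      intro A hA
      rw [mem_powerset] at hA
      rw [if_neg fun h => hU (h.trans hA)]

theorem TM.restrict {S U : Finset V} (hd : Disjoint S U) {f : Finset V → ℝ}
    (h : TM (S ∪ U) f) : TM S fun D => f (D ∪ U) := by
  obtain ⟨c, h0, h1⟩ := h
  refine ⟨fun A => ∑ B ∈ U.powerset, c (A ∪ B), fun A => sum_nonneg fun _ _ => h0 _,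
    fun D hD => ?_⟩
  beta_reduce
  rw [h1 _ (union_subset_union_left hD), sum_powerset_union' (hd.mono_left hD)]

theorem TM.inv {S : Finset V} {f : Finset V → ℝ} (h : TM S f) (h1 : ∀ D ⊆ S, f D < 1) :
    TM S fun D => (1 - f D)⁻¹ := by
  choose c hc0 hc' using fun n => h.pow n
  have hc : ∀ n, ∀ D ⊆ S, f D ^ n = ∑ A ∈ D.powerset, c n A := hc'
  have hs : ∀ A ⊆ S, Summable fun n => c n A := by
    intro A hA
    refine Summable.of_nonneg_of_le (fun n => hc0 n A) (fun n => ?_)
      (summable_geometric_of_lt_one (h.nonneg hA) (h1 A hA))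
    rw [hc n A hA]
    exact single_le_sum (f := c n) (fun B _ => hc0 n B) (mem_powerset.2 subset_rfl)
  refine ⟨fun A => ∑' n, c n A, fun A => tsum_nonneg fun n => hc0 n A, fun D hD => ?_⟩
  beta_reduce
  rw [← tsum_geometric_of_lt_one (h.nonneg hD) (h1 D hD),
    ← Summable.tsum_finsetSum fun A hA => hs A ((mem_powerset.1 hA).trans hD)]
  exact tsum_congr fun n => hc n D hD

end Vale.Agent.P167.H623
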