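import Vale.Agent.P167.H623.Defs

/-!
The random-cluster measure with two wired sets.
-/

namespace Vale.Agent.P167.H623

open Finset

variable {V E : Type*} [Fintype V] [DecidableEq V] [Fintype E] [DecidableEq E]

/-- The number of open clusters, isolated vertices included, after the vertices of `A` have been
identified with each other and the vertices of `B` have been identified with each other. -/
noncomputable def clusters2 (a b : E → V) (A B : Finset V) (ω : Finset E) : ℕ :=
  Nat.card (Quot fun x y => OpenAdj a b ω x y ∨ (x ∈ A ∧ y ∈ A) ∨ (x ∈ B ∧ y ∈ B))

/-- The random-cluster weight of `ω` with `A` and `B` wired (two blocks). -/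
noncomputable def weight2 (a b : E → V) (p : E → ℝ) (q : ℝ) (A B : Finset V) (ω : Finset E) : ℝ :=
  (∏ e ∈ ω, p e) * (∏ e ∈ ωᶜ, (1 - p e)) * q ^ clusters2 a b A B ω

open Classical in
/-- The probability that some open path joins `A` and `B`, for the random-cluster measure in which
`A` and `B` are wired, separately (two blocks). -/
noncomputable def cross2 (a b : E → V) (p : E → ℝ) (q : ℝ) (A B : Finset V) : ℝ :=
  (∑ ω with Hit a b A B ω, weight2 a b p q A B ω) / ∑ ω, weight2 a b p q A B ω

end Vale.Agent.P167.H623
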