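import Vale.Agent.P167.H623.Cross
import Vale.Agent.P167.H623.TwoDefs

/-!
Two wired sets: contraction of one of them, monotonicity, subadditivity, crossing bounds.
-/

namespace Vale.Agent.P167.H623

open Finset

set_option linter.unusedSectionVars false

variable {V E : Type*} [Fintype V] [DecidableEq V] [Fintype E] [DecidableEq E]
  {V₁ : Type*} [Fintype V₁] [DecidableEq V₁]

/-- The partition with two wired sets. -/
def pt2 (a b : E → V) (A B : Finset V) (ω : Finset E) : Setoid V :=
  wire A ⊔ wire B ⊔ conf a b ω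

theorem clusters2_pt (a b : E → V) (A B : Finset V) (ω : Finset E) :
    clusters2 a b A B ω = (classes (pt2 a b A B ω)).card := by
  refine card_quot_classes ?_ ?_
  · rintro x y (⟨e, he, rfl, rfl⟩ | h | h)
    · exact (le_sup_right : conf a b ω ≤ pt2 a b A B ω) (conf_edge a b he)
    · exact (le_sup_left.trans le_sup_left : wire A ≤ pt2 a b A B ω) (Or.inr h)
    · exact (le_sup_right.trans le_sup_left : wire B ≤ pt2 a b A B ω) (Or.inr h)
  · intro x y h
    have h1 : pt2 a b A B ω ≤ Relation.EqvGen.setoid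
        (fun x y => OpenAdj a b ω x y ∨ (x ∈ A ∧ y ∈ A) ∨ (x ∈ B ∧ y ∈ B)) := by
      refine sup_le (sup_le ?_ ?_) ?_
      · rintro u v (k | k)
        · subst k; exact Relation.EqvGen.refl _
        · exact Relation.EqvGen.rel _ _ (Or.inr (Or.inl k))
      · rintro u v (k | k)
        · subst k; exact Relation.EqvGen.refl _
        · exact Relation.EqvGen.rel _ _ (Or.inr (Or.inr k))
      · exact (conf_le_iff a b).2 fun e he => Relation.EqvGen.rel _ _ (Or.inl ⟨e, he, rfl, rfl⟩)
    exact h1 h

/-- `c` contracts `A` to the point `z`. -/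
structure Contr (c : V → V₁) (A : Finset V) (z : V₁) : Prop where
  surj : Function.Surjective c
  mem : ∀ x, c x = z ↔ x ∈ A
  inj : ∀ x y, c x = c y → x = y ∨ (x ∈ A ∧ y ∈ A)

theorem pt_contr {c : V → V₁} {A : Finset V} {z : V₁} (hc : Contr c A z) {B : Finset V}
    (hAB : Disjoint A B) (a b : E → V) (ω : Finset E) (x y : V) :
    pt (c ∘ a) (c ∘ b) (B.image c) ω (c x) (c y) ↔ pt2 a b A B ω x y := by
  have h1 : ∀ x y : V, c x = c y → pt2 a b A B ω x y := by
    intro x y h
    rcases hc.inj x y h with rfl | h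
    · exact Setoid.refl' _ _
    · exact (le_sup_left.trans le_sup_left : wire A ≤ pt2 a b A B ω) (Or.inr h)
  have hB : ∀ x, c x ∈ B.image c → x ∈ B := by
    intro x hx
    obtain ⟨y, hy, hyx⟩ := mem_image.1 hx
    rcases hc.inj y x hyx with rfl | h
    · exact hy
    · exact absurd hy (disjoint_left.1 hAB h.1)
  constructor
  · intro h
    have h2 : pt (c ∘ a) (c ∘ b) (B.image c) ω ≤ pull c hc.surj (pt2 a b A B ω) h1 := by
      refine sup_le ?_ ?_
      · rintro u v (k | ⟨k, k'⟩)
        · subst k; exact Setoid.refl' _ _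
        · rintro x y rfl rfl
          exact (le_sup_right.trans le_sup_left : wire B ≤ pt2 a b A B ω)
            (Or.inr ⟨hB x k, hB y k'⟩)
      · rw [conf_le_iff]
        intro e he x y hx hy
        have h3 : pt2 a b A B ω (a e) (b e) :=
          (le_sup_right : conf a b ω ≤ _) (conf_edge a b he)
        exact Setoid.trans' _ (h1 _ _ hx) (Setoid.trans' _ h3 (h1 _ _ hy.symm))
    exact h2 h x y rfl rfl
  · intro h
    have h2 : pt2 a b A B ω ≤
        (⟨fun x y => pt (c ∘ a) (c ∘ b) (B.image c) ω (c x) (c y),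
          fun x => Setoid.refl' _ _, fun h => Setoid.symm' _ h,
          fun h h' => Setoid.trans' _ h h'⟩ : Setoid V) := by
      refine sup_le (sup_le ?_ ?_) ?_
      · rintro u v (k | ⟨k, k'⟩)
        · subst k; exact Setoid.refl' _ _
        · change pt (c ∘ a) (c ∘ b) (B.image c) ω (c u) (c v)
          rw [(hc.mem u).2 k, (hc.mem v).2 k']
      · rintro u v (k | ⟨k, k'⟩)
        · subst k; exact Setoid.refl' _ _
        · exact (le_sup_left : wire (B.image c) ≤ _)
            (Or.inr ⟨mem_image_of_mem c k, mem_image_of_mem c k'⟩)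
      · rw [conf_le_iff]
        intro e he
        exact (le_sup_right : conf (c ∘ a) (c ∘ b) ω ≤ _) (conf_edge (c ∘ a) (c ∘ b) he)
    exact h2 h

theorem clusters_contr {c : V → V₁} {A : Finset V} {z : V₁} (hc : Contr c A z) {B : Finset V}
    (hAB : Disjoint A B) (a b : E → V) (ω : Finset E) :
    clusters (c ∘ a) (c ∘ b) (B.image c) ω = clusters2 a b A B ω := by
  rw [clusters_pt, clusters2_pt]
  exact card_map_classes c hc.surj (fun x y h => (pt_contr hc hAB a b ω x y).2 h)
    fun x y h => (pt_contr hc hAB a b ω x y).1 h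

theorem hit_conf {a b : E → V} {A B : Finset V} {ω : Finset E} :
    Hit a b A B ω ↔ ∃ x ∈ A, ∃ y ∈ B, conf a b ω x y := by
  constructor
  · rintro ⟨x, hx, y, hy, h⟩
    exact ⟨x, hx, y, hy, (conn_iff a b ω _ _).1 h⟩
  · rintro ⟨x, hx, y, hy, h⟩
    exact ⟨x, hx, y, hy, (conn_iff a b ω _ _).2 h⟩

theorem pt2_hit {a b : E → V} {A B : Finset V} {ω : Finset E} {x y : V} (hx : x ∈ A)
    (hy : y ∈ B) : pt2 a b A B ω x y ↔ Hit a b A B ω := by
  rw [hit_conf]
  constructor
  · intro h
    by_contra hn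
    push Not at hn
    have h1 : pt2 a b A B ω ≤ (⟨fun u v => ((∃ w ∈ A, conf a b ω w u) ↔ ∃ w ∈ A, conf a b ω w v),
        fun _ => Iff.rfl, fun h => h.symm, fun h h' => h.trans h'⟩ : Setoid V) := by
      refine sup_le (sup_le ?_ ?_) ?_
      · rintro u v (k | ⟨k, k'⟩)
        · subst k; exact Iff.rfl
        · exact ⟨fun _ => ⟨v, k', Setoid.refl' _ _⟩, fun _ => ⟨u, k, Setoid.refl' _ _⟩⟩
      · rintro u v (k | ⟨k, k'⟩)
        · subst k; exact Iff.rfl
        · constructor
          · rintro ⟨w, hw, hwu⟩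
            exact absurd hwu (hn w hw u k)
          · rintro ⟨w, hw, hwv⟩
            exact absurd hwv (hn w hw v k')
      · intro u v k
        constructor
        · rintro ⟨w, hw, hwu⟩
          exact ⟨w, hw, Setoid.trans' _ hwu k⟩
        · rintro ⟨w, hw, hwv⟩
          exact ⟨w, hw, Setoid.trans' _ hwv (Setoid.symm' _ k)⟩
    obtain ⟨w, hw, hwy⟩ := (h1 h).1 ⟨x, hx, Setoid.refl' _ _⟩
    exact hn w hw y hy hwy
  · rintro ⟨u, hu, v, hv, huv⟩
    have hA : pt2 a b A B ω x u :=
      (le_sup_left.trans le_sup_left : wire A ≤ pt2 a b A B ω) (Or.inr ⟨hx, hu⟩)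
    have hB : pt2 a b A B ω v y :=
      (le_sup_right.trans le_sup_left : wire B ≤ pt2 a b A B ω) (Or.inr ⟨hv, hy⟩)
    exact Setoid.trans' _ hA (Setoid.trans' _ ((le_sup_right : conf a b ω ≤ _) huv) hB)

theorem hit_contr {c : V → V₁} {A : Finset V} {z : V₁} (hc : Contr c A z) {B : Finset V}
    (hAB : Disjoint A B) (a b : E → V) (ω : Finset E) :
    Hit (c ∘ a) (c ∘ b) {z} (B.image c) ω ↔ Hit a b A B ω := by
  obtain ⟨x, hx⟩ := hc.surj z
  have hxA : x ∈ A := (hc.mem x).1 hx
  rcases B.eq_empty_or_nonempty with rfl | ⟨y, hy⟩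
  · constructor
    · rintro ⟨_, _, u, hu, _⟩
      exact absurd hu (by simp)
    · rintro ⟨_, _, u, hu, _⟩
      exact absurd hu (notMem_empty _)
  · rw [← pt2_hit hxA hy, ← pt_contr hc hAB, hit_iff, ← pt_hit (mem_image_of_mem c hy), hx]

theorem cross2_contr {c : V → V₁} {A : Finset V} {z : V₁} (hc : Contr c A z) {B : Finset V}
    (hAB : Disjoint A B) (a b : E → V) (p : E → ℝ) (q : ℝ) :
    cross2 a b p q A B =
      prob (c ∘ a) (c ∘ b) p q (B.image c) (Hit (c ∘ a) (c ∘ b) {z} (B.image c)) := by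
  classical
  rw [cross2, prob, sum_filter, sum_filter]
  have h1 : ∀ ω, weight2 a b p q A B ω = weight (c ∘ a) (c ∘ b) p q (B.image c) ω := by
    intro ω
    rw [weight, weight2, clusters_contr hc hAB]
  congr 1
  · refine sum_congr rfl fun ω _ => ?_
    by_cases h2 : Hit a b A B ω
    · rw [if_pos h2, if_pos ((hit_contr hc hAB a b ω).2 h2), h1]
    · rw [if_neg h2, if_neg fun k => h2 ((hit_contr hc hAB a b ω).1 k)]
  · exact sum_congr rfl fun ω _ => h1 ω

/-- The contraction of `A`. -/
def cc (A : Finset V) (x : V) : Option {v : V // v ∉ A} := if h : x ∈ A then none else some ⟨x, h⟩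

theorem contr_cc {A : Finset V} (hA : A.Nonempty) : Contr (cc A) A none where
  surj := by
    rintro (_ | ⟨x, hx⟩)
    · obtain ⟨x, hx⟩ := hA
      exact ⟨x, dif_pos hx⟩
    · exact ⟨x, dif_neg hx⟩
  mem := by
    intro x
    rw [cc]
    split_ifs with h
    · exact ⟨fun _ => h, fun _ => rfl⟩
    · exact ⟨fun k => absurd k (by simp), fun k => absurd k h⟩
  inj := by
    intro x y h
    rw [cc, cc] at h
    split_ifs at h with h1 h2 h2
    · exact Or.inr ⟨h1, h2⟩
    · left
      simpa using h

theorem conn_symm {a b : E → V} {ω : Finset E} {x y : V} (h : Conn a b ω x y) :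
    Conn a b ω y x := Relation.EqvGen.symm _ _ h

theorem cross2_comm (a b : E → V) (p : E → ℝ) (q : ℝ) (A B : Finset V) :
    cross2 a b p q A B = cross2 a b p q B A := by
  classical
  have h1 : ∀ ω, weight2 a b p q A B ω = weight2 a b p q B A ω := by
    intro ω
    rw [weight2, weight2, clusters2, clusters2]
    congr 4
    funext x y
    exact propext (by tauto)
  have h2 : ∀ ω, Hit a b A B ω ↔ Hit a b B A ω := by
    intro ω
    constructor <;> rintro ⟨x, hx, y, hy, h⟩ <;> exact ⟨y, hy, x, hx, conn_symm h⟩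
  rw [cross2, cross2, sum_filter, sum_filter]
  congr 1
  · refine sum_congr rfl fun ω _ => ?_
    by_cases h3 : Hit a b A B ω
    · rw [if_pos h3, if_pos ((h2 ω).1 h3), h1]
    · rw [if_neg h3, if_neg fun k => h3 ((h2 ω).2 k)]
  · exact sum_congr rfl fun ω _ => h1 ω

theorem cross2_empty (a b : E → V) (p : E → ℝ) (q : ℝ) (B : Finset V) :
    cross2 a b p q ∅ B = 0 := by
  classical
  rw [cross2, sum_filter, sum_eq_zero, zero_div]
  intro ω _
  rw [if_neg]
  rintro ⟨x, hx, _⟩
  exact absurd hx (notMem_empty x)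

theorem prob_hit_nonneg (a b : E → V) {p : E → ℝ} (hp : ∀ e, 0 ≤ p e ∧ p e < 1) {q : ℝ}
    (hq : 0 < q) (W : Finset V) (A : Finset E → Prop) : 0 ≤ prob a b p q W A := by
  classical
  rw [prob]
  have h : ∀ ω, 0 ≤ weight a b p q W ω := fun ω =>
    mul_nonneg (mul_nonneg (prod_nonneg fun e _ => (hp e).1)
      (prod_nonneg fun e _ => by linarith [(hp e).2])) (pow_nonneg hq.le _)
  exact div_nonneg (sum_nonneg fun ω _ => h ω) (sum_nonneg fun ω _ => h ω)

variable (a b : E → V) {p : E → ℝ} (hp : ∀ e, 0 ≤ p e ∧ p e < 1) {q : ℝ} (hq : 0 < q)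
  (hq1 : q ≤ 1)

include hp hq

theorem cross2_nonneg {A B : Finset V} (hAB : Disjoint A B) : 0 ≤ cross2 a b p q A B := by
  rcases A.eq_empty_or_nonempty with rfl | hA
  · rw [cross2_empty]
  · rw [cross2_contr (contr_cc hA) hAB]
    exact prob_hit_nonneg _ _ hp hq _ _

include hq1

theorem cross2_mono_right {A B B' : Finset V} (hB : B ⊆ B') (hAB : Disjoint A B') :
    cross2 a b p q A B ≤ cross2 a b p q A B' := by
  rcases A.eq_empty_or_nonempty with rfl | hA
  · rw [cross2_empty, cross2_empty]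
  · rw [cross2_contr (contr_cc hA) hAB, cross2_contr (contr_cc hA) (hAB.mono_right hB)]
    exact (comparison _ _ hp hq hq1 _ _ _).1 (image_subset_image hB)

theorem cross2_mono {A A' B B' : Finset V} (hA : A ⊆ A') (hB : B ⊆ B') (hAB : Disjoint A' B') :
    cross2 a b p q A B ≤ cross2 a b p q A' B' := by
  refine (cross2_mono_right a b hp hq hq1 hB (hAB.mono_left hA)).trans ?_
  rw [cross2_comm a b p q A, cross2_comm a b p q A']
  exact cross2_mono_right a b hp hq hq1 hA hAB.symm

theorem cross2_union {A B B' : Finset V} (hAB : Disjoint A (B ∪ B')) :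
    cross2 a b p q A (B ∪ B') ≤ cross2 a b p q A B + cross2 a b p q A B' := by
  rcases A.eq_empty_or_nonempty with rfl | hA
  · rw [cross2_empty, cross2_empty, cross2_empty, add_zero]
  · have h1 := disjoint_union_right.1 hAB
    rw [cross2_contr (contr_cc hA) hAB, cross2_contr (contr_cc hA) h1.1,
      cross2_contr (contr_cc hA) h1.2, image_union]
    have h2 := (comparison (cc A ∘ a) (cc A ∘ b) hp hq hq1 {none} (B.image (cc A))
      (B'.image (cc A))).2
    have h3 := prob_hit_nonneg (cc A ∘ a) (cc A ∘ b) hp hq (B.image (cc A) ∩ B'.image (cc A))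
      (Hit (cc A ∘ a) (cc A ∘ b) {none} (B.image (cc A) ∩ B'.image (cc A)))
    linarith

theorem cross2_biUnion {ι : Type*} [DecidableEq ι] {A : Finset V} (I : Finset ι)
    (B : ι → Finset V) (hAB : Disjoint A (I.biUnion B)) :
    cross2 a b p q A (I.biUnion B) ≤ ∑ i ∈ I, cross2 a b p q A (B i) := by
  induction I using Finset.induction_on with
  | empty =>
    rw [biUnion_empty, sum_empty, cross2_comm, cross2_empty]
  | insert i I hi ih =>
    rw [biUnion_insert] at hAB ⊢
    rw [sum_insert hi]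
    refine (cross2_union a b hp hq hq1 hAB).trans ?_
    have := ih (disjoint_union_right.1 hAB).2
    linarith

theorem cross2_cover {ι κ : Type*} [DecidableEq ι] [DecidableEq κ] (I : Finset ι)
    (J : Finset κ) (A : ι → Finset V) (B : κ → Finset V)
    (hAB : Disjoint (I.biUnion A) (J.biUnion B)) :
    cross2 a b p q (I.biUnion A) (J.biUnion B) ≤
      ∑ i ∈ I, ∑ j ∈ J, cross2 a b p q (A i) (B j) := by
  refine (cross2_biUnion a b hp hq hq1 J B hAB).trans ?_
  rw [sum_comm]
  refine sum_le_sum fun j hj => ?_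
  rw [cross2_comm]
  have h1 : Disjoint (B j) (I.biUnion A) := (hAB.mono_right (subset_biUnion_of_mem B hj)).symm
  refine (cross2_biUnion a b hp hq hq1 I A h1).trans ?_
  exact le_of_eq (sum_congr rfl fun i _ => cross2_comm _ _ _ _ _ _)

omit hp hq hq1

theorem cross2_single (p : E → ℝ) (q : ℝ) (x y : V) :
    cross2 a b p q {x} {y} = prob a b p q ∅ (fun ω => Conn a b ω x y) := by
  classical
  rw [cross2, prob, sum_filter, sum_filter]
  have h1 : ∀ ω, weight2 a b p q {x} {y} ω = weight a b p q ∅ ω := by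
    intro ω
    rw [weight, weight2, clusters2, clusters]
    congr 2
    refine card_quot ?_ ?_
    · rintro u v (h | ⟨hu, hv⟩ | ⟨hu, hv⟩)
      · exact Relation.EqvGen.rel _ _ (Or.inl h)
      · rw [mem_singleton] at hu hv
        rw [hu, hv]
        exact Relation.EqvGen.refl _
      · rw [mem_singleton] at hu hv
        rw [hu, hv]
        exact Relation.EqvGen.refl _
    · rintro u v (h | ⟨hu, -⟩)
      · exact Relation.EqvGen.rel _ _ (Or.inl h)
      · exact absurd hu (notMem_empty _)
  have h2 : ∀ ω, Hit a b {x} {y} ω ↔ Conn a b ω x y := by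
    intro ω
    constructor
    · rintro ⟨u, hu, v, hv, h⟩
      rw [mem_singleton] at hu hv
      rwa [hu, hv] at h
    · intro h
      exact ⟨x, mem_singleton_self x, y, mem_singleton_self y, h⟩
  congr 1
  · refine sum_congr rfl fun ω _ => ?_
    by_cases h3 : Hit a b {x} {y} ω
    · rw [if_pos h3, if_pos ((h2 ω).1 h3), h1]
    · rw [if_neg h3, if_neg fun k => h3 ((h2 ω).2 k)]
  · exact sum_congr rfl fun ω _ => h1 ω

/-! ### The rectangle -/

theorem contr_con (m k : ℕ) : Contr (con (m := m) (k := k)) (left m k) none where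
  surj := con_surj
  mem := fun _ => con_none
  inj := fun _ _ => con_inj

theorem left_far (m k : ℕ) : Disjoint (left m k) (far m k) := by
  rw [disjoint_left]
  intro v h h'
  rw [mem_left] at h
  rw [mem_far] at h'
  omega

/-- **The crossing probability** of the self-dual rectangle. -/
theorem cross2_rect (m k : ℕ) {q : ℝ} (hq : 0 < q) :
    cross2 ra rb (fun _ => selfDual q) q (left m k) (far m k) = 1 / (1 + √q) := by
  rw [cross2_contr (contr_con m k) (left_far m k)]
  exact crossing m k hq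

end Vale.Agent.P167.H623
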