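import Vale.Agent.P167.H623.Tm

/-!
The partition function with a wired set, restricted to the event that the clusters of `T` miss
the wired set, as a sum over closed sets.
-/

namespace Vale.Agent.P167.H623

open Finset

set_option linter.unusedSectionVars false

variable {V E : Type*} [Fintype V] [DecidableEq V] [Fintype E] [DecidableEq E]

/-- The weight of a class: for a class which misses `W` it is `q` if the class misses `T` and `κ`
if it meets `T`; for a class which meets `W` it is `1` if the class misses `T` and `0` else. -/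
noncomputable def cw (q κ : ℝ) (W T c : Finset V) : ℝ :=
  if Disjoint c W then (if Disjoint c T then q else κ) else (if Disjoint c T then 1 else 0)

/-- The partition function. -/
noncomputable def NN (a b : E → V) (w : E → ℝ) (q κ : ℝ) (T D : Finset V) : ℝ :=
  ∑ ω ∈ (univ : Finset E).powerset, (∏ e ∈ ω, w e) * wt (cw q κ Dᶜ T) (conf a b ω)

open Classical in
theorem wt_cw (P : Setoid V) (s κ : ℝ) (T D : Finset V) :
    wt (cw (1 - s) κ Dᶜ T) P =
      ∑ A ∈ D.powerset with T ⊆ A ∧ ∀ x y, P x y → (x ∈ A ↔ y ∈ A),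
        wt (theta Aᶜ T κ s) P := by
  have hfg : ∀ c, cw (1 - s) κ Dᶜ T c =
      (if Disjoint c Dᶜ then (if Disjoint c T then -s else κ) else 0) +
        (if Disjoint c T then 1 else 0) := by
    intro c
    rw [cw]
    split_ifs <;> ring
  rw [wt, prod_congr rfl fun c _ => hfg c, prod_add]
  symm
  refine sum_of_injOn (fun A => A.image (cls P)) ?_ ?_ ?_ ?_
  · have key : ∀ A : Finset V, (∀ x y, P x y → (x ∈ A ↔ y ∈ A)) →
        ∀ x, x ∈ A ↔ cls P x ∈ A.image (cls P) := by
      intro A hA x
      constructor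
      · intro hx
        exact mem_image_of_mem _ hx
      · intro hx
        obtain ⟨y, hy, hyx⟩ := mem_image.1 hx
        exact (hA y x (cls_eq_iff.1 hyx)).1 hy
    intro A hA A' hA' h
    rw [mem_coe, mem_filter] at hA hA'
    ext x
    have h' : A.image (cls P) = A'.image (cls P) := h
    rw [key A hA.2.2, key A' hA'.2.2, h']
  · intro A _
    rw [mem_coe, mem_powerset]
    exact image_subset_image (subset_univ _)
  · intro t ht hne
    rw [mem_powerset] at ht
    by_contra h0
    apply hne
    have hf : ∀ c ∈ t, Disjoint c Dᶜ := by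
      intro c hc
      by_contra hcD
      apply h0
      rw [prod_eq_zero hc (if_neg hcD), zero_mul]
    have hg : ∀ c ∈ classes P, c ∉ t → Disjoint c T := by
      intro c hc hct
      by_contra hcT
      apply h0
      rw [prod_eq_zero (mem_sdiff.2 ⟨hc, hct⟩) (if_neg hcT), mul_zero]
    have hcl : ∀ x, x ∈ t.biUnion id ↔ cls P x ∈ t := by
      intro x
      constructor
      · intro hx
        obtain ⟨c, hc, hxc⟩ := mem_biUnion.1 hx
        obtain ⟨y, rfl⟩ := mem_classes.1 (ht hc)
        rwa [← cls_eq_iff.2 (mem_cls.1 hxc)]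
      · intro hx
        exact mem_biUnion.2 ⟨_, hx, self_mem_cls P x⟩
    refine ⟨t.biUnion id, ?_, ?_⟩
    · rw [mem_coe, mem_filter, mem_powerset]
      refine ⟨?_, ?_, ?_⟩
      · intro x hx
        rw [hcl] at hx
        by_contra hxD
        exact disjoint_left.1 (hf _ hx) (self_mem_cls P x) (mem_compl.2 hxD)
      · intro x hx
        rw [hcl]
        by_contra hxt
        exact disjoint_left.1 (hg _ (cls_mem P x) hxt) (self_mem_cls P x) hx
      · intro x y hxy
        rw [hcl, hcl, cls_eq_iff.2 hxy]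
    · ext c
      rw [mem_image]
      constructor
      · rintro ⟨x, hx, rfl⟩
        exact (hcl x).1 hx
      · intro hc
        obtain ⟨x, rfl⟩ := mem_classes.1 (ht hc)
        exact ⟨x, (hcl x).2 hc, rfl⟩
  · intro A hA
    rw [mem_filter, mem_powerset] at hA
    obtain ⟨hAD, hTA, hA⟩ := hA
    have hsub : A.image (cls P) ⊆ classes P := image_subset_image (subset_univ _)
    rw [wt, ← prod_sdiff hsub, mul_comm]
    congr 1
    · refine prod_congr rfl fun c hc => ?_
      obtain ⟨x, hx, rfl⟩ := mem_image.1 hc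
      have h1 : cls P x ⊆ A := fun y hy => (hA x y (mem_cls.1 hy)).1 hx
      have h2 : Disjoint (cls P x) Aᶜ := disjoint_left.2 fun y hy hy' => (mem_compl.1 hy') (h1 hy)
      rw [theta, if_pos h2, if_pos (h2.mono_right (compl_subset_compl.2 hAD))]
    · refine prod_congr rfl fun c hc => ?_
      rw [mem_sdiff] at hc
      obtain ⟨x, rfl⟩ := mem_classes.1 hc.1
      have hx : x ∉ A := fun h => hc.2 (mem_image_of_mem _ h)
      rw [theta_one (mem_compl.2 hx), if_pos]
      refine disjoint_left.2 fun y hy hyT => ?_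
      exact hx ((hA x y (mem_cls.1 hy)).2 (hTA hyT))

/-- The product of `1 + w` over the edges in `A`. -/
noncomputable def zz (a b : E → V) (w : E → ℝ) (A : Finset V) : ℝ :=
  ∏ e ∈ inE a b A, (1 + w e)

/-- The signed partition function of `A`. -/
noncomputable def ZT (a b : E → V) (w : E → ℝ) (s κ : ℝ) (T A : Finset V) : ℝ :=
  ∑ ω ∈ (inE a b A).powerset, (∏ e ∈ ω, w e) * wt (theta Aᶜ T κ s) (conf a b ω)

theorem closed_iff {a b : E → V} {A : Finset V} {ω : Finset E} :
    (∀ x y, conf a b ω x y → (x ∈ A ↔ y ∈ A)) ↔ ω ⊆ inE a b A ∪ inE a b Aᶜ := by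
  constructor
  · intro h e he
    have := h _ _ (conf_edge a b he)
    rw [mem_union, mem_inE, mem_inE, mem_compl, mem_compl]
    tauto
  · intro h x y hxy
    have hc : Closed a b A ω := by
      intro e he
      have := h he
      rw [mem_union, mem_inE, mem_inE, mem_compl, mem_compl] at this
      tauto
    exact hc.mem_iff hxy

theorem disjoint_inE {a b : E → V} {A B : Finset V} (h : Disjoint A B) :
    Disjoint (inE a b A) (inE a b B) := by
  rw [disjoint_left]
  intro e he he'
  rw [mem_inE] at he he'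
  exact disjoint_left.1 h he.1 he'.1

theorem closed_union {a b : E → V} {A B : Finset V} (h : Disjoint A B) {g₁ g₂ : Finset E}
    (h₁ : g₁ ⊆ inE a b A) (h₂ : g₂ ⊆ inE a b B) : Closed a b A (g₁ ∪ g₂) := by
  intro e he
  rcases mem_union.1 he with h' | h'
  · have := mem_inE.1 (h₁ h')
    exact ⟨fun _ => this.2, fun _ => this.1⟩
  · have := mem_inE.1 (h₂ h')
    exact ⟨fun k => absurd this.1 (disjoint_left.1 h k),
      fun k => absurd this.2 (disjoint_left.1 h k)⟩

theorem res_union_left {a b : E → V} {A B : Finset V} (h : Disjoint A B) {g₁ g₂ : Finset E}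
    (h₁ : g₁ ⊆ inE a b A) (h₂ : g₂ ⊆ inE a b B) : res a b A (g₁ ∪ g₂) = g₁ := by
  ext e
  rw [mem_res, mem_union]
  constructor
  · rintro ⟨h' | h', h''⟩
    · exact h'
    · exact absurd (mem_inE.1 (h₂ h')).1 (disjoint_left.1 h h''.1)
  · intro h'
    exact ⟨Or.inl h', mem_inE.1 (h₁ h')⟩

theorem res_union_right {a b : E → V} {A B : Finset V} (h : Disjoint A B) {g₁ g₂ : Finset E}
    (h₁ : g₁ ⊆ inE a b A) (h₂ : g₂ ⊆ inE a b B) : res a b Aᶜ (g₁ ∪ g₂) = g₂ := by
  ext e
  rw [mem_res, mem_union]
  constructor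
  · rintro ⟨h' | h', h''⟩
    · exact absurd (mem_inE.1 (h₁ h')).1 (mem_compl.1 h''.1)
    · exact h'
  · intro h'
    have := mem_inE.1 (h₂ h')
    exact ⟨Or.inr h', mem_compl.2 (fun k => disjoint_left.1 h k this.1),
      mem_compl.2 (fun k => disjoint_left.1 h k this.2)⟩

theorem NN_eq (a b : E → V) (w : E → ℝ) (s κ : ℝ) (T D : Finset V) :
    NN a b w (1 - s) κ T D =
      ∑ A ∈ D.powerset with T ⊆ A, zz a b w Aᶜ * ZT a b w s κ T A := by
  classical
  have h1 : NN a b w (1 - s) κ T D = ∑ ω ∈ (univ : Finset E).powerset,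
      ∑ A ∈ D.powerset with T ⊆ A, if ω ⊆ inE a b A ∪ inE a b Aᶜ then
        (∏ e ∈ ω, w e) * wt (theta Aᶜ T κ s) (conf a b ω) else 0 := by
    rw [NN]
    refine sum_congr rfl fun ω _ => ?_
    rw [wt_cw, mul_sum, ← sum_filter, filter_filter]
    refine sum_congr ?_ fun _ _ => rfl
    ext A
    rw [mem_filter, mem_filter, closed_iff]
  rw [h1, sum_comm]
  refine sum_congr rfl fun A _ => ?_
  rw [← sum_filter]
  have h2 : (univ : Finset E).powerset.filter (fun ω => ω ⊆ inE a b A ∪ inE a b Aᶜ) =
      (inE a b A ∪ inE a b Aᶜ).powerset := by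
    ext ω
    rw [mem_filter, mem_powerset, mem_powerset]
    exact and_iff_right (subset_univ _)
  have hd : Disjoint A Aᶜ := disjoint_compl_right
  rw [h2, sum_powerset_union' (disjoint_inE hd), zz, prod_one_add, ZT, mul_comm, sum_mul_sum]
  refine sum_congr rfl fun ω₁ h₁ => sum_congr rfl fun ω₂ h₂ => ?_
  rw [mem_powerset] at h₁ h₂
  rw [prod_union ((disjoint_inE hd).mono h₁ h₂), wt_res (closed_union hd h₁ h₂),
    res_union_left hd h₁ h₂]
  ring

end Vale.Agent.P167.H623
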